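import Vale.Agent.P254M.Defs
import Vale.Agent.P254.Cov

/-!
From the entropy gap of smooth log-concave laws to the isotropic constant of convex bodies:
the uniform law is approximated by `exp (-U)` with `U = ε |x|² + N (mollified squared distance)`.
-/

namespace Vale.Agent.P254M

open MeasureTheory Set Filter Topology Finset Matrix
open Vale.Agent.P245
open scoped ContDiff

variable {n : ℕ}

/-- The entropy gap is at most `g` per dimension. -/
def GapLe (g : ℝ) : Prop :=
  ∀ (n : ℕ) (U : (Fin n → ℝ) → ℝ) (a b : ℝ), Bd U a b → gdef U ≤ n * g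

namespace Body

lemma continuous_sumSq : Continuous (sumSq : (Fin n → ℝ) → ℝ) := by unfold sumSq; fun_prop

lemma convex_sumSq (u v : Fin n → ℝ) {a b : ℝ} (ha : 0 ≤ a) (hb : 0 ≤ b) (hab : a + b = 1) :
    sumSq (a • u + b • v) ≤ a * sumSq u + b * sumSq v := by
  simp only [sumSq, Finset.mul_sum, ← Finset.sum_add_distrib, Pi.add_apply, Pi.smul_apply,
    smul_eq_mul]
  refine Finset.sum_le_sum fun i _ => ?_
  have e : a = 1 - b := by linarith
  subst e
  nlinarith [mul_nonneg (mul_nonneg ha hb) (sq_nonneg (u i - v i))]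

lemma sumSq_le_of_norm {y : Fin n → ℝ} {r : ℝ} (h : ‖y‖ ≤ r) : sumSq y ≤ n * r ^ 2 := by
  have hr : 0 ≤ r := (norm_nonneg y).trans h
  calc sumSq y ≤ ∑ _i : Fin n, r ^ 2 := by
        refine Finset.sum_le_sum fun i _ => ?_
        have := (norm_le_pi_norm y i).trans h
        rw [Real.norm_eq_abs] at this
        exact sq_le_sq' (by linarith [(abs_le.1 this).1]) (abs_le.1 this).2
    _ = n * r ^ 2 := by simp

lemma half_sumSq_le (u v : Fin n → ℝ) : sumSq u / 2 - sumSq v ≤ sumSq (u - v) := by
  simp only [sumSq, Finset.sum_div, ← Finset.sum_sub_distrib, Pi.sub_apply]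
  refine Finset.sum_le_sum fun i _ => ?_
  nlinarith [sq_nonneg (u i - 2 * v i)]

/-- The squared distance to `K`. -/
noncomputable def dsq (K : Set (Fin n → ℝ)) (x : Fin n → ℝ) : ℝ :=
  sInf ((fun p => sumSq (x - p)) '' K)

variable {K : Set (Fin n → ℝ)}

lemma exists_proj (hk : IsCompact K) (hne : K.Nonempty) (x : Fin n → ℝ) :
    ∃ p ∈ K, dsq K x = sumSq (x - p) ∧ ∀ q ∈ K, dsq K x ≤ sumSq (x - q) := by
  obtain ⟨p, hp, e, h⟩ := hk.exists_sInf_image_eq_and_le hne
    (f := fun p => sumSq (x - p)) (continuous_sumSq.comp (by fun_prop)).continuousOn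
  exact ⟨p, hp, e, fun q hq => e.le.trans (h q hq)⟩

lemma dsq_nonneg (hk : IsCompact K) (hne : K.Nonempty) (x : Fin n → ℝ) : 0 ≤ dsq K x := by
  obtain ⟨p, -, e, -⟩ := exists_proj hk hne x
  rw [e]; exact sumSq_nonneg _

lemma dsq_pos (hk : IsCompact K) (hne : K.Nonempty) {x : Fin n → ℝ} (hx : x ∉ K) :
    0 < dsq K x := by
  obtain ⟨p, hp, e, -⟩ := exists_proj hk hne x
  rw [e]
  refine lt_of_le_of_ne (sumSq_nonneg _) fun h => hx ?_
  have h0 := (Finset.sum_eq_zero_iff_of_nonneg fun i _ => sq_nonneg ((x - p) i)).1 h.symm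
  have : x = p := by
    funext i
    have := h0 i (Finset.mem_univ i)
    simpa [sub_eq_zero] using this
  exact this ▸ hp

lemma continuous_dsq (hk : IsCompact K) : Continuous (dsq K) :=
  hk.continuous_sInf (f := fun x p => sumSq (x - p)) (continuous_sumSq.comp (by fun_prop))

lemma convex_dsq (hc : Convex ℝ K) (hk : IsCompact K) (hne : K.Nonempty) (x y : Fin n → ℝ)
    {a b : ℝ} (ha : 0 ≤ a) (hb : 0 ≤ b) (hab : a + b = 1) :
    dsq K (a • x + b • y) ≤ a * dsq K x + b * dsq K y := by
  obtain ⟨p, hp, ep, -⟩ := exists_proj hk hne x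
  obtain ⟨q, hq, eq, -⟩ := exists_proj hk hne y
  obtain ⟨-, -, -, h⟩ := exists_proj hk hne (a • x + b • y)
  refine (h _ (hc hp hq ha hb hab)).trans ?_
  rw [ep, eq, show a • x + b • y - (a • p + b • q) = a • (x - p) + b • (y - q) by module]
  exact convex_sumSq _ _ ha hb hab

/-- The mollified squared distance. -/
noncomputable def sm (K : Set (Fin n → ℝ)) (k : ℕ) : (Fin n → ℝ) → ℝ := cv (moll n k) (dsq K)

lemma sm_eq (k : ℕ) (x : Fin n → ℝ) : sm K k x = ∫ t, moll n k t * dsq K (x - t) := by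
  rw [sm, cv, ← integral_sub_left_eq_self (fun y => moll n k (x - y) * dsq K y) volume x]
  simp

lemma integrable_moll_mul {f : (Fin n → ℝ) → ℝ} (hf : Continuous f) (k : ℕ) :
    Integrable fun t => moll n k t * f t :=
  ((continuous_moll k).mul hf).integrable_of_hasCompactSupport
    (hasCompactSupport_moll k).mul_right

lemma integrable_sm (hk : IsCompact K) (k : ℕ) (x : Fin n → ℝ) :
    Integrable fun t => moll n k t * dsq K (x - t) :=
  integrable_moll_mul ((continuous_dsq hk).comp (by fun_prop)) k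

lemma integrable_lin (hk : IsCompact K) (k : ℕ) (x : Fin n → ℝ) :
    Integrable fun t => moll n k t * (sumSq x - dsq K (x - t)) :=
  integrable_moll_mul (continuous_const.sub ((continuous_dsq hk).comp (by fun_prop))) k

lemma contDiff_sm (hk : IsCompact K) (k : ℕ) : ContDiff ℝ ∞ (sm K k) :=
  contDiff_cv (contDiff_moll k) (hasCompactSupport_moll k) (continuous_dsq hk).locallyIntegrable

lemma sm_nonneg (hk : IsCompact K) (hne : K.Nonempty) (k : ℕ) (x : Fin n → ℝ) :
    0 ≤ sm K k x := by
  rw [sm_eq]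
  exact integral_nonneg fun t => mul_nonneg (moll_nonneg k t) (dsq_nonneg hk hne _)

lemma convexOn_sm (hc : Convex ℝ K) (hk : IsCompact K) (hne : K.Nonempty) (k : ℕ) :
    ConvexOn ℝ Set.univ (sm K k) := by
  refine ⟨convex_univ, fun x _ y _ a b ha hb hab => ?_⟩
  simp only [smul_eq_mul, sm_eq]
  rw [← integral_const_mul, ← integral_const_mul,
    ← integral_add ((integrable_sm hk k x).const_mul a) ((integrable_sm hk k y).const_mul b)]
  refine integral_mono (integrable_sm hk k _)
    (((integrable_sm hk k x).const_mul a).add ((integrable_sm hk k y).const_mul b)) fun t => ?_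
  have e : a • x + b • y - t = a • (x - t) + b • (y - t) := by
    have : t = a • t + b • t := by rw [← add_smul, hab, one_smul]
    conv_lhs => rw [this]
    module
  have := convex_dsq hc hk hne (x - t) (y - t) ha hb hab
  rw [e]
  nlinarith [moll_nonneg (n := n) k t, mul_le_mul_of_nonneg_left this (moll_nonneg k t)]

lemma convexOn_sumSq_sub_sm (hk : IsCompact K) (hne : K.Nonempty) (k : ℕ) :
    ConvexOn ℝ Set.univ fun x => sumSq x - sm K k x := by
  have key : ∀ z, sumSq z - sm K k z = ∫ t, moll n k t * (sumSq z - dsq K (z - t)) := by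
    intro z
    simp only [mul_sub]
    rw [integral_sub (integrable_moll_mul continuous_const k) (integrable_sm hk k z),
      integral_mul_const, integral_moll, one_mul, sm_eq]
  refine ⟨convex_univ, fun x _ y _ a b ha hb hab => ?_⟩
  simp only [smul_eq_mul, key]
  rw [← integral_const_mul, ← integral_const_mul,
    ← integral_add ((integrable_lin hk k x).const_mul a) ((integrable_lin hk k y).const_mul b)]
  refine integral_mono (integrable_lin hk k _)
    (((integrable_lin hk k x).const_mul a).add ((integrable_lin hk k y).const_mul b)) fun t => ?_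
  obtain ⟨p, hp, ep, -⟩ := exists_proj hk hne (a • x + b • y - t)
  obtain ⟨-, -, -, hx⟩ := exists_proj hk hne (x - t)
  obtain ⟨-, -, -, hy⟩ := exists_proj hk hne (y - t)
  have e : sumSq (a • x + b • y) - sumSq (a • x + b • y - t - p)
      = a * (sumSq x - sumSq (x - t - p)) + b * (sumSq y - sumSq (y - t - p)) := by
    obtain rfl : a = 1 - b := by linarith
    simp only [sumSq, Pi.add_apply, Pi.sub_apply, Pi.smul_apply, smul_eq_mul,
      ← Finset.sum_sub_distrib, Finset.mul_sum, ← Finset.sum_add_distrib]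
    refine Finset.sum_congr rfl fun i _ => ?_
    ring
  have h : sumSq (a • x + b • y) - dsq K (a • x + b • y - t)
      ≤ a * (sumSq x - dsq K (x - t)) + b * (sumSq y - dsq K (y - t)) := by
    rw [ep, e]
    have h1 := hx p hp
    have h2 := hy p hp
    nlinarith
  nlinarith [mul_le_mul_of_nonneg_left h (moll_nonneg k t)]

lemma le_sm (hk : IsCompact K) (hne : K.Nonempty) :
    ∃ C, ∀ (k : ℕ) x, sumSq x / 4 - C ≤ sm K k x := by
  obtain ⟨q, hq, hmax⟩ := hk.exists_isMaxOn hne (continuous_sumSq (n := n)).continuousOn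
  refine ⟨(n : ℝ) / 2 + sumSq q, fun k x => ?_⟩
  have hi := integrable_moll_mul (n := n)
    (continuous_const : Continuous fun _ => sumSq x / 4 - ((n : ℝ) / 2 + sumSq q)) k
  calc sumSq x / 4 - ((n : ℝ) / 2 + sumSq q)
      = ∫ t, moll n k t * (sumSq x / 4 - ((n : ℝ) / 2 + sumSq q)) := by
        rw [integral_mul_const, integral_moll, one_mul]
    _ ≤ ∫ t, moll n k t * dsq K (x - t) := by
        refine integral_mono hi (integrable_sm hk k x) fun t => ?_
        rcases eq_or_ne (moll n k t) 0 with h | h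
        · simp [h]
        refine mul_le_mul_of_nonneg_left ?_ (moll_nonneg k t)
        obtain ⟨p, hp, ep, -⟩ := exists_proj hk hne (x - t)
        rw [ep]
        have h1 := half_sumSq_le (x - t) p
        have h2 := half_sumSq_le x t
        have h3 : sumSq p ≤ sumSq q := hmax hp
        have h4 : ‖t‖ ≤ 1 := (norm_le_of_moll_ne h).trans
          ((div_le_one (by positivity)).2 (by linarith [(Nat.cast_nonneg k : (0 : ℝ) ≤ k)]))
        have h5 := sumSq_le_of_norm h4
        linarith
    _ = sm K k x := (sm_eq k x).symm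

lemma sm_le_of_mem (hk : IsCompact K) (hne : K.Nonempty) {x : Fin n → ℝ} (hx : x ∈ K) (k : ℕ) :
    sm K k x ≤ n * (1 / ((k : ℝ) + 1)) ^ 2 := by
  have hi := integrable_moll_mul (n := n)
    (continuous_const : Continuous fun _ => (n : ℝ) * (1 / ((k : ℝ) + 1)) ^ 2) k
  calc sm K k x = ∫ t, moll n k t * dsq K (x - t) := sm_eq k x
    _ ≤ ∫ t, moll n k t * ((n : ℝ) * (1 / ((k : ℝ) + 1)) ^ 2) := by
        refine integral_mono (integrable_sm hk k x) hi fun t => ?_
        rcases eq_or_ne (moll n k t) 0 with h | h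
        · simp [h]
        refine mul_le_mul_of_nonneg_left ?_ (moll_nonneg k t)
        obtain ⟨-, -, -, hp⟩ := exists_proj hk hne (x - t)
        refine (hp x hx).trans ?_
        rw [show x - t - x = -t by module]
        exact sumSq_le_of_norm (by rw [norm_neg]; exact norm_le_of_moll_ne h)
    _ = _ := by rw [integral_mul_const, integral_moll, one_mul]

/-- The quadratic form of the Hessian. -/
noncomputable def q2 (f : (Fin n → ℝ) → ℝ) (v x : Fin n → ℝ) : ℝ :=
  ∑ i, v i * ∑ j, v j * pd i (pd j f) x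

lemma dot_hs (f : (Fin n → ℝ) → ℝ) (v x : Fin n → ℝ) : v ⬝ᵥ (hs f x *ᵥ v) = q2 f v x := by
  simp only [dotProduct, mulVec, hs, q2]
  refine Finset.sum_congr rfl fun i _ => congrArg _ (Finset.sum_congr rfl fun j _ => mul_comm _ _)

lemma line1 {f : (Fin n → ℝ) → ℝ} (hf : Differentiable ℝ f) (x v : Fin n → ℝ) (t : ℝ) :
    HasDerivAt (fun s : ℝ => f (x + s • v)) (∑ i, v i * pd i f (x + t • v)) t := by
  have h1 : HasDerivAt (fun s : ℝ => x + s • v) v t := by
    simpa using ((hasDerivAt_id t).smul_const v).const_add x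
  refine ((hf _).hasFDerivAt.comp_hasDerivAt t h1).congr_deriv ?_
  have e : v = ∑ i, v i • (Pi.single i (1:ℝ) : Fin n → ℝ) := by
    funext j; simp [Finset.sum_apply, Pi.single_apply]
  simp only [pd]
  generalize fderiv ℝ f (x + t • v) = L
  conv_lhs => rw [e, map_sum]
  simp

lemma line2 {f : (Fin n → ℝ) → ℝ} (hf : ContDiff ℝ ∞ f) (x v : Fin n → ℝ) :
    HasDerivAt (fun s : ℝ => ∑ i, v i * pd i f (x + s • v)) (q2 f v x) 0 := by
  have h : ∀ i : Fin n, HasDerivAt (fun s : ℝ => v i * pd i f (x + s • v))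
      (v i * ∑ j, v j * pd j (pd i f) x) 0 := by
    intro i
    have := (line1 ((contDiff_pd hf i).differentiable (by simp)) x v 0).const_mul (v i)
    simpa using this
  refine (HasDerivAt.fun_sum fun i _ => h i).congr_deriv ?_
  refine Finset.sum_congr rfl fun i _ => ?_
  simp only [pd_comm hf _ i]

lemma nonneg_of_convex {φ φ' : ℝ → ℝ} {c : ℝ} (hφ : ConvexOn ℝ Set.univ φ)
    (h1 : ∀ t, HasDerivAt φ (φ' t) t) (h2 : HasDerivAt φ' c 0) : 0 ≤ c := by
  have hm : Monotone φ' := fun s t hst => by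
    have := hφ.monotoneOn_deriv (fun u _ => (h1 u).differentiableAt) (Set.mem_univ s)
      (Set.mem_univ t) hst
    rwa [(h1 s).deriv, (h1 t).deriv] at this
  have := hm.deriv_nonneg (x := (0 : ℝ))
  rwa [h2.deriv] at this

lemma hasDerivAt_sumSq_line (x v : Fin n → ℝ) (t : ℝ) :
    HasDerivAt (fun s : ℝ => sumSq (x + s • v)) (∑ i, 2 * v i * (x i + t * v i)) t := by
  simp only [sumSq, Pi.add_apply, Pi.smul_apply, smul_eq_mul]
  refine HasDerivAt.fun_sum fun i _ => ?_
  have := ((((hasDerivAt_id t).mul_const (v i)).const_add (x i)).pow 2)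
  refine this.congr_deriv ?_
  simp; ring

lemma hasDerivAt_sumSq_line2 (x v : Fin n → ℝ) :
    HasDerivAt (fun s : ℝ => ∑ i, 2 * v i * (x i + s * v i)) (2 * sumSq v) 0 := by
  simp only [sumSq, Finset.mul_sum]
  refine HasDerivAt.fun_sum fun i _ => ?_
  have := (((hasDerivAt_id (0 : ℝ)).mul_const (v i)).const_add (x i)).const_mul (2 * v i)
  refine this.congr_deriv ?_
  simp; ring

lemma convexOn_line {f : (Fin n → ℝ) → ℝ} (hf : ConvexOn ℝ Set.univ f) (x v : Fin n → ℝ) :
    ConvexOn ℝ Set.univ fun s : ℝ => f (x + s • v) := by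
  refine ⟨convex_univ, fun s _ t _ a b ha hb hab => ?_⟩
  have := hf.2 (Set.mem_univ (x + s • v)) (Set.mem_univ (x + t • v)) ha hb hab
  rwa [show a • (x + s • v) + b • (x + t • v) = x + (a • s + b • t) • v by
    obtain rfl : a = 1 - b := by linarith
    simp only [smul_eq_mul]; module] at this

lemma q2_sm_bounds (hc : Convex ℝ K) (hk : IsCompact K) (hne : K.Nonempty) (k : ℕ)
    (x v : Fin n → ℝ) : 0 ≤ q2 (sm K k) v x ∧ q2 (sm K k) v x ≤ 2 * sumSq v := by
  have hd : Differentiable ℝ (sm K k) := (contDiff_sm hk k).differentiable (by simp)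
  constructor
  · exact nonneg_of_convex (convexOn_line (convexOn_sm hc hk hne k) x v) (line1 hd x v)
      (line2 (contDiff_sm hk k) x v)
  · have := nonneg_of_convex (convexOn_line (convexOn_sumSq_sub_sm hk hne k) x v)
      (fun t => (hasDerivAt_sumSq_line x v t).sub (line1 hd x v t))
      ((hasDerivAt_sumSq_line2 x v).sub (line2 (contDiff_sm hk k) x v))
    linarith

/-- The smooth approximation of the indicator potential of `K`. -/
noncomputable def pot (K : Set (Fin n → ℝ)) (k : ℕ) (x : Fin n → ℝ) : ℝ :=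
  1 / ((k : ℝ) + 1) * sumSq x + ((k : ℝ) + 1) * sm K k x

lemma contDiff_pot (hk : IsCompact K) (k : ℕ) : ContDiff ℝ ∞ (pot K k) := by
  unfold pot sumSq
  exact (contDiff_const.mul (by fun_prop)).add (contDiff_const.mul (contDiff_sm hk k))

lemma bd_pot (hc : Convex ℝ K) (hk : IsCompact K) (hne : K.Nonempty) (k : ℕ) :
    Bd (pot K k) (2 * (1 / ((k : ℝ) + 1))) (2 * (1 / ((k : ℝ) + 1)) + 2 * ((k : ℝ) + 1)) := by
  have hd : Differentiable ℝ (sm K k) := (contDiff_sm hk k).differentiable (by simp)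
  have hU := contDiff_pot hk k
  have key : ∀ x v : Fin n → ℝ, v ⬝ᵥ (hs (pot K k) x *ᵥ v)
      = 2 * (1 / ((k : ℝ) + 1)) * sumSq v + ((k : ℝ) + 1) * q2 (sm K k) v x := by
    intro x v
    have e1 : ∀ t, HasDerivAt (fun s : ℝ => pot K k (x + s • v))
        (1 / ((k : ℝ) + 1) * (∑ i, 2 * v i * (x i + t * v i))
          + ((k : ℝ) + 1) * ∑ i, v i * pd i (sm K k) (x + t • v)) t :=
      fun t => ((hasDerivAt_sumSq_line x v t).const_mul _).add ((line1 hd x v t).const_mul _)
    have e2 : (fun t : ℝ => ∑ i, v i * pd i (pot K k) (x + t • v)) = fun t =>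
        1 / ((k : ℝ) + 1) * (∑ i, 2 * v i * (x i + t * v i))
          + ((k : ℝ) + 1) * ∑ i, v i * pd i (sm K k) (x + t • v) :=
      funext fun t => (line1 (hU.differentiable (by simp)) x v t).unique (e1 t)
    have h := line2 hU x v
    rw [e2] at h
    rw [dot_hs, h.unique (((hasDerivAt_sumSq_line2 x v).const_mul _).add
      ((line2 (contDiff_sm hk k) x v).const_mul _))]
    ring
  refine ⟨hU, by positivity, ?_, fun x v => ?_, fun x v => ?_⟩
  · have : (0 : ℝ) ≤ k := Nat.cast_nonneg k
    linarith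
  · rw [key]
    have := (q2_sm_bounds hc hk hne k x v).1
    have : (0 : ℝ) ≤ ((k : ℝ) + 1) * q2 (sm K k) v x := by positivity
    linarith
  · rw [key]
    have := (q2_sm_bounds hc hk hne k x v).2
    have h : ((k : ℝ) + 1) * q2 (sm K k) v x ≤ ((k : ℝ) + 1) * (2 * sumSq v) :=
      mul_le_mul_of_nonneg_left this (by positivity)
    linarith

lemma pot_nonneg (hk : IsCompact K) (hne : K.Nonempty) (k : ℕ) (x : Fin n → ℝ) :
    0 ≤ pot K k x := by
  have := sm_nonneg hk hne k x
  have := sumSq_nonneg x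
  unfold pot; positivity

lemma le_pot (hk : IsCompact K) (hne : K.Nonempty) :
    ∃ C, ∀ (k : ℕ) x, sumSq x / 4 - C ≤ pot K k x := by
  obtain ⟨C, hC⟩ := le_sm hk hne
  refine ⟨C, fun k x => (hC k x).trans ?_⟩
  have h := sm_nonneg hk hne k x
  have h1 : 0 ≤ 1 / ((k : ℝ) + 1) * sumSq x := mul_nonneg (by positivity) (sumSq_nonneg x)
  have h2 : 0 ≤ (k : ℝ) * sm K k x := mul_nonneg (Nat.cast_nonneg k) h
  unfold pot; linarith

lemma tendsto_pot_of_mem (hk : IsCompact K) (hne : K.Nonempty) {x : Fin n → ℝ} (hx : x ∈ K) :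
    Tendsto (fun k => pot K k x) atTop (𝓝 0) := by
  have h0 := tendsto_one_div_add_atTop_nhds_zero_nat (𝕜 := ℝ)
  refine squeeze_zero (fun k => pot_nonneg hk hne k x) (fun k => ?_)
    (g := fun k : ℕ => (sumSq x + n) * (1 / ((k : ℝ) + 1))) (by simpa using h0.const_mul (sumSq x + n))
  have hk1 : (0 : ℝ) < (k : ℝ) + 1 := by positivity
  have h := mul_le_mul_of_nonneg_left (sm_le_of_mem hk hne hx k) hk1.le
  have e : ((k : ℝ) + 1) * ((n : ℝ) * (1 / ((k : ℝ) + 1)) ^ 2) = n * (1 / ((k : ℝ) + 1)) := by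
    field_simp
  unfold pot
  rw [add_mul, mul_comm (1 / ((k : ℝ) + 1)) (sumSq x)]
  linarith

lemma tendsto_pot_of_notMem (hk : IsCompact K) (hne : K.Nonempty) {x : Fin n → ℝ} (hx : x ∉ K) :
    Tendsto (fun k => pot K k x) atTop atTop := by
  have h1 : Tendsto (fun k => sm K k x) atTop (𝓝 (dsq K x)) :=
    tendsto_cv_moll (continuous_dsq hk) x
  have h2 : Tendsto (fun k : ℕ => ((k : ℝ) + 1)) atTop atTop :=
    tendsto_atTop_add_const_right _ 1 tendsto_natCast_atTop_atTop
  refine tendsto_atTop_mono (fun k => ?_) (h2.atTop_mul_pos (dsq_pos hk hne hx) h1)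
  have : 0 ≤ 1 / ((k : ℝ) + 1) * sumSq x := mul_nonneg (by positivity) (sumSq_nonneg x)
  unfold pot; linarith

lemma integrable_gauss {c : ℝ} (hc : 0 < c) :
    Integrable fun x : Fin n → ℝ => Real.exp (-c * sumSq x) := by
  have := Integrable.fintype_prod (ι := Fin n)
    (f := fun (_ : Fin n) (s : ℝ) => Real.exp (-c * s ^ 2))
    fun _ => integrable_exp_neg_mul_sq hc
  refine this.congr (Eventually.of_forall fun x => ?_)
  simp only [sumSq, Finset.mul_sum, Real.exp_sum]

lemma tendsto_moment (hk : IsCompact K) (hne : K.Nonempty) {φ : (Fin n → ℝ) → ℝ}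
    (hφ : Continuous φ) {M : ℝ} (hM : 0 ≤ M) (hφb : ∀ x, |φ x| ≤ M * (1 + sumSq x)) :
    Tendsto (fun k => ∫ x, φ x * Real.exp (-pot K k x)) atTop (𝓝 (∫ x in K, φ x)) := by
  obtain ⟨C, hC⟩ := le_pot hk hne
  rw [← integral_indicator hk.measurableSet]
  refine tendsto_integral_of_dominated_convergence
    (fun x => 8 * M * Real.exp C * Real.exp (-(1 / 8) * sumSq x))
    (fun k => (hφ.mul (contDiff_pot hk k).continuous.neg.rexp).aestronglyMeasurable)
    ((integrable_gauss (by norm_num)).const_mul _)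
    (fun k => Eventually.of_forall fun x => ?_) (Eventually.of_forall fun x => ?_)
  · rw [Real.norm_eq_abs, abs_mul, Real.abs_exp]
    have h1 : 1 + sumSq x ≤ 8 * Real.exp (sumSq x / 8) := by
      linarith [Real.add_one_le_exp (sumSq x / 8)]
    have h2 : Real.exp (-pot K k x) ≤ Real.exp C * Real.exp (-(sumSq x / 4)) := by
      rw [← Real.exp_add]
      exact Real.exp_le_exp.2 (by linarith [hC k x])
    calc |φ x| * Real.exp (-pot K k x)
        ≤ (M * (8 * Real.exp (sumSq x / 8))) * (Real.exp C * Real.exp (-(sumSq x / 4))) :=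
          mul_le_mul ((hφb x).trans (mul_le_mul_of_nonneg_left h1 hM)) h2 (Real.exp_pos _).le
            (by positivity)
      _ = 8 * M * Real.exp C * Real.exp (-(1 / 8) * sumSq x) := by
          rw [show -(1 / 8 : ℝ) * sumSq x = sumSq x / 8 + -(sumSq x / 4) by ring, Real.exp_add]
          ring
  · by_cases hx : x ∈ K
    · rw [indicator_of_mem hx]
      simpa using ((tendsto_pot_of_mem hk hne hx).neg.rexp).const_mul (φ x)
    · rw [indicator_of_notMem hx]
      simpa using (Real.tendsto_exp_neg_atTop_nhds_zero.comp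
        (tendsto_pot_of_notMem hk hne hx)).const_mul (φ x)

lemma tendsto_energy (hk : IsCompact K) (hne : K.Nonempty) :
    Tendsto (fun k => ∫ x, pot K k x * Real.exp (-pot K k x)) atTop (𝓝 0) := by
  obtain ⟨C, hC⟩ := le_pot hk hne
  rw [← integral_zero (Fin n → ℝ) ℝ]
  refine tendsto_integral_of_dominated_convergence
    (fun x => 2 * Real.exp (C / 2) * Real.exp (-(1 / 8) * sumSq x))
    (fun k => ((contDiff_pot hk k).continuous.mul
      (contDiff_pot hk k).continuous.neg.rexp).aestronglyMeasurable)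
    ((integrable_gauss (by norm_num)).const_mul _)
    (fun k => Eventually.of_forall fun x => ?_) (Eventually.of_forall fun x => ?_)
  · set u := pot K k x with hu
    have h0 : 0 ≤ u := pot_nonneg hk hne k x
    rw [Real.norm_eq_abs, abs_mul, Real.abs_exp, abs_of_nonneg h0]
    have h1 : u ≤ 2 * Real.exp (u / 2) := by linarith [Real.add_one_le_exp (u / 2)]
    calc u * Real.exp (-u) ≤ 2 * Real.exp (u / 2) * Real.exp (-u) :=
          mul_le_mul_of_nonneg_right h1 (Real.exp_pos _).le
      _ = 2 * Real.exp (-(u / 2)) := by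
          rw [mul_assoc, ← Real.exp_add]; ring_nf
      _ ≤ 2 * (Real.exp (C / 2) * Real.exp (-(1 / 8) * sumSq x)) := by
          rw [← Real.exp_add]
          have := hC k x
          gcongr
          linarith
      _ = _ := by ring
  · by_cases hx : x ∈ K
    · have h := tendsto_pot_of_mem hk hne hx
      simpa using h.mul h.neg.rexp
    · simpa [Function.comp_def] using (Real.tendsto_pow_mul_exp_neg_atTop_nhds_zero 1).comp
        (tendsto_pot_of_notMem hk hne hx)

/-- The constant. -/
noncomputable def cst (g : ℝ) (n : ℕ) : ℝ := n * g - n / 2 * Real.log (2 * Real.pi * Real.exp 1)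

variable {g : ℝ}

lemma abs_det_le (hgap : GapLe g) {U : (Fin n → ℝ) → ℝ} {a b : ℝ} (h : Bd U a b) :
    |(covm U).det| ≤ Real.exp (2 * (cst g n + (ex U U + Real.log (Zp U)))) := by
  rcases eq_or_ne (covm U).det 0 with h0 | h0
  · rw [h0, abs_zero]; positivity
  rw [← Real.exp_log_eq_abs h0]
  have := hgap n U a b h
  unfold gdef at this
  unfold cst
  exact Real.exp_le_exp.2 (by linarith)

lemma abs_det_covMatrix_le (hgap : GapLe g) (hc : Convex ℝ K) (hk : IsCompact K)
    (hi : (interior K).Nonempty) :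
    0 < volume.real K ∧
      |(P254.covMatrix K).det| ≤ Real.exp (2 * cst g n) * volume.real K ^ 2 := by
  have hne : K.Nonempty := hi.mono interior_subset
  have hV : 0 < volume.real K := ENNReal.toReal_pos
    (Measure.measure_pos_of_nonempty_interior volume hi).ne' hk.measure_lt_top.ne
  refine ⟨hV, ?_⟩
  have hZ : Tendsto (fun k => Zp (pot K k)) atTop (𝓝 (volume.real K)) := by
    have := tendsto_moment hk hne (φ := fun _ => 1) continuous_const zero_le_one
      (fun x => by simp [sumSq_nonneg x])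
    simpa [Zp] using this
  have hex : ∀ φ : (Fin n → ℝ) → ℝ, Continuous φ → (∀ x, |φ x| ≤ 1 + sumSq x) →
      Tendsto (fun k => ex (pot K k) φ) atTop (𝓝 ((volume.real K)⁻¹ * ∫ x in K, φ x)) := by
    intro φ hφ hb
    rw [mul_comm, ← div_eq_mul_inv]
    exact (tendsto_moment hk hne hφ zero_le_one (by simpa using hb)).div hZ hV.ne'
  have hcoord : ∀ (x : Fin n → ℝ) (i : Fin n), x i ^ 2 ≤ sumSq x := fun x i =>
    Finset.single_le_sum (f := fun j => x j ^ 2) (fun j _ => sq_nonneg _) (Finset.mem_univ i)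
  have h1 : ∀ i : Fin n, Tendsto (fun k => ex (pot K k) fun x => x i) atTop
      (𝓝 (P254.bodyCentroid K i)) := fun i => hex _ (continuous_apply i) fun x => by
    have := hcoord x i
    rw [abs_le]; constructor <;> nlinarith [sq_nonneg (x i - 1), sq_nonneg (x i + 1)]
  have h2 : Tendsto (fun k => covm (pot K k)) atTop (𝓝 (P254.covMatrix K)) := by
    refine tendsto_pi_nhds.2 fun i => tendsto_pi_nhds.2 fun j => ?_
    rw [P254.covMatrix_eq_raw hk hV i j]
    refine Tendsto.sub (hex _ (by fun_prop) fun x => ?_) ((h1 i).mul (h1 j))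
    have := hcoord x i
    have := hcoord x j
    rw [abs_le]; constructor <;> nlinarith [sq_nonneg (x i - x j), sq_nonneg (x i + x j)]
  have h3 : Tendsto (fun k => |(covm (pot K k)).det|) atTop (𝓝 |(P254.covMatrix K).det|) :=
    ((continuous_id.matrix_det).tendsto _ |>.comp h2).abs
  have hE : Tendsto (fun k => ex (pot K k) (pot K k)) atTop (𝓝 0) := by
    have := (tendsto_energy hk hne).div hZ hV.ne'
    simpa [ex, Pi.div_def] using this
  have h4 : Tendsto (fun k => Real.exp (2 * (cst g n + (ex (pot K k) (pot K k)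
      + Real.log (Zp (pot K k)))))) atTop
      (𝓝 (Real.exp (2 * cst g n) * volume.real K ^ 2)) := by
    have e : Real.exp (2 * cst g n) * volume.real K ^ 2
        = Real.exp (2 * (cst g n + (0 + Real.log (volume.real K)))) := by
      rw [zero_add, mul_add, Real.exp_add, two_mul (Real.log _), Real.exp_add, Real.exp_log hV]
      ring
    rw [e]
    exact (((hE.add ((Real.continuousAt_log hV.ne').tendsto.comp hZ)).const_add _).const_mul _).rexp
  exact le_of_tendsto_of_tendsto' h3 h4 fun k => abs_det_le hgap (bd_pot hc hk hne k)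

end Body

open Body

/-- The slicing bound follows from a bound on the entropy gap. -/
theorem isoConst_le_of_gap {g : ℝ} (hgap : GapLe g) {n : ℕ} (hn : 0 < n) {K : Set (Fin n → ℝ)}
    (hc : Convex ℝ K) (hk : IsCompact K) (hi : (interior K).Nonempty) :
    P254.isoConst K ≤ Real.exp g / Real.sqrt (2 * Real.pi * Real.exp 1) := by
  obtain ⟨hV, hdet⟩ := abs_det_covMatrix_le hgap hc hk hi
  have hn' : (0 : ℝ) < n := Nat.cast_pos.2 hn
  set p : ℝ := 1 / (2 * (Fintype.card (Fin n) : ℝ)) with hp
  have hb : |(P254.covMatrix K).det / volume.real K ^ 2| ≤ Real.exp (2 * cst g n) := by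
    rw [abs_div, abs_of_pos (pow_pos hV 2), div_le_iff₀ (pow_pos hV 2)]
    exact hdet
  calc P254.isoConst K ≤ |((P254.covMatrix K).det / volume.real K ^ 2) ^ p| := le_abs_self _
    _ ≤ |(P254.covMatrix K).det / volume.real K ^ 2| ^ p := Real.abs_rpow_le_abs_rpow _ _
    _ ≤ Real.exp (2 * cst g n) ^ p :=
        Real.rpow_le_rpow (abs_nonneg _) hb (by rw [hp]; positivity)
    _ = Real.exp (g - Real.log (2 * Real.pi * Real.exp 1) / 2) := by
        rw [← Real.exp_mul, hp, Fintype.card_fin, cst]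
        congr 1
        field_simp
    _ = Real.exp g / Real.sqrt (2 * Real.pi * Real.exp 1) := by
        have h2 : (0 : ℝ) < 2 * Real.pi * Real.exp 1 := by positivity
        rw [Real.exp_sub, Real.sqrt_eq_rpow, Real.rpow_def_of_pos h2]
        congr 2
        ring

lemma exp_log_two_div :
    Real.exp (Real.log 2) / Real.sqrt (2 * Real.pi * Real.exp 1)
      = Real.sqrt (2 / (Real.pi * Real.exp 1)) := by
  rw [Real.exp_log two_pos, eq_comm,
    ← Real.sqrt_sq (by positivity : (0:ℝ) ≤ 2 / Real.sqrt (2 * Real.pi * Real.exp 1))]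
  congr 1
  rw [div_pow, Real.sq_sqrt (by positivity)]
  field_simp

/-- The slicing bound follows from the entropy gap. -/
theorem bodyBound (hgap : EntropyGap) : BodyBound := fun _ hn _ hc hk hi =>
  (isoConst_le_of_gap (g := Real.log 2) hgap hn hc hk hi).trans exp_log_two_div.le

end Vale.Agent.P254M
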