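import Vale.Agent.P254M.BdBasic

/-!
The Brascamp–Lieb inequality with an affine test field, and the covariance bounds it gives.
-/

namespace Vale.Agent.P254M

open MeasureTheory Set Filter Topology Finset Matrix
open Vale.Agent.P245 hiding cv
open scoped ContDiff

variable {n : ℕ} {U : (Fin n → ℝ) → ℝ} {a b : ℝ}

lemma poly_mulVec {A : (Fin n → ℝ) → Matrix (Fin n) (Fin n) ℝ} {v : (Fin n → ℝ) → Fin n → ℝ}
    (hA : ∀ i j, Poly fun x => A x i j) (hv : ∀ j, Poly fun x => v x j) (i : Fin n) :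
    Poly fun x => (A x *ᵥ v x) i := by
  simp only [mulVec, dotProduct]
  exact Poly.sum (F := fun j x => A x i j * v x j) _ fun j _ => (hA i j).mul (hv j)

lemma poly_dot {v w : (Fin n → ℝ) → Fin n → ℝ} (hv : ∀ i, Poly fun x => v x i)
    (hw : ∀ j, Poly fun x => w x j) : Poly fun x => v x ⬝ᵥ w x :=
  Poly.sum (F := fun i x => v x i * w x i) _ fun i _ => (hv i).mul (hw i)

namespace Bd

variable (h : Bd U a b)
include h

/-- The normalised potential, as a smooth potential in the sense of `Smo`. -/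
noncomputable def smo : Smo n a where
  V x := U x + Real.log (Zp U)
  smooth := h.smooth.add contDiff_const
  hess x v := by
    have e : ∀ i j, pd i (pd j fun y => U y + Real.log (Zp U)) x = pd i (pd j U) x := fun i j => by
      congr 1; funext y; simp [pd, fderiv_add_const]
    simp only [e]
    refine (h.lower x v).trans (le_of_eq ?_)
    simp only [dotProduct, mulVec, hs, mul_sum]
    exact sum_congr rfl fun i _ => sum_congr rfl fun j _ => by ring
  one := by
    simp only [neg_add, Real.exp_add, integral_mul_const, Real.exp_neg (Real.log (Zp U)),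
      Real.exp_log h.grow.Zp_pos]
    exact mul_inv_cancel₀ h.grow.Zp_pos.ne'
  second := by
    simp only [neg_add, Real.exp_add, ← mul_assoc]
    exact (h.grow.integrable Poly.sumSq').mul_const _

lemma smo_pd (i : Fin n) (x : Fin n → ℝ) : pd i h.smo.V x = gr U x i := by
  simp [pd, gr, smo, fderiv_add_const]

lemma integral_smo (f : (Fin n → ℝ) → ℝ) : ∫ x, f x ∂h.smo.μ = ex U f := by
  rw [h.smo.integral_μ, ex, ← integral_div]
  congr 1; funext x
  simp only [Smo.p, smo, neg_add, Real.exp_add, Real.exp_neg (Real.log (Zp U)),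
    Real.exp_log h.grow.Zp_pos]
  ring

lemma integrable_smo {f : (Fin n → ℝ) → ℝ} (hf : Poly f) : Integrable f h.smo.μ := by
  refine (h.smo.integrable_μ_iff f).2 (((h.grow.integrable hf).div_const (Zp U)).congr
    (Eventually.of_forall fun x => ?_))
  simp only [Smo.p, smo, neg_add, Real.exp_add, Real.exp_neg (Real.log (Zp U)),
    Real.exp_log h.grow.Zp_pos]
  ring

/-- The Bochner identity. -/
lemma bochner_eq {u : (Fin n → ℝ) → ℝ} (hu : Smo.IsTest u) :
    ex U (fun x => h.smo.gen u x ^ 2)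
      = ex U fun x => (∑ i, ∑ j, pd j (pd i u) x ^ 2)
          + gr u x ⬝ᵥ (hs U x *ᵥ gr u x) := by
  set S := h.smo
  have hg := S.contDiff_gen hu
  have hci : ∀ {F : (Fin n → ℝ) → ℝ}, Continuous F → HasCompactSupport F → Integrable F S.μ :=
    fun {F} hF hFc => hF.integrable_of_hasCompactSupport hFc
  have c1 : ∀ i, Continuous (pd i u) := fun i => (contDiff_pd hu.1 i).continuous
  have c2 : ∀ i j, Continuous (pd i (pd j u)) := fun i j =>
    (contDiff_pd (contDiff_pd hu.1 j) i).continuous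
  have cV : ∀ i j, Continuous (pd i (pd j S.V)) := fun i j =>
    (contDiff_pd (contDiff_pd S.smooth j) i).continuous
  have iA : ∀ i, Integrable (fun x => S.gen (pd i u) x * pd i u x) S.μ := fun i =>
    hci ((S.contDiff_gen (hu.pd i)).continuous.mul (c1 i)) (hasCompactSupport_pd hu.2 i).mul_left
  have iB : ∀ i, Integrable (fun x => (∑ j, pd i (pd j S.V) x * pd j u x) * pd i u x) S.μ := fun i =>
    hci (by fun_prop) (hasCompactSupport_pd hu.2 i).mul_left
  have iC : ∀ i, Integrable (fun x => ∑ j, pd j (pd i u) x ^ 2) S.μ := fun i =>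
    integrable_finsetSum _ fun j _ => hci (by fun_prop)
      (hasCompactSupport_sq (hasCompactSupport_pd (hu.pd i).2 j))
  have e2 : ∀ i, -∫ x, S.gen (pd i u) x * pd i u x ∂S.μ = ∫ x, (∑ j, pd j (pd i u) x ^ 2) ∂S.μ := by
    intro i
    simp only [mul_comm (S.gen (pd i u) _)]
    rw [S.gen_ibp ((contDiff_pd hu.1 i).of_le (by simp)) (hu.pd i), neg_neg,
      integral_finsetSum _ fun j _ => hci (by fun_prop)
        (hasCompactSupport_sq (hasCompactSupport_pd (hu.pd i).2 j))]
    simp [sq]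
  rw [← h.integral_smo, ← h.integral_smo]
  calc ∫ x, S.gen u x ^ 2 ∂S.μ
      = (∑ i, -∫ x, S.gen (pd i u) x * pd i u x ∂S.μ)
        + ∑ i, ∫ x, (∑ j, pd i (pd j S.V) x * pd j u x) * pd i u x ∂S.μ := by
        simp only [sq]
        rw [S.gen_ibp (hg.of_le (by simp)) hu, ← Finset.sum_neg_distrib, ← Finset.sum_add_distrib]
        refine Finset.sum_congr rfl fun i _ => ?_
        simp only [S.pd_gen hu, sub_mul]
        rw [integral_sub (iA i) (iB i)]
        ring
    _ = _ := by
        simp only [e2, ← sum_add_distrib]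
        rw [sum_add_distrib, ← integral_finsetSum _ fun i _ => iB i,
          ← integral_finsetSum _ fun i _ => iC i,
          ← integral_add (integrable_finsetSum _ fun i _ => iC i)
            (integrable_finsetSum _ fun i _ => iB i)]
        congr 1; funext x
        congr 1
        simp only [dotProduct, mulVec, mul_sum, sum_mul]
        refine sum_congr rfl fun i _ => sum_congr rfl fun j _ => ?_
        have : pd i (pd j S.V) x = hs U x i j := by
          rw [show pd j S.V = fun y => gr U y j from funext fun y => h.smo_pd j y]; rfl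
        rw [this]; simp [gr]; ring

/-- The Brascamp–Lieb inequality with an affine test field. -/
theorem bl {f : (Fin n → ℝ) → ℝ} (hf : ContDiff ℝ 1 f) (hm : Poly f)
    (hdf : ∀ i, Poly (pd i f)) {M : (Fin n → ℝ) → Matrix (Fin n) (Fin n) ℝ}
    (hMm : ∀ i j, Poly fun x => M x i j)
    (hM : ∀ x w u, 2 * (w ⬝ᵥ u) - u ⬝ᵥ (hs U x *ᵥ u) ≤ w ⬝ᵥ (M x *ᵥ w))
    (D : Matrix (Fin n) (Fin n) ℝ) :
    cv2 U f f ≤ ex U (fun x => (gr f x - D *ᵥ gr U x) ⬝ᵥ (M x *ᵥ (gr f x - D *ᵥ gr U x)))
      + ∑ i, ∑ j, D i j ^ 2 := by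
  set S := h.smo
  set m := ex U f with hmdef
  set w : (Fin n → ℝ) → Fin n → ℝ := fun x => gr f x - D *ᵥ gr U x with hw
  set R := ex U fun x => w x ⬝ᵥ (M x *ᵥ w x)
  set f0 := fun x => f x - m with hf0
  have hm0 : Poly f0 := hm.sub_const m
  have hL : MemLp f0 2 S.μ :=
    (memLp_two_iff_integrable_sq hm0.1.aestronglyMeasurable).2 (h.integrable_smo (hm0.pow 2))
  have h00 : ∫ x, f0 x ∂S.μ = 0 := by
    rw [h.integral_smo, hf0, h.grow.ex_sub hm (Poly.const m), h.grow.ex_const, hmdef, sub_self]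
  have hvar : cv2 U f f = ex U fun x => f0 x ^ 2 := by
    have e : (fun x => f0 x ^ 2) = fun x => (f x * f x - 2 * m * f x) + m * m := by
      funext x; simp only [hf0]; ring
    rw [cv2, e, h.grow.ex_add ((hm.mul hm).sub (hm.const_mul _)) (Poly.const _),
      h.grow.ex_sub (hm.mul hm) (hm.const_mul _), ex_const_mul, h.grow.ex_const, hmdef]
    ring
  refine le_of_forall_pos_le_add fun ε hε => ?_
  obtain ⟨u, hu, hclose⟩ := S.exists_gen_near hL h00 hε
  rw [h.integral_smo] at hclose
  have hmc : ∀ {F : (Fin n → ℝ) → ℝ}, Continuous F → HasCompactSupport F → Poly F := by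
    intro F hF hFc
    obtain ⟨C, hC⟩ := hF.bounded_above_of_compact_support hFc
    exact Poly.bdd hF fun x => by simpa using hC x
  have m1 : ∀ i, Poly (pd i u) := fun i =>
    hmc (contDiff_pd hu.1 i).continuous (hasCompactSupport_pd hu.2 i)
  have m2 : ∀ i j, Poly (pd j (pd i u)) := fun i j =>
    hmc (contDiff_pd (contDiff_pd hu.1 i) j).continuous (hasCompactSupport_pd (hu.pd i).2 j)
  have mG : Poly (S.gen u) := hmc (S.contDiff_gen hu).continuous (S.hasCompactSupport_gen hu)
  have mDs : ∀ i, Poly fun x => (D *ᵥ gr U x) i :=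
    poly_mulVec (A := fun _ => D) (fun i j => Poly.const _) h.poly_gr
  have mw : ∀ i, Poly fun x => w x i := fun i => (hdf i).sub (mDs i)
  have mwM : Poly fun x => w x ⬝ᵥ (M x *ᵥ w x) := poly_dot mw (poly_mulVec hMm mw)
  have mwu : Poly fun x => w x ⬝ᵥ gr u x := poly_dot mw m1
  have mH : Poly fun x => gr u x ⬝ᵥ (hs U x *ᵥ gr u x) := poly_dot m1 (poly_mulVec h.poly_hs m1)
  have mS : Poly fun x => ∑ i, ∑ j, pd j (pd i u) x ^ 2 :=
    Poly.sum _ fun i _ => Poly.sum _ fun j _ => (m2 i j).pow 2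
  have mD : Poly fun x => ∑ i, ∑ j, D i j * pd j (pd i u) x :=
    Poly.sum _ fun i _ => Poly.sum _ fun j _ => (m2 i j).const_mul _
  have mF : Poly fun x => gr f x ⬝ᵥ gr u x := Poly.sum _ fun i _ => (hdf i).mul (m1 i)
  -- duality
  have e1 : ex U (fun x => f0 x * S.gen u x) = -ex U fun x => gr f x ⬝ᵥ gr u x := by
    rw [← h.integral_smo, S.gen_ibp (hf.sub contDiff_const) hu]
    simp only [dotProduct, gr]
    rw [h.grow.ex_sum _ fun i _ => (hdf i).mul (m1 i)]
    congr 1; refine sum_congr rfl fun i _ => ?_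
    rw [h.integral_smo]
    congr 1; funext x
    simp [pd, fderiv_sub_const]
  -- the affine field integrates against the Hessian
  have e2 : ex U (fun x => ∑ i, ∑ j, D i j * pd j (pd i u) x)
      = ex U fun x => (D *ᵥ gr U x) ⬝ᵥ gr u x := by
    simp only [dotProduct, mulVec, sum_mul, gr]
    rw [h.grow.ex_sum (F := fun i x => ∑ j, D i j * pd j (pd i u) x) _
        fun i _ => Poly.sum _ fun j _ => (m2 i j).const_mul _,
      h.grow.ex_sum (F := fun i x => ∑ j, D i j * pd j U x * pd i u x) _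
        fun i _ => Poly.sum _ fun j _ => ((h.poly_gr j).const_mul (D i j)).mul (m1 i)]
    refine sum_congr rfl fun i _ => ?_
    rw [h.grow.ex_sum (F := fun j x => D i j * pd j (pd i u) x) _ fun j _ => (m2 i j).const_mul _,
      h.grow.ex_sum (F := fun j x => D i j * pd j U x * pd i u x) _
        fun j _ => ((h.poly_gr j).const_mul (D i j)).mul (m1 i)]
    refine sum_congr rfl fun j _ => ?_
    rw [ex_const_mul, h.ibp ((contDiff_pd hu.1 i).of_le (by simp)) (m1 i) j (m2 i j), ← ex_const_mul]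
    congr 1; funext x; simp only [gr]; ring
  have e3 : ex U (fun x => f0 x ^ 2) = 2 * ex U (fun x => f0 x * S.gen u x)
      - ex U (fun x => S.gen u x ^ 2) + ex U fun x => (f0 x - S.gen u x) ^ 2 := by
    rw [← ex_const_mul, ← h.grow.ex_sub ((hm0.mul mG).const_mul 2) (mG.pow 2),
      ← h.grow.ex_add (((hm0.mul mG).const_mul 2).sub (mG.pow 2)) ((hm0.sub mG).pow 2)]
    congr 1; funext x; ring
  have e4 : ex U (fun x => gr f x ⬝ᵥ gr u x)
      = ex U (fun x => w x ⬝ᵥ gr u x) + ex U fun x => (D *ᵥ gr U x) ⬝ᵥ gr u x := by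
    rw [← h.grow.ex_add mwu (poly_dot (v := fun x => D *ᵥ gr U x) (w := fun x => gr u x) mDs m1)]
    congr 1; funext x
    simp only [hw, sub_dotProduct]; ring
  have k1 : ex U (fun x => -2 * (w x ⬝ᵥ gr u x) - gr u x ⬝ᵥ (hs U x *ᵥ gr u x)) ≤ R := by
    refine h.grow.ex_mono ((mwu.const_mul _).sub mH) mwM fun x => ?_
    have := hM x (w x) (-gr u x)
    simp only [dotProduct_neg, neg_dotProduct, mulVec_neg, neg_neg] at this
    linarith
  have k2 : ex U (fun x => -2 * (∑ i, ∑ j, D i j * pd j (pd i u) x)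
      - ∑ i, ∑ j, pd j (pd i u) x ^ 2) ≤ ∑ i, ∑ j, D i j ^ 2 := by
    have := h.grow.ex_mono ((mD.const_mul (-2)).sub mS) (Poly.const (∑ i, ∑ j, D i j ^ 2)) fun x => by
      simp only [mul_sum, ← sum_sub_distrib]
      exact sum_le_sum fun i _ => sum_le_sum fun j _ => by
        nlinarith [sq_nonneg (pd j (pd i u) x + D i j)]
    rwa [h.grow.ex_const] at this
  rw [h.grow.ex_sub (mwu.const_mul _) mH, ex_const_mul] at k1
  rw [h.grow.ex_sub (mD.const_mul _) mS, ex_const_mul, e2] at k2
  rw [hvar, e3, e1, h.bochner_eq hu, h.grow.ex_add mS mH, e4]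
  linarith

lemma dual_inv_lower (x : Fin n → ℝ) (w u : Fin n → ℝ) :
    2 * (w ⬝ᵥ u) - u ⬝ᵥ (hs U x *ᵥ u) ≤ 1 / a * sumSq w := by
  have h1 := h.lower x u
  have h2 : 2 * (w ⬝ᵥ u) ≤ 1 / a * sumSq w + a * sumSq u := by
    simp only [dotProduct, sumSq, mul_sum, ← sum_add_distrib]
    refine sum_le_sum fun i _ => ?_
    have : 1 / a * w i ^ 2 + a * u i ^ 2 - 2 * (w i * u i) = (w i - a * u i) ^ 2 / a := by
      field_simp [h.a_pos.ne']; ring
    nlinarith [div_nonneg (sq_nonneg (w i - a * u i)) h.a_pos.le]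
  linarith

/-- The Poincaré inequality. -/
theorem poincare {f : (Fin n → ℝ) → ℝ} (hf : ContDiff ℝ 1 f) (hm : Poly f)
    (hdf : ∀ i, Poly (pd i f)) :
    cv2 U f f ≤ 1 / a * ex U fun x => sumSq (gr f x) := by
  have h1 := h.bl hf hm hdf (M := fun _ => (1 / a) • (1 : Matrix (Fin n) (Fin n) ℝ))
    (fun i j => Poly.const _) (fun x w u => by
      refine (h.dual_inv_lower x w u).trans (le_of_eq ?_)
      simp [sumSq, smul_mulVec, dotProduct, mul_sum]
      exact sum_congr rfl fun i _ => by ring) 0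
  simp at h1
  refine h1.trans (le_of_eq ?_)
  rw [← ex_const_mul]
  congr 1; funext x
  simp [sumSq, dotProduct, mul_sum, smul_mulVec]
  exact sum_congr rfl fun i _ => by ring

end Bd

end Vale.Agent.P254M
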