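import Vale.Agent.P254M.Gibbs

/-!
Potentials with two-sided Hessian bounds.
-/

namespace Vale.Agent.P254M

open MeasureTheory Set Filter Topology Finset Matrix
open Vale.Agent.P245 hiding cv
open scoped ContDiff

variable {n : ℕ}

lemma Poly.sub_const {f : (Fin n → ℝ) → ℝ} (h : Poly f) (r : ℝ) : Poly fun x => f x - r :=
  h.sub (Poly.const r)

lemma Poly.bdd {f : (Fin n → ℝ) → ℝ} (hc : Continuous f) {B : ℝ} (hB : ∀ x, |f x| ≤ B) : Poly f :=
  ⟨hc, B, 0, fun x => by simpa using hB x⟩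

lemma hasDerivAt_comp_line {f : (Fin n → ℝ) → ℝ} (hf : Differentiable ℝ f) (x v : Fin n → ℝ) (t : ℝ) :
    HasDerivAt (fun r : ℝ => f (x + r • v)) (∑ i, v i * pd i f (x + t • v)) t := by
  have h1 : HasDerivAt (fun r : ℝ => x + r • v) v t := by
    simpa using ((hasDerivAt_id t).smul_const v).const_add x
  have h2 := (hf (x + t • v)).hasFDerivAt.comp_hasDerivAt t h1
  refine h2.congr_deriv ?_
  have e : v = ∑ i, v i • (Pi.single i (1:ℝ) : Fin n → ℝ) := by
    funext j; simp [Finset.sum_apply, Pi.single_apply]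
  calc fderiv ℝ f (x + t • v) v = fderiv ℝ f (x + t • v) (∑ i, v i • (Pi.single i (1:ℝ) : Fin n → ℝ)) := by
        rw [← e]
    _ = _ := by
        rw [map_sum]
        simp [pd, smul_eq_mul]

lemma hs_symm {U : (Fin n → ℝ) → ℝ} (hU : ContDiff ℝ ∞ U) (x : Fin n → ℝ) (i j : Fin n) :
    hs U x i j = hs U x j i := pd_comm hU i j x

lemma abs_pd_sub_le {f : (Fin n → ℝ) → ℝ} (hf : Differentiable ℝ f) {K : ℝ}
    (h : ∀ i x, |pd i f x| ≤ K) (x y : Fin n → ℝ) :
    |f y - f x| ≤ K * ∑ i, |y i - x i| := by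
  obtain ⟨r, -, e⟩ := exists_hasDerivAt_eq_slope (fun r : ℝ => f (x + r • (y - x)))
    (fun r => ∑ i, (y - x) i * pd i f (x + r • (y - x))) zero_lt_one
    (fun r _ => (hasDerivAt_comp_line hf x (y - x) r).continuousAt.continuousWithinAt)
    (fun r _ => hasDerivAt_comp_line hf x (y - x) r)
  simp at e
  rw [← e, mul_sum]
  refine (abs_sum_le_sum_abs _ _).trans (sum_le_sum fun i _ => ?_)
  rw [abs_mul, mul_comm K]
  exact mul_le_mul_of_nonneg_left (h i _) (abs_nonneg _)

namespace Bd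

variable {U : (Fin n → ℝ) → ℝ} {a b : ℝ} (h : Bd U a b)
include h

lemma b_pos : 0 < b := h.a_pos.trans_le h.a_le

lemma diff : Differentiable ℝ U := h.smooth.differentiable (by simp)

lemma diff_gr (i : Fin n) : Differentiable ℝ (pd i U) :=
  (contDiff_pd h.smooth i).differentiable (by simp)

lemma continuous_hs (i j : Fin n) : Continuous fun x => hs U x i j :=
  (contDiff_pd (contDiff_pd h.smooth j) i).continuous

lemma abs_hs_le (i j : Fin n) (x : Fin n → ℝ) : |hs U x i j| ≤ b := by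
  set H := hs U x
  set u : Fin n → ℝ := Pi.single i 1
  set v : Fin n → ℝ := Pi.single j 1
  have hd : ∀ k, H k k ≤ b ∧ 0 ≤ H k k := by
    intro k
    have h1 := h.lower x (Pi.single k 1)
    have h2 := h.upper x (Pi.single k 1)
    simp [sumSq, Pi.single_apply, mulVec, dotProduct] at h1 h2
    exact ⟨h2, h.a_pos.le.trans h1⟩
  have q : ∀ r : ℝ, 0 ≤ H i i + 2 * r * H i j + r ^ 2 * H j j := by
    intro r
    have h1 := h.lower x (u + r • v)
    refine le_trans ?_ (h1.trans (le_of_eq ?_))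
    · exact mul_nonneg h.a_pos.le (sumSq_nonneg _)
    · simp only [H, u, v, mulVec_add, add_dotProduct, dotProduct_add, mulVec_smul, dotProduct_smul,
        smul_dotProduct, smul_eq_mul, single_one_dotProduct, mulVec_single_one, col_apply]
      rw [hs_symm h.smooth x j i]; ring
  have p1 := q 1
  have p2 := q (-1)
  obtain ⟨a1, a2⟩ := hd i
  obtain ⟨b1, b2⟩ := hd j
  rw [abs_le]
  constructor <;> nlinarith

lemma abs_gr_le (i : Fin n) (x : Fin n → ℝ) :
    |gr U x i| ≤ |gr U 0 i| + b * ∑ j, |x j| := by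
  have h1 := abs_pd_sub_le (h.diff_gr i) (fun j y => by
    have := h.abs_hs_le j i y
    simpa [hs] using this) 0 x
  simp only [Pi.zero_apply, sub_zero] at h1
  have := abs_sub_abs_le_abs_sub (pd i U x) (pd i U 0)
  show |pd i U x| ≤ |pd i U 0| + _
  linarith

lemma poly_gr (i : Fin n) : Poly fun x => gr U x i := by
  refine (((Poly.const 1).add (((Poly.const 1).add Poly.sumSq').const_mul 1)).const_mul
    (|gr U 0 i| + b * n)).of_le (h.diff_gr i).continuous fun x => ?_
  have h2 : ∀ j, |x j| ≤ 1 + sumSq x := fun j => by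
    nlinarith [sq_le_sumSq x j, sq_abs (x j), sq_nonneg (|x j| - 1), abs_nonneg (x j)]
  have h3 : ∑ j, |x j| ≤ n * (1 + sumSq x) := by
    refine (sum_le_sum fun j _ => h2 j).trans ?_
    simp; linarith
  rw [abs_of_nonneg (a := (|gr U 0 i| + b * n) * (1 + 1 * (1 + sumSq x)))
    (mul_nonneg (by have := h.b_pos; positivity) (by nlinarith [sumSq_nonneg x]))]
  refine (h.abs_gr_le i x).trans ?_
  have := h.b_pos
  nlinarith [mul_le_mul_of_nonneg_left h3 h.b_pos.le, mul_nonneg (abs_nonneg (gr U 0 i))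
    (sumSq_nonneg x), mul_nonneg (mul_nonneg h.b_pos.le (Nat.cast_nonneg (α := ℝ) n))
    (sumSq_nonneg x), abs_nonneg (gr U 0 i)]

lemma poly_hs (i j : Fin n) : Poly fun x => hs U x i j :=
  Poly.bdd (h.continuous_hs i j) (h.abs_hs_le i j)

lemma quad_lower (x : Fin n → ℝ) :
    U 0 + ∑ i, x i * gr U 0 i + a / 2 * sumSq x ≤ U x := by
  set f1 : ℝ → ℝ := fun r => (∑ i, x i * pd i U (0 + r • x)) - a * r * sumSq x
  have hd1 : ∀ r : ℝ, HasDerivAt f1 ((x ⬝ᵥ (hs U (0 + r • x) *ᵥ x)) - a * sumSq x) r := by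
    intro r
    have h1 := HasDerivAt.fun_sum (u := (Finset.univ : Finset (Fin n))) fun i _ =>
      (hasDerivAt_comp_line (h.diff_gr i) 0 x r).const_mul (x i)
    have h2 : HasDerivAt (fun r : ℝ => a * r * sumSq x) (a * sumSq x) r := by
      simpa using ((hasDerivAt_id r).const_mul a).mul_const (sumSq x)
    refine (h1.sub h2).congr_deriv ?_
    congr 1
    simp only [dotProduct, mulVec, mul_sum]
    refine sum_congr rfl fun i _ => sum_congr rfl fun j _ => ?_
    rw [hs_symm h.smooth]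
    simp only [hs]; ring
  have hmono : Monotone f1 := monotone_of_hasDerivAt_nonneg hd1 fun r => by
    simpa using h.lower (0 + r • x) x
  have hd0 : ∀ r : ℝ, HasDerivAt (fun r : ℝ => U (0 + r • x) - a / 2 * r ^ 2 * sumSq x) (f1 r) r := by
    intro r
    refine ((hasDerivAt_comp_line h.diff 0 x r).sub
      (((hasDerivAt_pow 2 r).const_mul (a / 2)).mul_const (sumSq x))).congr_deriv ?_
    simp only [f1]; push_cast; ring
  obtain ⟨r, hr, e⟩ := exists_hasDerivAt_eq_slope (fun r : ℝ => U (0 + r • x) - a / 2 * r ^ 2 * sumSq x)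
    f1 zero_lt_one (fun r _ => (hd0 r).continuousAt.continuousWithinAt) (fun r _ => hd0 r)
  have h3 : f1 0 ≤ f1 r := hmono hr.1.le
  simp [f1] at h3 e
  simp only [gr]
  linarith

lemma grow : Grow U := by
  refine ⟨h.smooth.continuous, a / 4, -U 0 + ∑ i, gr U 0 i ^ 2 / a, by linarith [h.a_pos], fun x => ?_⟩
  refine le_trans ?_ (h.quad_lower x)
  have h1 : ∀ i, -(gr U 0 i ^ 2 / a) ≤ x i * gr U 0 i + a / 4 * x i ^ 2 := fun i => by
    have : x i * gr U 0 i + a / 4 * x i ^ 2 + gr U 0 i ^ 2 / a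
        = (a * x i + 2 * gr U 0 i) ^ 2 / (4 * a) := by field_simp [h.a_pos.ne']; ring
    nlinarith [div_nonneg (sq_nonneg (a * x i + 2 * gr U 0 i)) (by linarith [h.a_pos] : (0:ℝ) ≤ 4 * a)]
  have h2 := sum_le_sum (s := (Finset.univ : Finset (Fin n))) fun i _ => h1 i
  rw [sum_neg_distrib, sum_add_distrib, ← mul_sum] at h2
  unfold sumSq at *
  linarith

end Bd

namespace Grow

variable {U f g : (Fin n → ℝ) → ℝ} (h : Grow U)
include h

lemma abs_ex_le (hf : Poly f) (hg : Poly g) (hle : ∀ x, |f x| ≤ g x) : |ex U f| ≤ ex U g := by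
  rw [abs_le]
  refine ⟨?_, h.ex_mono hf hg fun x => (le_abs_self _).trans (hle x)⟩
  have h1 := h.ex_mono (hg.const_mul (-1)) hf fun x => by linarith [neg_le_abs (f x), hle x]
  have h2 : ex U (fun x => -1 * g x) = -ex U g := by
    simp only [ex, mul_assoc]; rw [integral_const_mul]; ring
  linarith

omit h in
lemma ex_nonneg {U f : (Fin n → ℝ) → ℝ} (_h : Grow U) (hle : ∀ x, 0 ≤ f x) : 0 ≤ ex U f :=
  Vale.Agent.P254M.ex_nonneg U hle

/-- Cauchy-Schwarz. -/
lemma ex_cs (hf : Poly f) (hg : Poly g) :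
    ex U (fun x => f x * g x) ^ 2 ≤ ex U (fun x => f x ^ 2) * ex U fun x => g x ^ 2 :=
  h.ex_mul_sq_le hf hg

end Grow

/-- Integration by parts against `exp (-U)`. -/
lemma Bd.ibp {U f : (Fin n → ℝ) → ℝ} {a b : ℝ} (h : Bd U a b) (hf : ContDiff ℝ 1 f) (hm : Poly f)
    (i : Fin n) (hm' : Poly (pd i f)) :
    ex U (pd i f) = ex U fun x => f x * gr U x i := by
  have := h.grow.ex_ibp h.diff (hf.differentiable one_ne_zero) i hm hm' (h.poly_gr i)
  simpa [gr] using this

end Vale.Agent.P254M
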