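import Mathlib
import Vale.Agent.P245.Cube.Bochner
import Vale.Agent.P254.Defs

/-!
Interface for the entropy-gap bound `gdef U ≤ n log 2` for log-concave laws:
notions, and the statements exchanged between the modules.
-/

namespace Vale.Agent.P254M

open MeasureTheory Set Filter Topology Finset Matrix
open Vale.Agent.P245 (pd dot sumSq)
open scoped ContDiff

variable {n : ℕ}

/-- The gradient. -/
noncomputable def gr (U : (Fin n → ℝ) → ℝ) (x : Fin n → ℝ) : Fin n → ℝ := fun i => pd i U x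

/-- The Hessian. -/
noncomputable def hs (U : (Fin n → ℝ) → ℝ) (x : Fin n → ℝ) : Matrix (Fin n) (Fin n) ℝ :=
  fun i j => pd i (pd j U) x

/-- A smooth potential with Hessian between `a` and `b`. -/
structure Bd (U : (Fin n → ℝ) → ℝ) (a b : ℝ) : Prop where
  smooth : ContDiff ℝ ∞ U
  a_pos : 0 < a
  a_le : a ≤ b
  lower : ∀ x v, a * sumSq v ≤ v ⬝ᵥ (hs U x *ᵥ v)
  upper : ∀ x v, v ⬝ᵥ (hs U x *ᵥ v) ≤ b * sumSq v

/-- A continuous potential growing quadratically. -/
structure Grow (U : (Fin n → ℝ) → ℝ) : Prop where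
  cont : Continuous U
  lower : ∃ c C : ℝ, 0 < c ∧ ∀ x, c * sumSq x - C ≤ U x

/-- Continuous functions of polynomial growth. -/
def Poly (f : (Fin n → ℝ) → ℝ) : Prop :=
  Continuous f ∧ ∃ (C : ℝ) (m : ℕ), ∀ x, |f x| ≤ C * (1 + sumSq x) ^ m

/-- The mass of `exp (-U)`. -/
noncomputable def Zp (U : (Fin n → ℝ) → ℝ) : ℝ := ∫ x, Real.exp (-U x)

/-- The mean under the law proportional to `exp (-U)`. -/
noncomputable def ex (U f : (Fin n → ℝ) → ℝ) : ℝ := (∫ x, f x * Real.exp (-U x)) / Zp U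

/-- The covariance of two observables. -/
noncomputable def cv2 (U f g : (Fin n → ℝ) → ℝ) : ℝ :=
  ex U (fun x => f x * g x) - ex U f * ex U g

/-- The barycentre. -/
noncomputable def mn (U : (Fin n → ℝ) → ℝ) : Fin n → ℝ := fun i => ex U fun x => x i

/-- The covariance matrix. -/
noncomputable def covm (U : (Fin n → ℝ) → ℝ) : Matrix (Fin n) (Fin n) ℝ :=
  fun i j => cv2 U (fun x => x i) (fun x => x j)

/-- The centred third moments. -/
noncomputable def tens (U : (Fin n → ℝ) → ℝ) (i j l : Fin n) : ℝ :=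
  ex U fun x => (x i - mn U i) * (x j - mn U j) * (x l - mn U l)

/-- Gaussian entropy with the same covariance, minus entropy. -/
noncomputable def gdef (U : (Fin n → ℝ) → ℝ) : ℝ :=
  (n : ℝ) / 2 * Real.log (2 * Real.pi * Real.exp 1) + Real.log (covm U).det / 2
    - (ex U U + Real.log (Zp U))

/-- The weight potential of `y` given `x`. -/
noncomputable def condY (k : ℝ) (ψ : (Fin n → ℝ) → ℝ) (x y : Fin n → ℝ) : ℝ :=
  (k + 1) * ψ y - k * dot x y

/-- The regularised Legendre transform of `ψ`. -/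
noncomputable def Phi (k : ℝ) (ψ : (Fin n → ℝ) → ℝ) (x : Fin n → ℝ) : ℝ :=
  Real.log (Zp (condY k ψ x))

/-- The weight potential of `x` given `y`. -/
noncomputable def condX (k : ℝ) (U ψ : (Fin n → ℝ) → ℝ) (y x : Fin n → ℝ) : ℝ :=
  U x + Phi k ψ x - k * dot x y

/-- `ψ` is the regularised moment map potential of `exp (-U)`. -/
structure Balanced (k : ℝ) (U ψ : (Fin n → ℝ) → ℝ) : Prop where
  mass : Zp ψ = 1
  eq : ∀ y, k * ψ y = Real.log (Zp (condX k U ψ y))

/-- Existence of regularised moment maps. -/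
def Existence : Prop :=
  ∀ (n : ℕ) (U : (Fin n → ℝ) → ℝ) (a b k : ℝ), Bd U a b → Zp U = 1 → mn U = 0 → 0 < k →
    ∃ ψ, Bd ψ (k / ((k + 1) * b)) (k / ((k + 1) * a)) ∧ Balanced k U ψ

/-- The sharp third-moment bound in the presence of curvature `diag s`, for a law with covariance
`diag c`; `l` is a free nonnegative parameter (linearisation point of the cubic term). -/
def SkewMoment : Prop :=
  ∀ (n : ℕ) (U : (Fin n → ℝ) → ℝ) (a b : ℝ) (c s l : Fin n → ℝ), Bd U a b →
    mn U = 0 → covm U = Matrix.diagonal c → (∀ i, 0 < c i) → (∀ i, 0 ≤ s i) → (∀ i, 0 ≤ l i) →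
    (∀ x v, ∑ i, s i * v i ^ 2 ≤ v ⬝ᵥ (hs U x *ᵥ v)) →
      (∑ i, ∑ j, ∑ k, (1 + 2 * s i * l i) * (tens U i j k ^ 2 / (4 * c k)))
          + ∑ i, s i * l i * (2 * c i ^ 2 - l i * c i)
        ≤ ∑ i, c i ^ 2

/-- The entropy gap is at most `log 2` per dimension. -/
def EntropyGap : Prop :=
  ∀ (n : ℕ) (U : (Fin n → ℝ) → ℝ) (a b : ℝ), Bd U a b → gdef U ≤ n * Real.log 2

/-- The slicing bound. -/
def BodyBound : Prop :=
  ∀ n : ℕ, 0 < n → ∀ K : Set (Fin n → ℝ), Convex ℝ K → IsCompact K → (interior K).Nonempty →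
    Vale.Agent.P254.isoConst K ≤ Real.sqrt (2 / (Real.pi * Real.exp 1))

end Vale.Agent.P254M
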