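import Vale.Agent.P254M.ExistBasic

/-!
Existence of regularised moment maps: a variational proof.
-/

namespace Vale.Agent.P254M.Exist

open MeasureTheory Set Filter Topology Finset Matrix
open Vale.Agent.P245 (pd dot sumSq sumSq_nonneg sq_le_sumSq continuous_sumSq dot_le_sumSq)
open scoped ContDiff

variable {n : ℕ}

/-- The data of the problem. -/
structure Data (n : ℕ) where
  U : (Fin n → ℝ) → ℝ
  a : ℝ
  b : ℝ
  k : ℝ
  hU : Bd U a b
  mass : Zp U = 1
  cent : mn U = 0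
  hk : 0 < k

namespace Data

variable (S : Data n)

lemma k1_pos : 0 < S.k + 1 := by linarith [S.hk]

/-- The lower curvature of the potential. -/
noncomputable def al : ℝ := S.k / ((S.k + 1) * S.b)

/-- The upper curvature of the potential. -/
noncomputable def be : ℝ := S.k / ((S.k + 1) * S.a)

lemma al_pos : 0 < S.al := div_pos S.hk (mul_pos S.k1_pos S.hU.b_pos)

lemma be_pos : 0 < S.be := div_pos S.hk (mul_pos S.k1_pos S.hU.a_pos)

lemma al_le_be : S.al ≤ S.be := by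
  refine div_le_div_of_nonneg_left S.hk.le (mul_pos S.k1_pos S.hU.a_pos) ?_
  exact mul_le_mul_of_nonneg_left S.hU.a_le S.k1_pos.le

/-- The inner log-Laplace transform. -/
noncomputable def F (ψ : (Fin n → ℝ) → ℝ) : (Fin n → ℝ) → ℝ := Phi S.k ψ

/-- The outer potential. -/
noncomputable def W (ψ : (Fin n → ℝ) → ℝ) (x : Fin n → ℝ) : ℝ := S.U x + S.F ψ x

/-- The map whose fixed point is sought. -/
noncomputable def T (ψ : (Fin n → ℝ) → ℝ) (y : Fin n → ℝ) : ℝ :=
  1 / S.k * lp (S.W ψ) (S.k • y)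

/-- The functional. -/
noncomputable def J (ψ : (Fin n → ℝ) → ℝ) : ℝ :=
  1 / S.k * ex S.U (S.F ψ) - Real.log (Zp (S.T ψ))

lemma F_eq (ψ : (Fin n → ℝ) → ℝ) :
    S.F ψ = fun x => lp (fun y => (S.k + 1) * ψ y) (S.k • x) := by
  funext x
  show Real.log _ = Real.log _
  congr 2; funext y
  rw [condY, dot_smul_left]

lemma condX_eq (ψ : (Fin n → ℝ) → ℝ) (y : Fin n → ℝ) :
    condX S.k S.U ψ y = fun x => S.W ψ x - dot (S.k • y) x := by
  funext x
  rw [condX, dot_smul_left, P245.dot_comm]; rfl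

lemma k_mul_T (ψ : (Fin n → ℝ) → ℝ) (y : Fin n → ℝ) :
    S.k * S.T ψ y = Real.log (Zp (condX S.k S.U ψ y)) := by
  rw [T, condX_eq, ← mul_assoc, mul_one_div_cancel S.hk.ne', one_mul]; rfl

/-- Potentials whose inner transform has the right curvature. -/
def Good (ψ : (Fin n → ℝ) → ℝ) : Prop := Bd (S.F ψ) (S.k * S.a) (S.k * S.b)

lemma good_of_lp {ψ : (Fin n → ℝ) → ℝ}
    (h : Bd (lp fun y => (S.k + 1) * ψ y) (1 / ((S.k + 1) * S.be)) (1 / ((S.k + 1) * S.al))) :
    S.Good ψ := by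
  have h' := bd_comp_smul h S.hk
  have := S.k1_pos.ne'; have := S.hk.ne'; have := S.hU.a_pos.ne'; have := S.hU.b_pos.ne'
  rw [← S.F_eq, show S.k ^ 2 * (1 / ((S.k + 1) * S.be)) = S.k * S.a by rw [be]; field_simp,
    show S.k ^ 2 * (1 / ((S.k + 1) * S.al)) = S.k * S.b by rw [al]; field_simp] at h'
  exact h'

lemma good_of_bd {ψ : (Fin n → ℝ) → ℝ} (h : Bd ψ S.al S.be) : S.Good ψ :=
  S.good_of_lp (bd_lp (h.const_mul S.k1_pos))

lemma bd_W {ψ : (Fin n → ℝ) → ℝ} (h : S.Good ψ) :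
    Bd (S.W ψ) ((S.k + 1) * S.a) ((S.k + 1) * S.b) := by
  have := bd_add S.hU h
  rwa [show S.a + S.k * S.a = (S.k + 1) * S.a by ring,
    show S.b + S.k * S.b = (S.k + 1) * S.b by ring] at this

lemma bd_T {ψ : (Fin n → ℝ) → ℝ} (h : S.Good ψ) : Bd (S.T ψ) S.al S.be := by
  have h' := (bd_comp_smul (bd_lp (S.bd_W h)) S.hk).const_mul (one_div_pos.2 S.hk)
  have := S.k1_pos.ne'; have := S.hk.ne'; have := S.hU.a_pos.ne'; have := S.hU.b_pos.ne'
  rw [show 1 / S.k * (S.k ^ 2 * (1 / ((S.k + 1) * S.b))) = S.al by rw [al]; field_simp,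
    show 1 / S.k * (S.k ^ 2 * (1 / ((S.k + 1) * S.a))) = S.be by rw [be]; field_simp] at h'
  exact h'

section Step

variable {ψ : (Fin n → ℝ) → ℝ}

lemma exp_neg_condY (ψ : (Fin n → ℝ) → ℝ) (x y : Fin n → ℝ) :
    Real.exp (-S.W ψ x) * Real.exp (-condY S.k (S.T ψ) x y)
      = Real.exp (-(S.k + 1) * S.T ψ y) * Real.exp (-condX S.k S.U ψ y x) := by
  rw [← Real.exp_add, ← Real.exp_add]
  congr 1
  simp only [condY, condX, W, F]
  ring

lemma exp_T (hψ : S.Good ψ) (y : Fin n → ℝ) :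
    Real.exp (S.k * S.T ψ y) = Zp (condX S.k S.U ψ y) := by
  rw [k_mul_T, Real.exp_log]
  rw [condX_eq]
  exact ((S.bd_W hψ).sub_dot _).grow.Zp_pos

lemma exp_F (hψ : S.Good ψ) (x : Fin n → ℝ) :
    Real.exp (S.F (S.T ψ) x) = Zp (condY S.k (S.T ψ) x) := by
  refine Real.exp_log ?_
  have h := (((S.bd_T hψ).const_mul S.k1_pos).sub_dot (S.k • x)).grow.Zp_pos
  have e : condY S.k (S.T ψ) x = fun y => (S.k + 1) * S.T ψ y - dot (S.k • x) y := by
    funext y; rw [condY, dot_smul_left]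
  rwa [e]

lemma continuous_kernel (hψ : S.Good ψ) :
    Continuous (Function.uncurry fun x y : Fin n → ℝ =>
      Real.exp (-S.W ψ x) * Real.exp (-condY S.k (S.T ψ) x y)) := by
  have h1 := (S.bd_W hψ).smooth.continuous
  have h2 := (S.bd_T hψ).smooth.continuous
  unfold Function.uncurry condY dot
  fun_prop

/-- The mass transported by one step. -/
lemma mass_step (hψ : S.Good ψ) :
    ∫ x, Real.exp (-S.U x) * Real.exp (S.F (S.T ψ) x - S.F ψ x) = Zp (S.T ψ) ∧
      Integrable fun x => Real.exp (-S.U x) * Real.exp (S.F (S.T ψ) x - S.F ψ x) := by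
  have e1 : ∀ x, ∫ y, Real.exp (-S.W ψ x) * Real.exp (-condY S.k (S.T ψ) x y)
      = Real.exp (-S.U x) * Real.exp (S.F (S.T ψ) x - S.F ψ x) := fun x => by
    rw [integral_const_mul]
    show _ * Zp _ = _
    rw [← S.exp_F hψ, W, ← Real.exp_add, ← Real.exp_add]
    congr 1; ring
  have e2 : ∀ y, ∫ x, Real.exp (-S.W ψ x) * Real.exp (-condY S.k (S.T ψ) x y)
      = Real.exp (-S.T ψ y) := fun y => by
    simp only [S.exp_neg_condY ψ]
    rw [integral_const_mul]
    show _ * Zp _ = _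
    rw [← S.exp_T hψ, ← Real.exp_add]
    congr 1; ring
  have h := fubini (S.continuous_kernel hψ) (fun x y => by positivity)
    (fun y => by
      simp only [S.exp_neg_condY ψ]
      refine Integrable.const_mul ?_ _
      rw [condX_eq]
      exact ((S.bd_W hψ).sub_dot _).grow.integrable_exp)
    (by simp only [e2]; exact (S.bd_T hψ).grow.integrable_exp)
  simp only [e1, e2] at h
  exact h

/-- The second step carries mass one. -/
lemma mass_step_two (hψ : S.Good ψ) :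
    ∫ y, Real.exp (-S.T ψ y) * Real.exp (S.k * (S.T (S.T ψ) y - S.T ψ y)) = 1 ∧
      Integrable fun y => Real.exp (-S.T ψ y) * Real.exp (S.k * (S.T (S.T ψ) y - S.T ψ y)) := by
  have hψ' := S.good_of_bd (S.bd_T hψ)
  set G := fun y x : Fin n → ℝ =>
    Real.exp (-S.W (S.T ψ) x) * Real.exp (-condY S.k (S.T ψ) x y) with hGdef
  have e0 : ∀ x y, G y x
      = Real.exp (-(S.k + 1) * S.T ψ y) * Real.exp (-condX S.k S.U (S.T ψ) y x) := fun x y => by
    simp only [hGdef]
    rw [← Real.exp_add, ← Real.exp_add]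
    congr 1
    simp only [condY, condX, W, F]
    ring
  have e1 : ∀ x, ∫ y, G y x = Real.exp (-S.U x) := fun x => by
    simp only [hGdef]
    rw [integral_const_mul]
    show _ * Zp _ = _
    rw [← S.exp_F hψ, W, ← Real.exp_add]
    congr 1; ring
  have e2 : ∀ y, ∫ x, G y x
      = Real.exp (-S.T ψ y) * Real.exp (S.k * (S.T (S.T ψ) y - S.T ψ y)) := fun y => by
    simp only [e0]
    rw [integral_const_mul]
    show _ * Zp _ = _
    rw [← S.exp_T hψ', ← Real.exp_add, ← Real.exp_add]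
    congr 1; ring
  have hc : Continuous (Function.uncurry G) := by
    have h1 := (S.bd_W hψ').smooth.continuous
    have h2 := (S.bd_T hψ).smooth.continuous
    simp only [hGdef]
    unfold Function.uncurry condY dot
    fun_prop
  have h := fubini hc (fun x y => by positivity)
    (fun x => by
      simp only [hGdef]
      refine Integrable.const_mul ?_ _
      have := (((S.bd_T hψ).const_mul S.k1_pos).sub_dot (S.k • x)).grow.integrable_exp
      simpa [condY, dot_smul_left] using this)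
    (by simp only [e1]; exact S.hU.grow.integrable_exp)
  simp only [e1, e2] at h
  exact ⟨h.1.trans S.mass, h.2⟩

/-- One step does not increase the functional; equality forces a fixed point up to a constant. -/
lemma J_step (hψ : S.Good ψ) (hle : S.J ψ ≤ S.J (S.T ψ)) :
    ∃ c, ∀ x, S.F (S.T ψ) x = S.F ψ x + c := by
  have hψ' := S.good_of_bd (S.bd_T hψ)
  have hk := S.hk
  set L := Real.log (Zp (S.T ψ)) with hL
  have hZ : 0 < Zp (S.T ψ) := (S.bd_T hψ).grow.Zp_pos
  set Δ := fun x => S.F (S.T ψ) x - S.F ψ x with hΔ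
  obtain ⟨m1, i1⟩ := S.mass_step hψ
  obtain ⟨m2, i2⟩ := S.mass_step_two hψ
  have hF : Poly (S.F ψ) := Bd.poly hψ
  have hF' : Poly (S.F (S.T ψ)) := Bd.poly hψ'
  have hΔp : Poly Δ := hF'.sub hF
  have eX : ∀ f, ex S.U f = ∫ x, f x * Real.exp (-S.U x) := fun f => by
    rw [ex, S.mass, div_one]
  -- the second Jensen inequality
  set u := L / S.k with hu
  have key : ∀ y, Real.exp u * (1 + 1 / S.k) * Real.exp (-S.T ψ y)
      - Real.exp u * Real.exp (S.k * u) / S.k
        * (Real.exp (-S.T ψ y) * Real.exp (S.k * (S.T (S.T ψ) y - S.T ψ y)))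
      ≤ Real.exp (-S.T (S.T ψ) y) := by
    intro y
    set d := S.T (S.T ψ) y - S.T ψ y with hd
    have h1 : 1 + (-d - u) ≤ Real.exp (-d - u) := by linarith [Real.add_one_le_exp (-d - u)]
    have h2 : S.k * (d + u) + 1 ≤ Real.exp (S.k * (d + u)) := Real.add_one_le_exp _
    have h3 : (1 + 1 / S.k) - Real.exp (S.k * (d + u)) / S.k ≤ Real.exp (-d - u) := by
      refine le_trans ?_ h1
      have : (1 + 1 / S.k) - (S.k * (d + u) + 1) / S.k = 1 + (-d - u) := by field_simp; ring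
      rw [← this]
      have := div_le_div_of_nonneg_right h2 hk.le
      linarith
    have h4 := mul_le_mul_of_nonneg_left h3 (mul_pos (Real.exp_pos u) (Real.exp_pos (-S.T ψ y))).le
    have e : Real.exp u * Real.exp (-S.T ψ y) * Real.exp (-d - u) = Real.exp (-S.T (S.T ψ) y) := by
      rw [← Real.exp_add, ← Real.exp_add]; congr 1; rw [hd]; ring
    have e' : Real.exp (S.k * (d + u)) = Real.exp (S.k * u) * Real.exp (S.k * d) := by
      rw [← Real.exp_add]; congr 1; ring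
    rw [e, e'] at h4
    refine le_trans (le_of_eq ?_) h4
    ring
  have hZ' : Real.exp u * Zp (S.T ψ) ≤ Zp (S.T (S.T ψ)) := by
    have iT := (S.bd_T hψ).grow.integrable_exp
    have := integral_mono ((iT.const_mul (Real.exp u * (1 + 1 / S.k))).sub
      (i2.const_mul (Real.exp u * Real.exp (S.k * u) / S.k)))
      (S.bd_T hψ').grow.integrable_exp key
    rw [integral_sub' (iT.const_mul _) (i2.const_mul _), integral_const_mul, integral_const_mul,
      m2] at this
    refine le_trans (le_of_eq ?_) this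
    have e : Real.exp (S.k * u) = Zp (S.T ψ) := by
      rw [hu, mul_div_cancel₀ _ hk.ne', hL, Real.exp_log hZ]
    rw [e]
    simp only [Zp]
    ring
  have hlog : u + L ≤ Real.log (Zp (S.T (S.T ψ))) := by
    have := Real.log_le_log (mul_pos (Real.exp_pos u) hZ) hZ'
    rwa [Real.log_mul (Real.exp_pos u).ne' hZ.ne', Real.log_exp] at this
  have hEΔ : L ≤ ex S.U Δ := by
    rw [hΔ, S.hU.grow.ex_sub hF' hF]
    have h := hle
    simp only [J] at h
    rw [← hL] at h
    have h' : L / S.k ≤ 1 / S.k * (ex S.U (S.F (S.T ψ)) - ex S.U (S.F ψ)) := by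
      rw [hu] at hlog; linarith
    rw [one_div_mul_eq_div, div_le_div_iff_of_pos_right hk] at h'
    exact h'
  -- the first Jensen inequality, with equality
  set φ := fun x => (Real.exp (Δ x - L) - 1 - (Δ x - L)) * Real.exp (-S.U x) with hφ
  have hφ0 : ∀ x, 0 ≤ φ x := fun x =>
    mul_nonneg (by linarith [Real.add_one_le_exp (Δ x - L)]) (Real.exp_pos _).le
  have e3 : φ = fun x => (Real.exp (-L) * (Real.exp (-S.U x) * Real.exp (Δ x)))
      - ((1 - L) + Δ x) * Real.exp (-S.U x) := by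
    funext x
    simp only [hφ, sub_eq_add_neg (Δ x) L, Real.exp_add]
    ring
  have iφ2 := S.hU.grow.integrable ((Poly.const (1 - L)).add hΔp)
  have iφ : Integrable φ := by rw [e3]; exact (i1.const_mul _).sub iφ2
  have hI : ∫ x, φ x ≤ 0 := by
    rw [e3, integral_sub (i1.const_mul _) iφ2, integral_const_mul, m1, ← eX,
      S.hU.grow.ex_add (Poly.const _) hΔp, S.hU.grow.ex_const, hL, Real.exp_neg, Real.exp_log hZ,
      inv_mul_cancel₀ hZ.ne']
    rw [hL] at hEΔ
    linarith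
  have hcont : Continuous φ := by
    have := hΔp.1
    have := S.hU.smooth.continuous
    simp only [hφ]
    fun_prop
  refine ⟨L, fun x => ?_⟩
  by_contra hne
  have hpos : 0 < φ x := by
    refine mul_pos ?_ (Real.exp_pos _)
    have : Δ x - L ≠ 0 := fun h0 => hne (by simp only [hΔ] at h0; linarith)
    linarith [Real.add_one_lt_exp this]
  exact absurd (integral_pos_of_integrable_nonneg_nonzero (x := x) hcont iφ hφ0 hpos.ne')
    (not_lt.2 hI)

end Step

/-- Translating and shifting a potential. -/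
def shift (ψ : (Fin n → ℝ) → ℝ) (v : Fin n → ℝ) (d : ℝ) (y : Fin n → ℝ) : ℝ := ψ (y + v) + d

lemma F_shift {ψ : (Fin n → ℝ) → ℝ} (hψ : Bd ψ S.al S.be) (v : Fin n → ℝ) (d : ℝ) :
    S.F (shift ψ v d) = fun x => S.F ψ x - dot (S.k • v) x - (S.k + 1) * d := by
  funext x
  have e : (fun y => (S.k + 1) * shift ψ v d y - dot (S.k • x) y)
      = fun y => ((S.k + 1) * ψ (y + v) - dot (S.k • x) (y + v))
        + (dot (S.k • v) x + (S.k + 1) * d) := by
    funext y
    have : dot (S.k • x) (y + v) = dot (S.k • x) y + dot (S.k • v) x := by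
      simp only [dot, Pi.add_apply, Pi.smul_apply, smul_eq_mul, ← Finset.sum_add_distrib]
      exact Finset.sum_congr rfl fun i _ => by ring
    simp only [shift, this]; ring
  simp only [F_eq, lp]
  rw [e, Zp_add_const, show Zp (fun y => (S.k + 1) * ψ (y + v) - dot (S.k • x) (y + v))
      = Zp (fun y => (S.k + 1) * ψ y - dot (S.k • x) y) from
    integral_add_right_eq_self (fun y => Real.exp (-((S.k + 1) * ψ y - dot (S.k • x) y))) v,
    Real.log_mul (Real.exp_pos _).ne' ((hψ.const_mul S.k1_pos).sub_dot _).grow.Zp_pos.ne',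
    Real.log_exp]
  ring

lemma T_shift {ψ : (Fin n → ℝ) → ℝ} (hψ : Bd ψ S.al S.be) (v : Fin n → ℝ) (d : ℝ) :
    S.T (shift ψ v d) = shift (S.T ψ) v ((S.k + 1) * d / S.k) := by
  funext y
  have e : (fun x => S.W (shift ψ v d) x - dot (S.k • y) x)
      = fun x => (S.W ψ x - dot (S.k • (y + v)) x) + -((S.k + 1) * d) := by
    funext x
    simp only [W, S.F_shift hψ, smul_add, dot, Pi.add_apply, add_mul, Finset.sum_add_distrib]
    ring
  simp only [T, lp, shift]
  rw [e, Zp_add_const, Real.log_mul (Real.exp_pos _).ne'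
    ((S.bd_W (S.good_of_bd hψ)).sub_dot _).grow.Zp_pos.ne', Real.log_exp]
  field_simp
  ring

lemma ex_dot (v : Fin n → ℝ) : ex S.U (fun x => dot v x) = 0 := by
  simp only [dot]
  rw [S.hU.grow.ex_sum _ fun i _ => (Poly.coord i).const_mul (v i)]
  have h : ∀ i, ex S.U (fun x : Fin n → ℝ => x i) = 0 := fun i => congrFun S.cent i
  simp [ex_const_mul, h]

lemma J_shift {ψ : (Fin n → ℝ) → ℝ} (hψ : Bd ψ S.al S.be) (v : Fin n → ℝ) (d : ℝ) :
    S.J (shift ψ v d) = S.J ψ := by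
  have hp : Poly (S.F ψ) := Bd.poly (S.good_of_bd hψ)
  have hG := S.hU.grow
  simp only [J, S.F_shift hψ, S.T_shift hψ]
  rw [hG.ex_sub (hp.sub (Poly.dot_left _)) (Poly.const _), hG.ex_sub hp (Poly.dot_left _),
    S.ex_dot, hG.ex_const]
  unfold shift
  rw [Zp_add_const, show Zp (fun y => S.T ψ (y + v)) = Zp (S.T ψ) from
      integral_add_right_eq_self (fun y => Real.exp (-S.T ψ y)) v,
    Real.log_mul (Real.exp_pos _).ne' (S.bd_T (S.good_of_bd hψ)).grow.Zp_pos.ne', Real.log_exp]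
  ring

/-- Normalised potentials. -/
def Nrm (ψ : (Fin n → ℝ) → ℝ) : Prop := Bd ψ S.al S.be ∧ ψ 0 = 0 ∧ gr ψ 0 = 0

lemma exists_nrm {ψ : (Fin n → ℝ) → ℝ} (hψ : Bd ψ S.al S.be) :
    ∃ φ, S.Nrm φ ∧ S.J φ = S.J ψ := by
  obtain ⟨v, hv⟩ := hψ.exists_crit
  obtain ⟨h1, h2⟩ := bd_shift hψ v (-ψ v)
  refine ⟨shift ψ v (-ψ v), ⟨h1, by simp [shift], ?_⟩, S.J_shift hψ v _⟩
  show gr (fun y => ψ (y + v) + -ψ v) 0 = 0
  rw [h2, zero_add, hv]

lemma nrm_sandwich {ψ : (Fin n → ℝ) → ℝ} (h : S.Nrm ψ) (y : Fin n → ℝ) :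
    S.al / 2 * sumSq y ≤ ψ y ∧ ψ y ≤ S.be / 2 * sumSq y := by
  have := h.1.taylor 0 y
  simp only [h.2.1, h.2.2, zero_add, dot, Pi.zero_apply, mul_zero, Finset.sum_const_zero] at this
  exact this

/-- The local Lipschitz constant of normalised potentials. -/
noncomputable def lip (y : Fin n → ℝ) : ℝ := S.be * ((n : ℝ) ^ 2 * ‖y‖ + n)

lemma nrm_lipschitz {ψ : (Fin n → ℝ) → ℝ} (h : S.Nrm ψ) (y z : Fin n → ℝ) (hz : ‖z - y‖ ≤ 1) :
    |ψ z - ψ y| ≤ S.lip y * ‖z - y‖ := by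
  set v := z - y with hv
  have hb := S.be_pos
  have ha := S.al_pos
  obtain ⟨t1, t2⟩ := h.1.taylor y v
  rw [show y + v = z by simp [hv]] at t1 t2
  have c1 : ∀ i, |v i| ≤ ‖v‖ := fun i => norm_le_pi_norm v i
  have c2 : ∀ i, |y i| ≤ ‖y‖ := fun i => norm_le_pi_norm y i
  have hg : |dot v (gr ψ y)| ≤ S.be * ((n : ℝ) ^ 2 * ‖y‖) * ‖v‖ := by
    refine (Finset.abs_sum_le_sum_abs _ _).trans ?_
    refine (Finset.sum_le_card_nsmul _ _ (S.be * (n * ‖y‖) * ‖v‖) fun i _ => ?_).trans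
      (le_of_eq (by simp; ring))
    rw [abs_mul, mul_comm]
    refine mul_le_mul ?_ (c1 i) (abs_nonneg _) (by positivity)
    refine (h.1.abs_gr_le i y).trans ?_
    rw [h.2.2, Pi.zero_apply, abs_zero, zero_add]
    refine mul_le_mul_of_nonneg_left ?_ hb.le
    exact (Finset.sum_le_card_nsmul _ _ ‖y‖ fun j _ => c2 j).trans (le_of_eq (by simp))
  have hs : sumSq v ≤ n * ‖v‖ := by
    refine (Finset.sum_le_card_nsmul _ _ ‖v‖ fun i _ => ?_).trans (le_of_eq (by simp))
    nlinarith [c1 i, abs_nonneg (v i), sq_abs (v i), norm_nonneg v]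
  have hs0 := sumSq_nonneg v
  have h3 : S.be / 2 * sumSq v ≤ S.be * (n * ‖v‖) := by
    nlinarith [mul_le_mul_of_nonneg_left hs hb.le, mul_nonneg hb.le hs0]
  have h4 := abs_le.1 hg
  have h5 : 0 ≤ S.al / 2 * sumSq v := mul_nonneg (by linarith) hs0
  have h6 : 0 ≤ S.be * (n * ‖v‖) := by positivity
  have e : S.lip y * ‖v‖ = S.be * ((n : ℝ) ^ 2 * ‖y‖) * ‖v‖ + S.be * (n * ‖v‖) := by
    rw [lip]; ring
  rw [e]
  exact abs_le.2 ⟨by linarith, by linarith⟩

lemma exists_uniform :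
    (∃ D, ∀ ψ, S.Nrm ψ → ∀ x, |S.F ψ x| ≤ D * (1 + sumSq x)) ∧
    (∃ c C, 0 < c ∧ ∀ ψ, S.Nrm ψ → ∀ x, c * sumSq x - C ≤ S.W ψ x) ∧
    (∃ c C, 0 < c ∧ ∀ ψ, S.Nrm ψ → ∀ y, c * sumSq y - C ≤ S.T ψ y) ∧
    BddBelow (S.J '' {ψ | S.Nrm ψ}) := by
  have hk := S.hk
  have hk1 := S.k1_pos
  have ha := S.al_pos
  have hb := S.be_pos
  set p := (S.k + 1) * (S.al / 2) with hp
  set q := (S.k + 1) * (S.be / 2) with hq
  have hp0 : 0 < p := by positivity
  have hq0 : 0 < q := by positivity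
  have hF : ∀ ψ, S.Nrm ψ → ∀ x, S.k ^ 2 / (4 * q) * sumSq x + gz n q ≤ S.F ψ x ∧
      S.F ψ x ≤ S.k ^ 2 / (4 * p) * sumSq x + gz n p := by
    intro ψ h x
    have hc := h.1.smooth.continuous.const_mul (S.k + 1)
    have l0 : ∀ y, p * sumSq y - 0 ≤ (S.k + 1) * ψ y := fun y => by
      rw [sub_zero, hp, mul_assoc]; exact mul_le_mul_of_nonneg_left (S.nrm_sandwich h y).1 hk1.le
    have u0 : ∀ y, (S.k + 1) * ψ y ≤ q * sumSq y + 0 := fun y => by
      rw [add_zero, hq, mul_assoc]; exact mul_le_mul_of_nonneg_left (S.nrm_sandwich h y).2 hk1.le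
    have h1 := le_lp hq0 ⟨hc, p, 0, hp0, l0⟩ u0 (S.k • x)
    have h2 := lp_le hp0 hc l0 (S.k • x)
    have es : sumSq (S.k • x) = S.k ^ 2 * sumSq x := by simp [sumSq, Finset.mul_sum, mul_pow]
    rw [es] at h1 h2
    rw [S.F_eq]
    simp only [sub_zero, add_zero, mul_div_right_comm] at h1 h2
    exact ⟨h1, h2⟩
  set A := S.k ^ 2 / (4 * q) with hA
  set B := S.k ^ 2 / (4 * p) with hB
  have hA0 : 0 < A := by positivity
  have hB0 : 0 < B := by positivity
  obtain ⟨c₀, C₀, hc₀, hl⟩ := S.hU.grow.lower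
  set g0 := gr S.U 0 with hg0
  have hu : ∀ x, S.U x ≤ S.b * sumSq x + (S.U 0 + sumSq g0 / (4 * (S.b / 2))) := fun x => by
    have h := (S.hU.taylor 0 x).2
    rw [zero_add] at h
    have := dot_le_sumSq g0 x (half_pos S.hU.b_pos)
    rw [P245.dot_comm] at this
    linarith
  set CU := S.U 0 + sumSq g0 / (4 * (S.b / 2)) with hCU
  have hT : ∀ ψ, S.Nrm ψ → ∀ y,
      1 / S.k * (S.k ^ 2 / (4 * (S.b + B)) * sumSq y - (CU + gz n p) + gz n (S.b + B))
        ≤ S.T ψ y := by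
    intro ψ h y
    refine mul_le_mul_of_nonneg_left ?_ (one_div_pos.2 hk).le
    have h1 := le_lp (by linarith [S.hU.b_pos] : 0 < S.b + B) (S.bd_W (S.good_of_bd h.1)).grow
      (D := CU + gz n p) (fun x => by
        have := (hF ψ h x).2
        have := hu x
        simp only [W]; linarith) (S.k • y)
    have es : sumSq (S.k • y) = S.k ^ 2 * sumSq y := by simp [sumSq, Finset.mul_sum, mul_pow]
    rw [es, mul_div_right_comm] at h1
    exact h1
  refine ⟨⟨B + |gz n p| + |gz n q|, fun ψ h x => ?_⟩, ⟨c₀, C₀ - gz n q, hc₀, fun ψ h x => ?_⟩,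
    ⟨1 / S.k * (S.k ^ 2 / (4 * (S.b + B))), 1 / S.k * ((CU + gz n p) - gz n (S.b + B)),
      by have := S.hU.b_pos; positivity, fun ψ h y => ?_⟩, ?_⟩
  · obtain ⟨h1, h2⟩ := hF ψ h x
    have hs := sumSq_nonneg x
    have := le_abs_self (gz n p); have := neg_le_abs (gz n q)
    have := abs_nonneg (gz n p); have := abs_nonneg (gz n q)
    have := mul_nonneg hA0.le hs
    refine abs_le.2 ⟨?_, ?_⟩ <;> nlinarith
  · have := (hF ψ h x).1
    have := hl x
    have := mul_nonneg hA0.le (sumSq_nonneg x)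
    simp only [W]; linarith
  · refine le_trans (le_of_eq ?_) (hT ψ h y)
    ring
  · set c := 1 / S.k * (S.k ^ 2 / (4 * (S.b + B))) with hc
    set C := 1 / S.k * ((CU + gz n p) - gz n (S.b + B)) with hC
    refine ⟨1 / S.k * gz n q - Real.log (Zp fun y : Fin n → ℝ => c * sumSq y - C), ?_⟩
    rintro _ ⟨ψ, h, rfl⟩
    have hc0 : 0 < c := by have := S.hU.b_pos; positivity
    have hTb := (S.bd_T (S.good_of_bd h.1)).grow
    refine sub_le_sub (mul_le_mul_of_nonneg_left ?_ (one_div_pos.2 hk).le)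
      (Real.log_le_log hTb.Zp_pos (Zp_mono (grow_quad hc0 C) hTb fun y => ?_))
    · refine le_trans (le_of_eq (S.hU.grow.ex_const (gz n q)).symm)
        (S.hU.grow.ex_mono (Poly.const _) (Bd.poly (S.good_of_bd h.1)) fun x => ?_)
      have := (hF ψ h x).1
      have := mul_nonneg hA0.le (sumSq_nonneg x)
      linarith
    · refine le_trans (le_of_eq ?_) (hT ψ h y)
      rw [hc, hC]; ring

/-- A subsequential pointwise limit of normalised potentials. -/
lemma exists_limit (ψ : ℕ → (Fin n → ℝ) → ℝ) (h : ∀ m, S.Nrm (ψ m)) :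
    ∃ (e : ℕ → ℕ) (ψ₀ : (Fin n → ℝ) → ℝ), StrictMono e ∧ Continuous ψ₀ ∧
      ∀ y, Tendsto (fun m => ψ (e m) y) atTop (𝓝 (ψ₀ y)) := by
  set q := TopologicalSpace.denseSeq (Fin n → ℝ) with hq
  set K : Set (ℕ → ℝ) := Set.univ.pi fun i => Set.Icc 0 (S.be / 2 * sumSq (q i)) with hK
  have hKc : IsCompact K := isCompact_univ_pi fun i => isCompact_Icc
  obtain ⟨g, -, e, he, hg⟩ := hKc.tendsto_subseq (x := fun m i => ψ m (q i)) fun m i _ =>
    ⟨le_trans (mul_nonneg (half_pos S.al_pos).le (sumSq_nonneg _)) (S.nrm_sandwich (h m) _).1,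
      (S.nrm_sandwich (h m) _).2⟩
  have hg' : ∀ i, Tendsto (fun m => ψ (e m) (q i)) atTop (𝓝 (g i)) := fun i =>
    tendsto_pi_nhds.1 hg i
  have hcau : ∀ y, CauchySeq fun m => ψ (e m) y := by
    intro y
    refine Metric.cauchySeq_iff.2 fun ε hε => ?_
    set L := S.lip y with hL
    have hL0 : 0 ≤ L := by
      rw [hL, lip]; exact mul_nonneg S.be_pos.le (by positivity)
    have hd : (0 : ℝ) < min 1 (ε / (3 * (L + 1))) := lt_min one_pos (by positivity)
    obtain ⟨i, hi⟩ := (TopologicalSpace.denseRange_denseSeq (Fin n → ℝ)).exists_dist_lt y hd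
    rw [dist_comm, dist_eq_norm] at hi
    have hi1 : ‖q i - y‖ ≤ 1 := hi.le.trans (min_le_left _ _)
    have hi2 : L * ‖q i - y‖ ≤ ε / 3 := by
      refine (mul_le_mul_of_nonneg_left (hi.le.trans (min_le_right _ _)) hL0).trans ?_
      rw [← mul_div_assoc, div_le_div_iff₀ (by positivity) (by norm_num)]
      nlinarith
    obtain ⟨N, hN⟩ := Metric.cauchySeq_iff.1 (hg' i).cauchySeq (ε / 3) (by positivity)
    refine ⟨N, fun p hp r hr => ?_⟩
    have h1 := S.nrm_lipschitz (h (e p)) y (q i) hi1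
    have h2 := S.nrm_lipschitz (h (e r)) y (q i) hi1
    have h3 := hN p hp r hr
    rw [Real.dist_eq] at h3 ⊢
    rw [abs_lt] at h3 ⊢
    have h1' := abs_le.1 h1
    have h2' := abs_le.1 h2
    constructor <;> linarith
  choose ψ₀ hψ₀ using fun y => cauchySeq_tendsto_of_complete (hcau y)
  refine ⟨e, ψ₀, he, continuous_iff_continuousAt.2 fun y => ?_, hψ₀⟩
  refine continuousAt_of_locally_lipschitz one_pos (S.lip y) fun z hz => ?_
  rw [dist_eq_norm] at hz ⊢
  rw [dist_eq_norm]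
  exact le_of_tendsto' ((hψ₀ z).sub (hψ₀ y)).norm fun m => by
    rw [Real.norm_eq_abs]; exact S.nrm_lipschitz (h (e m)) y z hz.le

/-- A minimiser, as a pointwise limit. -/
lemma exists_min : ∃ ψ₀, S.Good ψ₀ ∧ ∀ φ, S.Nrm φ → S.J ψ₀ ≤ S.J φ := by
  obtain ⟨⟨D, hD⟩, ⟨cW, CW, hcW, hW⟩, ⟨cT, CT, hcT, hT⟩, hbdd⟩ := S.exists_uniform
  have hne : (S.J '' {ψ | S.Nrm ψ}).Nonempty := by
    have h0 : Bd (fun y : Fin n → ℝ => S.al / 2 * sumSq y) S.al S.be := by
      have e : ∀ i, pd i (fun y : Fin n → ℝ => S.al / 2 * sumSq y) = fun y => S.al * y i := fun i =>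
        funext fun y => by rw [P245.pd_const_mul differentiable_sumSq, pd_sumSq]; ring
      have eh : ∀ x : Fin n → ℝ, hs (fun y : Fin n → ℝ => S.al / 2 * sumSq y) x
          = S.al • (1 : Matrix (Fin n) (Fin n) ℝ) := fun x => by
        ext i j
        show pd i (pd j fun y : Fin n → ℝ => S.al / 2 * sumSq y) x = _
        rw [e, P245.pd_const_mul (differentiable_apply j), pd_proj, Matrix.smul_apply,
          Matrix.one_apply, smul_eq_mul]
      have q : ∀ x v : Fin n → ℝ,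
          v ⬝ᵥ (hs (fun y : Fin n → ℝ => S.al / 2 * sumSq y) x *ᵥ v) = S.al * sumSq v := fun x v => by
        rw [eh, smul_mulVec, one_mulVec, dotProduct_smul, smul_eq_mul]
        congr 1; exact Finset.sum_congr rfl fun i _ => (sq (v i)).symm
      exact ⟨contDiff_const.mul (ContDiff.sum fun i _ => (contDiff_apply ℝ ℝ i).pow 2), S.al_pos,
        S.al_le_be, fun x v => (q x v).ge,
        fun x v => (q x v).le.trans (mul_le_mul_of_nonneg_right S.al_le_be (sumSq_nonneg v))⟩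
    obtain ⟨φ, hφ, -⟩ := S.exists_nrm h0
    exact ⟨_, φ, hφ, rfl⟩
  obtain ⟨u, -, hu, humem⟩ := exists_seq_tendsto_sInf hne hbdd
  choose ψ hψ huv using humem
  obtain ⟨e, ψ₀, he, hc₀, hlim⟩ := S.exists_limit ψ hψ
  have hV : ∀ x, Tendsto (fun m => (S.k + 1) * ψ (e m) x) atTop (𝓝 ((S.k + 1) * ψ₀ x)) :=
    fun x => (hlim x).const_mul _
  have hp : 0 < (S.k + 1) * (S.al / 2) := mul_pos S.k1_pos (half_pos S.al_pos)
  have hl : ∀ m x, (S.k + 1) * (S.al / 2) * sumSq x - 0 ≤ (S.k + 1) * ψ (e m) x := fun m x => by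
    rw [sub_zero, mul_assoc]
    exact mul_le_mul_of_nonneg_left (S.nrm_sandwich (hψ (e m)) x).1 S.k1_pos.le
  have hb : ∀ m, Bd (fun y => (S.k + 1) * ψ (e m) y) ((S.k + 1) * S.al) ((S.k + 1) * S.be) :=
    fun m => (hψ (e m)).1.const_mul S.k1_pos
  have hg : S.Good ψ₀ := S.good_of_lp (bd_lp_limit hp hb (hc₀.const_mul _) hl hV)
  have hFt : ∀ x, Tendsto (fun m => S.F (ψ (e m)) x) atTop (𝓝 (S.F ψ₀ x)) := fun x => by
    simp only [F_eq]
    exact tendsto_lp hp (fun m => (hb m).smooth.continuous) (hc₀.const_mul _) hl hV (S.k • x)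
  have hgood : ∀ m, S.Good (ψ (e m)) := fun m => S.good_of_bd (hψ (e m)).1
  have hEt : Tendsto (fun m => ex S.U (S.F (ψ (e m)))) atTop (𝓝 (ex S.U (S.F ψ₀))) := by
    refine Tendsto.div_const ?_ _
    refine tendsto_integral_of_dominated_convergence
      (fun x => D * (1 + sumSq x) * Real.exp (-S.U x))
      (fun m => ((hgood m).smooth.continuous.mul S.hU.smooth.continuous.neg.rexp).aestronglyMeasurable)
      (S.hU.grow.integrable (((Poly.const 1).add Poly.sumSq').const_mul D))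
      (fun m => Eventually.of_forall fun x => ?_)
      (Eventually.of_forall fun x => (hFt x).mul_const _)
    rw [Real.norm_eq_abs, abs_mul, Real.abs_exp]
    exact mul_le_mul_of_nonneg_right (hD _ (hψ _) x) (Real.exp_pos _).le
  have hTt : ∀ y, Tendsto (fun m => S.T (ψ (e m)) y) atTop (𝓝 (S.T ψ₀ y)) := fun y =>
    (tendsto_lp hcW (fun m => (S.bd_W (hgood m)).smooth.continuous) (S.bd_W hg).smooth.continuous
      (fun m x => hW _ (hψ _) x) (fun x => (hFt x).const_add (S.U x)) (S.k • y)).const_mul _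
  have hJt : Tendsto (fun m => S.J (ψ (e m))) atTop (𝓝 (S.J ψ₀)) :=
    (hEt.const_mul _).sub ((Real.continuousAt_log (S.bd_T hg).grow.Zp_pos.ne').tendsto.comp
      (tendsto_Zp hcT (fun m => (S.bd_T (hgood m)).smooth.continuous) (fun m y => hT _ (hψ _) y) hTt))
  have hs : S.J ψ₀ = sInf (S.J '' {ψ | S.Nrm ψ}) :=
    tendsto_nhds_unique hJt (by simpa only [huv, Function.comp_def] using hu.comp he.tendsto_atTop)
  exact ⟨ψ₀, hg, fun φ hφ => hs ▸ csInf_le hbdd ⟨φ, hφ, rfl⟩⟩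

/-- The regularised moment map. -/
theorem exists_balanced : ∃ ψ, Bd ψ S.al S.be ∧ Balanced S.k S.U ψ := by
  obtain ⟨ψ₀, hg, hmin⟩ := S.exists_min
  have hψ := S.bd_T hg
  obtain ⟨φ, hφ, hJ⟩ := S.exists_nrm hψ
  obtain ⟨c, hc⟩ := S.J_step hg ((hmin φ hφ).trans hJ.le)
  set ψ₁ := S.T ψ₀ with hψ₁
  have hT1 : ∀ y, S.T ψ₁ y = ψ₁ y - c / S.k := by
    intro y
    have hW : S.W ψ₁ = fun x => S.W ψ₀ x + c := funext fun x => by simp only [W]; rw [hc x]; ring
    have e : (fun x => S.W ψ₁ x - dot (S.k • y) x)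
        = fun x => (S.W ψ₀ x - dot (S.k • y) x) + c := funext fun x => by rw [hW]; ring
    show 1 / S.k * lp (S.W ψ₁) (S.k • y) = 1 / S.k * lp (S.W ψ₀) (S.k • y) - c / S.k
    unfold lp
    rw [e, Zp_add_const, Real.log_mul (Real.exp_pos _).ne'
      ((S.bd_W hg).sub_dot _).grow.Zp_pos.ne', Real.log_exp]
    ring
  set ψ := shift ψ₁ 0 c with hψdef
  have hbd : Bd ψ S.al S.be := (bd_shift hψ 0 c).1
  have hfix : S.T ψ = ψ := by
    rw [hψdef, S.T_shift hψ]
    funext y
    have := S.hk.ne'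
    simp only [shift, add_zero, hT1]
    field_simp
    ring
  refine ⟨ψ, hbd, ?_, fun y => ?_⟩
  · have h := (S.mass_step (S.good_of_bd hbd)).1
    simp only [hfix, sub_self, Real.exp_zero, mul_one] at h
    exact h.symm.trans S.mass
  · rw [← S.k_mul_T, hfix]

end Data

end Exist

/-- Regularised moment maps exist. -/
theorem existence : Existence := fun n U a b k hU hmass hcent hk =>
  (Exist.Data.mk (n := n) U a b k hU hmass hcent hk).exists_balanced

end Vale.Agent.P254M
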