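import Vale.Agent.P254M.Fibre

/-!
Log-Laplace transforms: Gaussian bounds, continuity in the potential, and Hessian bounds.
-/

namespace Vale.Agent.P254M.Exist

open MeasureTheory Set Filter Topology Finset Matrix
open Vale.Agent.P245 (pd dot sumSq sumSq_nonneg sq_le_sumSq continuous_sumSq dot_le_sumSq contDiff_pd
  pd_add pd_const_mul)
open scoped ContDiff

variable {n : ℕ}

/-- The log-Laplace transform. -/
noncomputable def lp (V : (Fin n → ℝ) → ℝ) (θ : Fin n → ℝ) : ℝ :=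
  Real.log (Zp fun x => V x - dot θ x)

lemma grow_quad {c : ℝ} (hc : 0 < c) (C : ℝ) : Grow fun x : Fin n → ℝ => c * sumSq x - C :=
  ⟨(continuous_sumSq.const_mul c).sub continuous_const, c, C, hc, fun _ => le_rfl⟩

lemma Zp_gauss_tilt {c : ℝ} (hc : 0 < c) (C : ℝ) (θ : Fin n → ℝ) :
    Zp (fun x => c * sumSq x - C - dot θ x)
      = Real.exp (sumSq θ / (4 * c) + C) * Zp (fun x : Fin n → ℝ => c * sumSq x) := by
  have e : ∀ x, c * sumSq x - C - dot θ x
      = c * sumSq (x + (-(2 * c)⁻¹) • θ) + -(sumSq θ / (4 * c) + C) := by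
    intro x
    have : c * sumSq (x + (-(2 * c)⁻¹) • θ)
        = c * sumSq x - dot θ x + sumSq θ / (4 * c) := by
      simp only [sumSq, dot, Finset.mul_sum, Finset.sum_div, ← Finset.sum_add_distrib,
        ← Finset.sum_sub_distrib, Pi.add_apply, Pi.smul_apply, smul_eq_mul]
      refine Finset.sum_congr rfl fun i _ => ?_
      field_simp
      ring
    rw [this]; ring
  simp only [funext e, Zp_add_const, neg_neg]
  congr 1
  exact integral_add_right_eq_self (fun x => Real.exp (-(c * sumSq x))) _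

lemma Zp_mono {V W : (Fin n → ℝ) → ℝ} (hV : Grow V) (hW : Grow W) (h : ∀ x, V x ≤ W x) :
    Zp W ≤ Zp V :=
  integral_mono hW.integrable_exp hV.integrable_exp fun x => Real.exp_le_exp.2 (by linarith [h x])

/-- The constant in the Gaussian bounds. -/
noncomputable def gz (n : ℕ) (c : ℝ) : ℝ := Real.log (Zp fun x : Fin n → ℝ => c * sumSq x)

lemma lp_le {V : (Fin n → ℝ) → ℝ} {c C : ℝ} (hc : 0 < c) (hV : Continuous V)
    (h : ∀ x, c * sumSq x - C ≤ V x) (θ : Fin n → ℝ) :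
    lp V θ ≤ sumSq θ / (4 * c) + C + gz n c := by
  have hG : Grow V := ⟨hV, c, C, hc, h⟩
  have h1 := Zp_mono ((grow_quad hc C).sub_dot θ) (hG.sub_dot θ)
    fun x => by linarith [h x]
  refine (Real.log_le_log (hG.sub_dot θ).Zp_pos h1).trans (le_of_eq ?_)
  rw [Zp_gauss_tilt hc, Real.log_mul (Real.exp_pos _).ne'
    (by simpa using (grow_quad (n := n) hc 0).Zp_pos.ne'), Real.log_exp, gz]

lemma le_lp {V : (Fin n → ℝ) → ℝ} {d D : ℝ} (hd : 0 < d) (hV : Grow V)
    (h : ∀ x, V x ≤ d * sumSq x + D) (θ : Fin n → ℝ) :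
    sumSq θ / (4 * d) - D + gz n d ≤ lp V θ := by
  have h1 := Zp_mono (hV.sub_dot θ) ((grow_quad hd (-D)).sub_dot θ) fun x => by linarith [h x]
  refine le_trans (le_of_eq ?_) (Real.log_le_log ((grow_quad hd (-D)).sub_dot θ).Zp_pos h1)
  rw [Zp_gauss_tilt hd, Real.log_mul (Real.exp_pos _).ne'
    (by simpa using (grow_quad (n := n) hd 0).Zp_pos.ne'), Real.log_exp, gz]
  ring

section Limit

variable {V : ℕ → (Fin n → ℝ) → ℝ} {V₀ : (Fin n → ℝ) → ℝ} {c C : ℝ}

lemma tendsto_integral (hc : 0 < c) (hV : ∀ m, Continuous (V m))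
    (hl : ∀ m x, c * sumSq x - C ≤ V m x) (ht : ∀ x, Tendsto (fun m => V m x) atTop (𝓝 (V₀ x)))
    {f : (Fin n → ℝ) → ℝ} (hf : Poly f) :
    Tendsto (fun m => ∫ x, f x * Real.exp (-V m x)) atTop (𝓝 (∫ x, f x * Real.exp (-V₀ x))) := by
  refine tendsto_integral_of_dominated_convergence
    (fun x => |f x| * Real.exp (-(c * sumSq x - C)))
    (fun m => (hf.1.mul (hV m).neg.rexp).aestronglyMeasurable) ((grow_quad hc C).integrable hf.abs)
    (fun m => Eventually.of_forall fun x => ?_) (Eventually.of_forall fun x => ?_)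
  · rw [Real.norm_eq_abs, abs_mul, Real.abs_exp]
    exact mul_le_mul_of_nonneg_left (Real.exp_le_exp.2 (by linarith [hl m x])) (abs_nonneg _)
  · exact ((Real.continuous_exp.tendsto _).comp (ht x).neg).const_mul _

lemma tendsto_Zp (hc : 0 < c) (hV : ∀ m, Continuous (V m))
    (hl : ∀ m x, c * sumSq x - C ≤ V m x) (ht : ∀ x, Tendsto (fun m => V m x) atTop (𝓝 (V₀ x))) :
    Tendsto (fun m => Zp (V m)) atTop (𝓝 (Zp V₀)) := by
  simpa [Zp] using tendsto_integral hc hV hl ht (Poly.const 1)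

lemma grow_of_tendsto (hc : 0 < c) (h₀ : Continuous V₀) (hl : ∀ m x, c * sumSq x - C ≤ V m x)
    (ht : ∀ x, Tendsto (fun m => V m x) atTop (𝓝 (V₀ x))) : Grow V₀ :=
  ⟨h₀, c, C, hc, fun x => ge_of_tendsto' (ht x) fun m => hl m x⟩

lemma tilt_lower (hc : 0 < c) (hl : ∀ m x, c * sumSq x - C ≤ V m x) (θ : Fin n → ℝ) (m : ℕ)
    (x : Fin n → ℝ) :
    c / 2 * sumSq x - (C + sumSq θ / (4 * (c / 2))) ≤ V m x - dot θ x := by
  linarith [dot_le_sumSq θ x (half_pos hc), hl m x]

lemma tendsto_lp (hc : 0 < c) (hV : ∀ m, Continuous (V m)) (h₀ : Continuous V₀)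
    (hl : ∀ m x, c * sumSq x - C ≤ V m x) (ht : ∀ x, Tendsto (fun m => V m x) atTop (𝓝 (V₀ x)))
    (θ : Fin n → ℝ) : Tendsto (fun m => lp (V m) θ) atTop (𝓝 (lp V₀ θ)) :=
  (Real.continuousAt_log ((grow_of_tendsto hc h₀ hl ht).sub_dot θ).Zp_pos.ne').tendsto.comp
    (tendsto_Zp (half_pos hc) (fun m => (hV m).sub (by fun_prop)) (tilt_lower hc hl θ)
      fun x => (ht x).sub_const _)

lemma tendsto_ex (hc : 0 < c) (hV : ∀ m, Continuous (V m)) (h₀ : Continuous V₀)
    (hl : ∀ m x, c * sumSq x - C ≤ V m x) (ht : ∀ x, Tendsto (fun m => V m x) atTop (𝓝 (V₀ x)))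
    (θ : Fin n → ℝ) {f : (Fin n → ℝ) → ℝ} (hf : Poly f) :
    Tendsto (fun m => ex (fun x => V m x - dot θ x) f) atTop
      (𝓝 (ex (fun x => V₀ x - dot θ x) f)) :=
  (tendsto_integral (half_pos hc) (fun m => (hV m).sub (by fun_prop)) (tilt_lower hc hl θ)
      (fun x => (ht x).sub_const _) hf).div
    (tendsto_Zp (half_pos hc) (fun m => (hV m).sub (by fun_prop)) (tilt_lower hc hl θ)
      fun x => (ht x).sub_const _)
    ((grow_of_tendsto hc h₀ hl ht).sub_dot θ).Zp_pos.ne'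

end Limit

lemma hs_lp {V : (Fin n → ℝ) → ℝ} (hV : Grow V) (θ : Fin n → ℝ) :
    hs (lp V) θ = covm fun x => V x - dot θ x := by
  ext i j
  exact hV.pd_pd_logZp i j θ

lemma bd_lp {V : (Fin n → ℝ) → ℝ} {a b : ℝ} (h : Bd V a b) : Bd (lp V) (1 / b) (1 / a) := by
  refine ⟨h.grow.contDiff_logZp, one_div_pos.2 h.b_pos, one_div_le_one_div_of_le h.a_pos h.a_le,
    fun θ v => ?_, fun θ v => ?_⟩
  · rw [hs_lp h.grow, one_div_mul_eq_div]
    exact (h.sub_dot θ).covm_lower v
  · rw [hs_lp h.grow, one_div_mul_eq_div]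
    exact (h.sub_dot θ).covm_upper v

lemma bd_lp_limit {V : ℕ → (Fin n → ℝ) → ℝ} {V₀ : (Fin n → ℝ) → ℝ} {a b c C : ℝ} (hc : 0 < c)
    (hb : ∀ m, Bd (V m) a b) (h₀ : Continuous V₀) (hl : ∀ m x, c * sumSq x - C ≤ V m x)
    (ht : ∀ x, Tendsto (fun m => V m x) atTop (𝓝 (V₀ x))) : Bd (lp V₀) (1 / b) (1 / a) := by
  have hG := grow_of_tendsto hc h₀ hl ht
  have hlim : ∀ θ v : Fin n → ℝ, Tendsto (fun m => v ⬝ᵥ (hs (lp (V m)) θ *ᵥ v)) atTop
      (𝓝 (v ⬝ᵥ (hs (lp V₀) θ *ᵥ v))) := by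
    intro θ v
    simp only [fun m => hs_lp (hb m).grow θ, hs_lp hG θ, dotProduct, mulVec]
    refine tendsto_finsetSum _ fun i _ =>
      (tendsto_finsetSum _ fun j _ => Tendsto.mul_const _ ?_).const_mul _
    have hV : ∀ m, Continuous (V m) := fun m => (hb m).smooth.continuous
    exact (tendsto_ex hc hV h₀ hl ht θ ((Poly.coord i).mul (Poly.coord j))).sub
      ((tendsto_ex hc hV h₀ hl ht θ (Poly.coord i)).mul (tendsto_ex hc hV h₀ hl ht θ (Poly.coord j)))
  exact ⟨hG.contDiff_logZp, (bd_lp (hb 0)).a_pos, (bd_lp (hb 0)).a_le,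
    fun θ v => ge_of_tendsto' (hlim θ v) fun m => (bd_lp (hb m)).lower θ v,
    fun θ v => le_of_tendsto' (hlim θ v) fun m => (bd_lp (hb m)).upper θ v⟩

lemma bd_comp_smul {f : (Fin n → ℝ) → ℝ} {a b : ℝ} (h : Bd f a b) {k : ℝ} (hk : 0 < k) :
    Bd (fun y => f (k • y)) (k ^ 2 * a) (k ^ 2 * b) := by
  have e : ∀ x, hs (fun y => f (k • y)) x = k ^ 2 • hs f (k • x) := fun x => by
    ext i j
    show pd i (pd j fun y => f (k • y)) x = k ^ 2 * pd i (pd j f) (k • x)
    rw [show pd j (fun y => f (k • y)) = fun y => k * pd j f (k • y) from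
        funext fun y => pd_comp_smul h.diff k j y,
      pd_const_mul (f := fun y => pd j f (k • y)) ((h.diff_gr j).comp (differentiable_id.const_smul k)),
      pd_comp_smul (h.diff_gr j)]
    ring
  refine ⟨h.smooth.comp (contDiff_const_smul k), mul_pos (pow_pos hk 2) h.a_pos,
    mul_le_mul_of_nonneg_left h.a_le (sq_nonneg k), fun x v => ?_, fun x v => ?_⟩
  · rw [e, smul_mulVec, dotProduct_smul, smul_eq_mul, mul_assoc]
    exact mul_le_mul_of_nonneg_left (h.lower _ v) (sq_nonneg k)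
  · rw [e, smul_mulVec, dotProduct_smul, smul_eq_mul, mul_assoc]
    exact mul_le_mul_of_nonneg_left (h.upper _ v) (sq_nonneg k)

lemma bd_add {f g : (Fin n → ℝ) → ℝ} {a b a' b' : ℝ} (h : Bd f a b) (h' : Bd g a' b') :
    Bd (fun y => f y + g y) (a + a') (b + b') := by
  have e : ∀ x, hs (fun y => f y + g y) x = hs f x + hs g x := fun x => by
    ext i j
    show pd i (pd j fun y => f y + g y) x = pd i (pd j f) x + pd i (pd j g) x
    rw [show pd j (fun y => f y + g y) = fun y => pd j f y + pd j g y from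
      funext fun y => pd_add h.diff h'.diff j y, pd_add (h.diff_gr j) (h'.diff_gr j)]
  refine ⟨h.smooth.add h'.smooth, add_pos h.a_pos h'.a_pos, add_le_add h.a_le h'.a_le,
    fun x v => ?_, fun x v => ?_⟩
  · rw [e, add_mulVec, dotProduct_add, add_mul]
    exact add_le_add (h.lower x v) (h'.lower x v)
  · rw [e, add_mulVec, dotProduct_add, add_mul]
    exact add_le_add (h.upper x v) (h'.upper x v)

lemma bd_shift {f : (Fin n → ℝ) → ℝ} {a b : ℝ} (h : Bd f a b) (v : Fin n → ℝ) (d : ℝ) :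
    Bd (fun y => f (y + v) + d) a b ∧ ∀ y, gr (fun y => f (y + v) + d) y = gr f (y + v) := by
  have e1 : ∀ j, pd j (fun y => f (y + v) + d) = fun y => pd j f (y + v) := fun j => funext fun y => by
    simp only [pd, fderiv_add_const, fderiv_comp_add_right]
  refine ⟨?_, fun y => funext fun i => congrFun (e1 i) y⟩
  have e : ∀ x, hs (fun y => f (y + v) + d) x = hs f (x + v) := fun x => by
    ext i j
    show pd i (pd j fun y => f (y + v) + d) x = pd i (pd j f) (x + v)
    rw [e1]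
    exact congrArg (fun L : (Fin n → ℝ) →L[ℝ] ℝ => L (Pi.single i 1))
      (fderiv_comp_add_right (f := pd j f) v)
  exact ⟨(h.smooth.comp (contDiff_id.add contDiff_const)).add contDiff_const, h.a_pos, h.a_le,
    fun x w => by rw [e]; exact h.lower _ w, fun x w => by rw [e]; exact h.upper _ w⟩

/-- Fubini for a nonnegative continuous kernel. -/
lemma fubini {F : (Fin n → ℝ) → (Fin n → ℝ) → ℝ} (hF : Continuous (Function.uncurry F))
    (hpos : ∀ x y, 0 ≤ F x y) (h1 : ∀ y, Integrable fun x => F x y)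
    (h2 : Integrable fun y => ∫ x, F x y) :
    (∫ x, ∫ y, F x y) = (∫ y, ∫ x, F x y) ∧ Integrable fun x => ∫ y, F x y := by
  have hp : Integrable (Function.uncurry F) ((volume : Measure (Fin n → ℝ)).prod volume) :=
    (integrable_prod_iff' hF.aestronglyMeasurable).2 ⟨Eventually.of_forall h1, by
      simpa [Function.uncurry, Real.norm_eq_abs, fun x y => abs_of_nonneg (hpos x y)] using h2⟩
  exact ⟨integral_integral_swap hp, hp.integral_prod_left⟩

end Vale.Agent.P254M.Exist
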