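import Vale.Agent.P254M.XSide

/-!
The integrand of the traced Brascamp–Lieb bound, to first order in `1/k`.
-/

namespace Vale.Agent.P254M

open Finset Matrix
open Vale.Agent.P245 (sumSq sumSq_nonneg sq_le_sumSq)

variable {n : ℕ}

lemma tc_sub₁ (A A' B C : Matrix (Fin n) (Fin n) ℝ) (T : Ten n) (a b c : Fin n) :
    tc (A - A') B C T a b c = tc A B C T a b c - tc A' B C T a b c := by
  simp only [tc_apply, Matrix.sub_apply, sub_mul, sum_sub_distrib]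

lemma tc_sub₂ (A B B' C : Matrix (Fin n) (Fin n) ℝ) (T : Ten n) (a b c : Fin n) :
    tc A (B - B') C T a b c = tc A B C T a b c - tc A B' C T a b c := by
  simp only [tc_apply, Matrix.sub_apply, sub_mul, sum_sub_distrib, mul_sub]

lemma pr_add_right (S T T' : Ten n) :
    pr S (fun a b c => T a b c + T' a b c) = pr S T + pr S T' := by
  simp only [pr, mul_add, sum_add_distrib]

lemma wsum_transpose {Y : Matrix (Fin n) (Fin n) ℝ} (hY : Yᵀ = Y) (A : Matrix (Fin n) (Fin n) ℝ) :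
    wsum Y Aᵀ = wsum Y A := by
  rw [wsum, wsum, sum_comm]
  exact sum_congr rfl fun i _ => sum_congr rfl fun l _ => by
    rw [transpose_apply]; congr 1; exact congrFun (congrFun hY i) l

lemma eb_diagonal {s : Fin n → ℝ} (hs : ∀ i, 0 ≤ s i) : EB (diagonal s) (∑ i, s i) := fun i j => by
  rcases eq_or_ne i j with rfl | h
  · rw [diagonal_apply_eq, abs_of_nonneg (hs i)]
    exact single_le_sum (fun j _ => hs j) (mem_univ i)
  · rw [diagonal_apply_ne _ h, abs_zero]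
    exact sum_nonneg fun j _ => hs j

lemma eb_one : EB (1 : Matrix (Fin n) (Fin n) ℝ) 1 := fun i j => by
  rcases eq_or_ne i j with rfl | h <;> simp [*]

lemma hm_identity (Y S N : Matrix (Fin n) (Fin n) ℝ) (e : ℝ) (hY : Yᵀ = Y) (hS : Sᵀ = S) :
    (1 - e • (S * Y))ᵀ * (Y + e • N) * (1 - e • (S * Y)) + e • (Y * S * Y)
      = Y + e • (N - Y * S * Y)
        + (e ^ 2) • ((Y * S) * (Y + e • N) * (S * Y) - ((Y * S) * N + N * (S * Y))) := by
  rw [transpose_sub, transpose_one, transpose_smul, transpose_mul, hY, hS]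
  simp only [sub_mul, mul_sub, add_mul, mul_add, Matrix.one_mul, Matrix.mul_one, Matrix.smul_mul,
    Matrix.mul_smul, smul_add, smul_sub, smul_smul, ← Matrix.mul_assoc]
  ext i j
  simp only [Matrix.add_apply, Matrix.sub_apply, Matrix.smul_apply, smul_eq_mul]
  ring

lemma cong_identity (H S : Matrix (Fin n) (Fin n) ℝ) (e : ℝ) :
    (1 - e • S)ᵀ * H * (1 - e • S) = H - e • (Sᵀ * H + H * S) + (e ^ 2) • (Sᵀ * H * S) := by
  rw [transpose_sub, transpose_one, transpose_smul]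
  simp only [sub_mul, mul_sub, Matrix.one_mul, Matrix.mul_one, Matrix.smul_mul,
    Matrix.mul_smul, smul_add, smul_smul]
  ext i j
  simp only [Matrix.add_apply, Matrix.sub_apply, Matrix.smul_apply, smul_eq_mul]
  ring

lemma sum_four (f : Fin n → Fin n → Fin n → Fin n → ℝ) :
    ∑ a, ∑ b, ∑ c, ∑ d, f a b c d = ∑ c, ∑ d, ∑ a, ∑ b, f a b c d :=
  calc ∑ a, ∑ b, ∑ c, ∑ d, f a b c d = ∑ a, ∑ c, ∑ b, ∑ d, f a b c d := sum_congr rfl fun _ _ => sum_comm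
    _ = ∑ c, ∑ a, ∑ b, ∑ d, f a b c d := sum_comm
    _ = ∑ c, ∑ a, ∑ d, ∑ b, f a b c d := sum_congr rfl fun _ _ => sum_congr rfl fun _ _ => sum_comm
    _ = _ := sum_congr rfl fun _ _ => sum_comm

namespace Setup

variable (P : Setup n)

/-- The squared distance between `Y` and its average. -/
noncomputable def sd (y x : Fin n → ℝ) : ℝ := ∑ i, ∑ j, (P.Y y i j - P.Yb x i j) ^ 2

/-- The error of the pointwise expansion. -/
noncomputable def er (y x : Fin n → ℝ) : ℝ :=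
  Real.sqrt P.k * (P.dx x + P.sd y x) + 1 / Real.sqrt P.k
    + (sumSq (gr (P.cx y) x) ^ 2 / P.k ^ 2 + sumSq (gr (P.cx y) x) / P.k) / Real.sqrt P.k

/-- The constant bounding the first correction. -/
noncomputable def A0c (n : ℕ) (a Kc : ℝ) : ℝ :=
  |1 / a| + ((n : ℝ) ^ 2 * (2 * |Kc|) * Real.sqrt |1 / a| + 2 * (n : ℝ) ^ 4 * |Kc| ^ 2 * |1 / a| ^ 2)
    + |zK n a Kc|

/-- The constant bounding the curvature products. -/
noncomputable def TTc (n : ℕ) (a σ : ℝ) : ℝ := (n : ℝ) * (|1 / a| * |σ|)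

/-- The constant bounding the second correction. -/
noncomputable def A2c (n : ℕ) (a Kc σ : ℝ) : ℝ :=
  (n : ℝ) * ((n : ℝ) * (TTc n a σ * (|1 / a| + A0c n a Kc)) * TTc n a σ)
    + ((n : ℝ) * (TTc n a σ * A0c n a Kc) + (n : ℝ) * (A0c n a Kc * TTc n a σ))

/-- The constant bounding the whole correction. -/
noncomputable def A1c (n : ℕ) (a Kc σ : ℝ) : ℝ :=
  A0c n a Kc + (n : ℝ) * ((n : ℝ) * (|1 / a| * |σ|) * |1 / a|) + A2c n a Kc σ

/-- The size of the fluctuation relevant at first order. -/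
noncomputable def qx (x : Fin n → ℝ) : ℝ := 1 + Real.sqrt (P.k * P.dx x)

lemma qx_ge_one (x : Fin n → ℝ) : 1 ≤ P.qx x :=
  le_add_of_nonneg_right (Real.sqrt_nonneg _)

lemma abs_inv_a : |1 / P.a| = 1 / P.a :=
  abs_of_nonneg (one_div_pos.2 P.hU.a_pos).le

lemma er_parts (y x : Fin n → ℝ) :
    Real.sqrt P.k * (P.dx x + P.sd y x) ≤ P.er y x ∧ 1 / Real.sqrt P.k ≤ P.er y x ∧
      sumSq (gr (P.cx y) x) ^ 2 / P.k ^ 2 / Real.sqrt P.k ≤ P.er y x ∧
      sumSq (gr (P.cx y) x) / P.k / Real.sqrt P.k ≤ P.er y x ∧ 0 ≤ P.sd y x ∧ 0 ≤ P.er y x := by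
  have hk := P.k_pos
  have hu : 0 ≤ sumSq (gr (P.cx y) x) := sumSq_nonneg _
  have hd : 0 ≤ P.sd y x := sum_nonneg fun _ _ => sum_nonneg fun _ _ => sq_nonneg _
  have h1 : 0 ≤ Real.sqrt P.k * (P.dx x + P.sd y x) :=
    mul_nonneg (Real.sqrt_nonneg _) (add_nonneg (P.dx_nonneg x) hd)
  have h2 : 0 ≤ 1 / Real.sqrt P.k := by positivity
  have h3 : 0 ≤ sumSq (gr (P.cx y) x) ^ 2 / P.k ^ 2 / Real.sqrt P.k := by positivity
  have h4 : 0 ≤ sumSq (gr (P.cx y) x) / P.k / Real.sqrt P.k := by positivity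
  have e : P.er y x = Real.sqrt P.k * (P.dx x + P.sd y x) + 1 / Real.sqrt P.k
      + (sumSq (gr (P.cx y) x) ^ 2 / P.k ^ 2 / Real.sqrt P.k
        + sumSq (gr (P.cx y) x) / P.k / Real.sqrt P.k) := by
    rw [er]; ring
  refine ⟨?_, ?_, ?_, ?_, hd, ?_⟩ <;> linarith

lemma sqrt_le_er (y x : Fin n → ℝ) {z : ℝ} (hz : 0 ≤ z) (hle : z ≤ P.dx x + P.sd y x) :
    Real.sqrt z ≤ P.er y x := by
  have ht0 : 0 < Real.sqrt P.k := Real.sqrt_pos.2 P.k_pos
  have h2 := two_mul_abs_le 1 (Real.sqrt z) (Real.sqrt P.k) ht0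
  rw [one_mul, abs_of_nonneg (Real.sqrt_nonneg z), Real.sq_sqrt hz, one_pow] at h2
  have h3 := mul_le_mul_of_nonneg_left hle ht0.le
  obtain ⟨p1, p2, -, -, -, -⟩ := P.er_parts y x
  linarith

lemma qx_le_er (y x : Fin n → ℝ) : 1 / P.k * P.qx x ≤ 2 * P.er y x := by
  have hk := P.k_pos
  set t := Real.sqrt P.k with ht
  have ht0 : 0 < t := Real.sqrt_pos.2 hk
  have ht1 : 1 ≤ t := by rw [ht, ← Real.sqrt_one]; exact Real.sqrt_le_sqrt P.k_one
  have htt : t * t = P.k := Real.mul_self_sqrt hk.le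
  obtain ⟨-, p2, -, -, hd, -⟩ := P.er_parts y x
  have h1 : 1 / P.k ≤ 1 / t :=
    one_div_le_one_div_of_le ht0 (by rw [← htt]; exact le_mul_of_one_le_left ht0.le ht1)
  have e1 : 1 / P.k * t = 1 / t := by rw [← htt]; field_simp
  have h2 : 1 / P.k * Real.sqrt (P.k * P.dx x) ≤ Real.sqrt (P.dx x) := by
    rw [Real.sqrt_mul hk.le, ← ht, ← mul_assoc, e1]
    exact mul_le_of_le_one_left (Real.sqrt_nonneg _) (by rw [div_le_one ht0]; exact ht1)
  have h3 := P.sqrt_le_er y x (P.dx_nonneg x) (by linarith)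
  rw [qx, mul_add, mul_one]; linarith

lemma qx_sq_le_er (y x : Fin n → ℝ) : 1 / P.k * (Real.sqrt P.k * P.qx x ^ 2) ≤ 4 * P.er y x := by
  have hk := P.k_pos
  set t := Real.sqrt P.k with ht
  have ht0 : 0 < t := Real.sqrt_pos.2 hk
  have htt : t * t = P.k := Real.mul_self_sqrt hk.le
  obtain ⟨p1, p2, -, -, hd, -⟩ := P.er_parts y x
  have h1 : P.qx x ^ 2 ≤ 2 * (1 + P.k * P.dx x) := by
    have := Real.sq_sqrt (mul_nonneg hk.le (P.dx_nonneg x))
    rw [qx]; nlinarith [sq_nonneg (Real.sqrt (P.k * P.dx x) - 1)]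
  have e2 : 1 / P.k * (t * (2 * (1 + P.k * P.dx x))) = 2 * (1 / t + t * P.dx x) := by
    rw [← htt]; field_simp
  have h3 := mul_le_mul_of_nonneg_left h1 (mul_nonneg (one_div_pos.2 hk).le ht0.le)
  rw [mul_assoc, mul_assoc, e2] at h3
  nlinarith [mul_nonneg ht0.le hd]

/-- The entries of the first correction. -/
lemma eb_N0 (C : Ten n) (Kc : ℝ) (hC : ∀ p q i, |C p q i| ≤ Kc) (x : Fin n → ℝ) :
    EB (P.N0 C Kc x) (A0c n P.a Kc * P.qx x) := by
  have hdx := P.dx_nonneg x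
  have hk := P.k_pos
  have hk1 := P.k_one
  set β := 1 / P.a
  set n' := (n : ℝ)
  set kc := |Kc|
  set zk := |zK n P.a Kc|
  have hβ : |β| = 1 / P.a := P.abs_inv_a
  have hYb : EB (P.Yb x) |β| := (P.eb_Yb x).mono (le_abs_self _)
  have hKc : ∀ p q i, |C p q i| ≤ kc := fun p q i => (hC p q i).trans (le_abs_self _)
  set A0 := A0c n P.a Kc
  have hA0 : A0 = |β| + (n' ^ 2 * (2 * kc) * Real.sqrt |β| + 2 * n' ^ 4 * kc ^ 2 * |β| ^ 2) + zk := rfl
  set q := P.qx x with hqdef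
  have hq : q = 1 + Real.sqrt (P.k * P.dx x) := rfl
  have hq1 : 1 ≤ q := P.qx_ge_one x
  have hG : ∀ i j l, |P.G x i j l| ≤ Real.sqrt |β| * q := fun i j l => by
    rw [hβ]
    exact (P.abs_G_le_dx x i j l).trans
      (mul_le_mul_of_nonneg_left (by rw [hq]; linarith) (Real.sqrt_nonneg _))
  show EB (P.N0 C Kc x) (A0 * q)
  have g1 : EB (gam C (P.G x) (P.Yb x))
      ((n' ^ 2 * (2 * kc) * Real.sqrt |β| + 2 * n' ^ 4 * kc ^ 2 * |β| ^ 2) * q) := by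
    intro i l
    simp only [gam]
    have k1 : |∑ p, ∑ q', (C p q' i * P.G x p q' l + C p q' l * P.G x p q' i)|
        ≤ n' ^ 2 * (2 * kc) * Real.sqrt |β| * q := by
      refine (abs_sum_le_sum_abs _ _).trans ((sum_le_sum fun p _ => (abs_sum_le_sum_abs _ _).trans
        (sum_le_sum fun q' _ => (?_ : _ ≤ 2 * (kc * (Real.sqrt |β| * q))))).trans (le_of_eq ?_))
      · refine (abs_add_le _ _).trans ?_
        rw [abs_mul, abs_mul, two_mul]
        exact add_le_add (mul_le_mul (hKc _ _ _) (hG _ _ _) (abs_nonneg _) (abs_nonneg _))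
          (mul_le_mul (hKc _ _ _) (hG _ _ _) (abs_nonneg _) (abs_nonneg _))
      · simp [n']; ring
    have k2 : |∑ p, ∑ q', ∑ r, ∑ u, C p q' i * C r u l * (P.Yb x p r * P.Yb x q' u)|
        ≤ n' ^ 4 * kc ^ 2 * |β| ^ 2 := by
      refine (abs_sum_le_sum_abs _ _).trans ((sum_le_sum fun p _ => (abs_sum_le_sum_abs _ _).trans
        (sum_le_sum fun q' _ => (abs_sum_le_sum_abs _ _).trans (sum_le_sum fun r _ =>
          (abs_sum_le_sum_abs _ _).trans (sum_le_sum fun u _ =>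
            (?_ : _ ≤ kc * kc * (|β| * |β|)))))).trans (le_of_eq ?_))
      · rw [abs_mul, abs_mul, abs_mul]
        exact mul_le_mul (mul_le_mul (hKc _ _ _) (hKc _ _ _) (abs_nonneg _) (abs_nonneg _))
          (mul_le_mul (hYb _ _) (hYb _ _) (abs_nonneg _) (abs_nonneg _))
          (mul_nonneg (abs_nonneg _) (abs_nonneg _)) (mul_nonneg (abs_nonneg _) (abs_nonneg _))
      · simp [n']; ring
    have k3 : n' ^ 4 * kc ^ 2 * |β| ^ 2 ≤ n' ^ 4 * kc ^ 2 * |β| ^ 2 * q :=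
      le_mul_of_one_le_right (by positivity) hq1
    refine (abs_add_le _ _).trans ?_
    rw [abs_neg, abs_mul, abs_two]
    linarith
  have g2 : EB ((zK n P.a Kc * Real.sqrt (P.dx x)) • (1 : Matrix (Fin n) (Fin n) ℝ)) (zk * q) := by
    refine (eb_one.smul _).mono ?_
    rw [mul_one, abs_mul, abs_of_nonneg (Real.sqrt_nonneg _)]
    refine mul_le_mul_of_nonneg_left ?_ (abs_nonneg _)
    have : Real.sqrt (P.dx x) ≤ Real.sqrt (P.k * P.dx x) :=
      Real.sqrt_le_sqrt (le_mul_of_one_le_left hdx hk1)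
    linarith
  refine ((hYb.add g1).add g2).mono (le_of_eq_of_le ?_ (show A0 * q - |β| * q + |β| ≤ A0 * q by
    nlinarith [abs_nonneg β]))
  rw [hA0]; ring

lemma Yb_transpose (x : Fin n → ℝ) : (P.Yb x)ᵀ = P.Yb x := by
  ext i j
  show P.Yb x j i = P.Yb x i j
  simp only [P.Yb_eq, (P.bd_cy x).mH_symm i j]

/-- The second correction. -/
noncomputable def R2m (C : Ten n) (Kc : ℝ) (s : Fin n → ℝ) (x : Fin n → ℝ) : Matrix (Fin n) (Fin n) ℝ :=
  (P.Yb x * diagonal s) * (P.Yb x + (1 / P.k) • P.N0 C Kc x) * (diagonal s * P.Yb x)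
    - ((P.Yb x * diagonal s) * P.N0 C Kc x + P.N0 C Kc x * (diagonal s * P.Yb x))

/-- The whole correction. -/
noncomputable def R1m (C : Ten n) (Kc : ℝ) (s : Fin n → ℝ) (x : Fin n → ℝ) : Matrix (Fin n) (Fin n) ℝ :=
  (P.N0 C Kc x - P.Yb x * diagonal s * P.Yb x) + (1 / P.k) • P.R2m C Kc s x

lemma Hm_split (C : Ten n) (Kc : ℝ) (s : Fin n → ℝ) (x : Fin n → ℝ) :
    P.Hm C Kc s x = P.Yb x + (1 / P.k) • (P.N0 C Kc x - P.Yb x * diagonal s * P.Yb x)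
      + ((1 / P.k) ^ 2) • P.R2m C Kc s x :=
  hm_identity (P.Yb x) (diagonal s) (P.N0 C Kc x) (1 / P.k) (P.Yb_transpose x) (diagonal_transpose s)

lemma Hm_split' (C : Ten n) (Kc : ℝ) (s : Fin n → ℝ) (x : Fin n → ℝ) :
    P.Hm C Kc s x = P.Yb x + (1 / P.k) • P.R1m C Kc s x := by
  rw [Hm_split, R1m, smul_add, smul_smul, ← sq, add_assoc]

lemma A0c_nonneg (n : ℕ) (a Kc : ℝ) : 0 ≤ A0c n a Kc := by unfold A0c; positivity

lemma TTc_nonneg (n : ℕ) (a σ : ℝ) : 0 ≤ TTc n a σ := by unfold TTc; positivity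

lemma A2c_nonneg (n : ℕ) (a Kc σ : ℝ) : 0 ≤ A2c n a Kc σ := by
  have := A0c_nonneg n a Kc; have := TTc_nonneg n a σ
  unfold A2c; positivity

lemma A1c_nonneg (n : ℕ) (a Kc σ : ℝ) : 0 ≤ A1c n a Kc σ := by
  have := A0c_nonneg n a Kc; have := A2c_nonneg n a Kc σ
  unfold A1c; positivity

lemma eb_R (C : Ten n) (Kc : ℝ) (hC : ∀ p q i, |C p q i| ≤ Kc) (s : Fin n → ℝ) (hs0 : ∀ i, 0 ≤ s i)
    (x : Fin n → ℝ) :
    EB (P.R2m C Kc s x) (A2c n P.a Kc (∑ i, s i) * P.qx x) ∧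
      EB (P.R1m C Kc s x) (A1c n P.a Kc (∑ i, s i) * P.qx x) := by
  set σ := ∑ i, s i
  set β := 1 / P.a
  set A0 := A0c n P.a Kc
  set TT := TTc n P.a σ with hTT
  set A2 := A2c n P.a Kc σ with hA2
  set q := P.qx x
  set e := 1 / P.k
  have he0 : 0 < e := one_div_pos.2 P.k_pos
  have he1 : e ≤ 1 := (div_le_one P.k_pos).2 P.k_one
  have hq1 : 1 ≤ q := P.qx_ge_one x
  have hq0 : 0 ≤ q := zero_le_one.trans hq1
  have hYb : EB (P.Yb x) |β| := (P.eb_Yb x).mono (le_abs_self _)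
  have hS0 : EB (diagonal s) |σ| := (eb_diagonal hs0).mono (le_abs_self _)
  have hN : EB (P.N0 C Kc x) (A0 * q) := P.eb_N0 C Kc hC x
  have hA0 : 0 ≤ A0 := A0c_nonneg _ _ _
  have hA20 : 0 ≤ A2 := A2c_nonneg _ _ _ _
  have hTA : EB (P.Yb x * diagonal s) TT := hYb.mul hS0
  have hTB : EB (diagonal s * P.Yb x) TT := (hS0.mul hYb).mono (le_of_eq (by rw [hTT, TTc]; ring))
  have g1 : EB (P.Yb x + e • P.N0 C Kc x) ((|β| + A0) * q) := by
    refine (hYb.add (hN.smul e)).mono ?_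
    rw [abs_of_pos he0, add_mul]
    exact add_le_add (le_mul_of_one_le_right (abs_nonneg _) hq1)
      (mul_le_of_le_one_left (mul_nonneg hA0 hq0) he1)
  have hR2 : EB (P.R2m C Kc s x) (A2 * q) := by
    refine (((hTA.mul g1).mul hTB).sub ((hTA.mul hN).add (hN.mul hTB))).mono (le_of_eq ?_)
    rw [hA2, A2c]; ring
  refine ⟨hR2, ?_⟩
  refine ((hN.sub ((hYb.mul hS0).mul hYb)).add (hR2.smul e)).mono ?_
  rw [abs_of_pos he0, A1c]
  have h1 : e * (A2 * q) ≤ A2 * q := mul_le_of_le_one_left (mul_nonneg hA20 hq0) he1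
  have h2 : (n : ℝ) * ((n : ℝ) * (|β| * |σ|) * |β|) ≤ (n : ℝ) * ((n : ℝ) * (|β| * |σ|) * |β|) * q :=
    le_mul_of_one_le_right (by positivity) hq1
  linarith

/-- The trace of the quadratic correction. -/
lemma wsum_gam (C : Ten n) (y x : Fin n → ℝ) :
    wsum (P.Y y) (gam C (P.G x) (P.Yb x))
      = -2 * pr C (tc 1 1 (P.Y y) (P.G x)) + 2 * pr C (tc (P.Yb x) (P.Yb x) (P.Y y) C) := by
  set Y0 := P.Y y
  set Yb := P.Yb x
  have hsym : Y0ᵀ = Y0 := (P.between_Y y).symm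
  have hYbsym : Ybᵀ = Yb := P.Yb_transpose x
  have hs' : ∀ i l, Y0 i l = Y0 l i := fun i l => (congrFun (congrFun hsym i) l).symm
  have hb' : ∀ i l, Yb i l = Yb l i := fun i l => (congrFun (congrFun hYbsym i) l).symm
  have a1 : pr C (tc 1 1 Y0 (P.G x)) = ∑ i, ∑ l, Y0 i l * ∑ p, ∑ q', C p q' i * P.G x p q' l := by
    calc pr C (tc 1 1 Y0 (P.G x)) = ∑ p, ∑ q', ∑ i, ∑ l, C p q' i * (Y0 l i * P.G x p q' l) := by
          simp [pr, tc_apply, Matrix.one_apply, mul_sum]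
      _ = _ := by
          rw [sum_four]
          refine sum_congr rfl fun i _ => sum_congr rfl fun l _ => ?_
          rw [mul_sum]
          refine sum_congr rfl fun p _ => ?_
          rw [mul_sum]
          exact sum_congr rfl fun q' _ => by rw [hs' i l]; ring
  have a2 : pr C (tc Yb Yb Y0 C)
      = ∑ i, ∑ l, Y0 i l * ∑ p, ∑ q', ∑ r, ∑ u, C p q' i * C r u l * (Yb p r * Yb q' u) := by
    calc pr C (tc Yb Yb Y0 C) = ∑ p, ∑ q', ∑ i, ∑ l, ∑ r, ∑ u,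
          C p q' i * (Yb r p * (Yb u q' * (Y0 l i * C r u l))) := by
          simp only [pr, tc_apply, mul_sum]
          exact sum_congr rfl fun p _ => sum_congr rfl fun q' _ => sum_congr rfl fun i _ => sum_comm_cycle
      _ = _ := by
          rw [sum_four]
          refine sum_congr rfl fun i _ => sum_congr rfl fun l _ => ?_
          simp only [mul_sum]
          exact sum_congr rfl fun p _ => sum_congr rfl fun q' _ => sum_congr rfl fun r _ =>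
            sum_congr rfl fun u _ => by rw [hs' i l, hb' p r, hb' q' u]; ring
  have a3 : ∑ i, ∑ l, Y0 i l * ∑ p, ∑ q', C p q' l * P.G x p q' i
      = ∑ i, ∑ l, Y0 i l * ∑ p, ∑ q', C p q' i * P.G x p q' l := by
    rw [sum_comm]
    exact sum_congr rfl fun i _ => sum_congr rfl fun l _ => by rw [hs' l i]
  have e0 : wsum Y0 (gam C (P.G x) Yb)
      = -((∑ i, ∑ l, Y0 i l * ∑ p, ∑ q', C p q' i * P.G x p q' l)
          + ∑ i, ∑ l, Y0 i l * ∑ p, ∑ q', C p q' l * P.G x p q' i)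
        + 2 * ∑ i, ∑ l, Y0 i l * ∑ p, ∑ q', ∑ r, ∑ u, C p q' i * C r u l * (Yb p r * Yb q' u) := by
    have : ∀ i l, Y0 i l * gam C (P.G x) Yb i l
        = -(Y0 i l * (∑ p, ∑ q', C p q' i * P.G x p q' l)
            + Y0 i l * ∑ p, ∑ q', C p q' l * P.G x p q' i)
          + 2 * (Y0 i l * ∑ p, ∑ q', ∑ r, ∑ u, C p q' i * C r u l * (Yb p r * Yb q' u)) := fun i l => by
      simp only [gam, sum_add_distrib]; ring
    unfold wsum
    rw [sum_congr rfl fun i _ => sum_congr rfl fun l _ => this i l]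
    simp only [sum_add_distrib, sum_neg_distrib, ← mul_sum]
  rw [e0, a3, ← a1, ← a2]; ring

lemma eb_diff (y x : Fin n → ℝ) : EB (P.Yb x - P.Y y) (Real.sqrt (P.sd y x)) := fun i j => by
  refine Real.abs_le_sqrt ?_
  rw [Matrix.sub_apply, ← neg_sub, neg_sq]
  refine le_trans ?_ (single_le_sum (f := fun i => ∑ j, (P.Y y i j - P.Yb x i j) ^ 2)
    (fun _ _ => sum_nonneg fun _ _ => sq_nonneg _) (mem_univ i))
  exact single_le_sum (f := fun j => (P.Y y i j - P.Yb x i j) ^ 2) (fun _ _ => sq_nonneg _)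
    (mem_univ j)

lemma eb_Sm (E : Ten n) (Ke : ℝ) (hE : ∀ p q i, |E p q i| ≤ Ke) (y x : Fin n → ℝ) :
    EB (P.Sm E y x) ((n : ℝ) * |Ke| * |1 / P.a| * ∑ p, |gr (P.cx y) x p|) := by
  have hY : EB (P.Y y) |1 / P.a| := (P.eb_Y y).mono (le_abs_self _)
  intro q' l
  show |∑ p', (∑ p, E p q' l * P.Y y p p') * gr (P.cx y) x p'| ≤ _
  refine (abs_sum_le_sum_abs _ _).trans ?_
  rw [mul_sum]
  refine sum_le_sum fun p' _ => ?_
  rw [abs_mul]
  refine mul_le_mul_of_nonneg_right ?_ (abs_nonneg _)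
  refine (abs_sum_le_sum_abs _ _).trans
    ((sum_le_sum fun p _ => (?_ : _ ≤ |Ke| * |1 / P.a|)).trans (le_of_eq (by simp; ring)))
  rw [abs_mul]
  exact mul_le_mul ((hE _ _ _).trans (le_abs_self _)) (hY _ _) (abs_nonneg _) (abs_nonneg _)

lemma sum_abs_sq_le (v : Fin n → ℝ) : (∑ p, |v p|) ^ 2 ≤ (n : ℝ) * sumSq v := by
  refine sq_sum_le_card_mul_sum_sq.trans (le_of_eq ?_)
  simp [sumSq]

/-- The first order term. -/
lemma expand_first (C : Ten n) (Kc : ℝ) (hC : ∀ p q i, |C p q i| ≤ Kc) (s : Fin n → ℝ)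
    (hs0 : ∀ i, 0 ≤ s i) (y x : Fin n → ℝ) :
    wsum (P.Y y) (P.Hm C Kc s x) ≤ (1 + 1 / P.k) * wsum (P.Y y) (P.Yb x)
      - 1 / P.k * wsum (P.Y y) (P.Yb x * diagonal s * P.Yb x)
      - 1 / P.k * (2 * pr C (tc 1 1 (P.Y y) (P.G x)) - 2 * pr C (tc (P.Y y) (P.Y y) (P.Y y) C))
      + 1 / P.k * ((n : ℝ) ^ 2 * |1 / P.a| * (2 * A2c n P.a Kc (∑ i, s i))
        + ((n : ℝ) ^ 2 * |1 / P.a| * |zK n P.a Kc| + 4 * (n : ℝ) ^ 6 * |Kc| ^ 2 * |1 / P.a| ^ 2))
        * P.er y x := by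
  have hdx := P.dx_nonneg x
  set β := 1 / P.a
  set n' := (n : ℝ)
  set kc := |Kc|
  set zk := |zK n P.a Kc|
  set Y0 := P.Y y
  set Yb := P.Yb x
  set N := P.N0 C Kc x
  set A2 := A2c n P.a Kc (∑ i, s i)
  set q := P.qx x
  set e := 1 / P.k
  have he0 : 0 < e := one_div_pos.2 P.k_pos
  have hY : EB Y0 |β| := (P.eb_Y y).mono (le_abs_self _)
  have hYb : EB Yb |β| := (P.eb_Yb x).mono (le_abs_self _)
  have hKc : ∀ p q i, |C p q i| ≤ kc := fun p q i => (hC p q i).trans (le_abs_self _)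
  have hR2b : EB (P.R2m C Kc s x) (A2 * q) := (P.eb_R C Kc hC s hs0 x).1
  have hA20 : 0 ≤ A2 := A2c_nonneg _ _ _ _
  have hqe : e * q ≤ 2 * P.er y x := P.qx_le_er y x
  obtain ⟨-, -, -, -, hd, her0⟩ := P.er_parts y x
  have hdiff : EB (Yb - Y0) (Real.sqrt (P.sd y x)) := P.eb_diff y x
  set er := P.er y x
  have w2 : pr C (tc Yb Yb Y0 C) ≤ pr C (tc Y0 Y0 Y0 C) + 2 * n' ^ 6 * kc ^ 2 * |β| ^ 2 * er := by
    have s1 : pr C (tc Yb Yb Y0 C) = pr C (tc Y0 Y0 Y0 C)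
        + (pr C (tc (Yb - Y0) Yb Y0 C) + pr C (tc Y0 (Yb - Y0) Y0 C)) := by
      simp only [pr, ← sum_add_distrib]
      refine sum_congr rfl fun a _ => sum_congr rfl fun b _ => sum_congr rfl fun c _ => ?_
      rw [tc_sub₁, tc_sub₂]; ring
    have s2 := (abs_le.1 (abs_pr_le hKc (abs_tc_entry_le hdiff hYb hY hKc))).2
    have s3 := (abs_le.1 (abs_pr_le hKc (abs_tc_entry_le hY hdiff hY hKc))).2
    have s4 := mul_le_mul_of_nonneg_left (P.sqrt_le_er y x hd (by linarith))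
      (show 0 ≤ 2 * n' ^ 6 * kc ^ 2 * |β| ^ 2 by positivity)
    rw [s1]; linarith
  have w3 : (zK n P.a Kc * Real.sqrt (P.dx x)) * wsum Y0 1 ≤ n' ^ 2 * |β| * zk * er := by
    refine (le_abs_self _).trans ?_
    rw [abs_mul, abs_mul, abs_of_nonneg (Real.sqrt_nonneg (P.dx x)),
      show n' ^ 2 * |β| * zk * er = zk * er * (n' ^ 2 * (|β| * 1)) by ring]
    exact mul_le_mul (mul_le_mul_of_nonneg_left (P.sqrt_le_er y x hdx (by linarith)) (abs_nonneg _))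
      (abs_wsum_le hY eb_one) (abs_nonneg _) (mul_nonneg (abs_nonneg _) her0)
  have w4 : e * wsum Y0 (P.R2m C Kc s x) ≤ n' ^ 2 * |β| * (2 * A2) * er := by
    have := mul_le_mul_of_nonneg_left (abs_le.1 (abs_wsum_le hY hR2b)).2 he0.le
    refine this.trans (le_of_eq_of_le (show e * (n' ^ 2 * (|β| * (A2 * q)))
      = n' ^ 2 * |β| * A2 * (e * q) by ring) ?_)
    exact (mul_le_mul_of_nonneg_left hqe (by positivity)).trans (le_of_eq (by ring))
  have eN : wsum Y0 N = wsum Y0 Yb + wsum Y0 (gam C (P.G x) Yb)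
      + (zK n P.a Kc * Real.sqrt (P.dx x)) * wsum Y0 1 := by
    simp only [N, N0, wsum_add, wsum_smul]; rfl
  rw [P.Hm_split, wsum_add, wsum_add, wsum_smul, wsum_smul, wsum_sub, eN, P.wsum_gam]
  have := mul_le_mul_of_nonneg_left w2 he0.le
  have := mul_le_mul_of_nonneg_left w3 he0.le
  have := mul_le_mul_of_nonneg_left w4 he0.le
  linarith

/-- The cross term. -/
lemma expand_cross (C E : Ten n) (Kc Ke : ℝ) (hC : ∀ p q i, |C p q i| ≤ Kc)
    (hE : ∀ p q i, |E p q i| ≤ Ke) (s : Fin n → ℝ) (hs0 : ∀ i, 0 ≤ s i) (y x : Fin n → ℝ) :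
    -(1 / P.k * wsum (P.Y y) ((P.Sm E y x)ᵀ * P.Hm C Kc s x + P.Hm C Kc s x * P.Sm E y x))
      ≤ -(2 * (1 / P.k) * wsum (P.Y y) (P.Yb x * P.Sm E y x))
        + 1 / P.k * (2 * ((n : ℝ) ^ 2 * |1 / P.a|
          * ((n : ℝ) * ((n : ℝ) * |Ke| * |1 / P.a|) * A1c n P.a Kc (∑ i, s i))) * ((n : ℝ) + 4)) * P.er y x := by
  set β := 1 / P.a
  set n' := (n : ℝ)
  set Y0 := P.Y y
  set Yb := P.Yb x
  set S := P.Sm E y x
  set σ := ∑ i, s i
  set A1 := A1c n P.a Kc σ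
  set Ks := n' * |Ke| * |β|
  set r1 := ∑ p, |gr (P.cx y) x p|
  set q := P.qx x
  set t := Real.sqrt P.k
  set e := 1 / P.k with he
  have hk := P.k_pos
  have ht0 : 0 < t := Real.sqrt_pos.2 hk
  have he0 : 0 < e := one_div_pos.2 hk
  have hr0 : 0 ≤ r1 := sum_nonneg fun _ _ => abs_nonneg _
  have hr2 : r1 ^ 2 ≤ n' * sumSq (gr (P.cx y) x) := sum_abs_sq_le _
  have hq0 : 0 ≤ q := zero_le_one.trans (P.qx_ge_one x)
  have hA10 : 0 ≤ A1 := A1c_nonneg _ _ _ _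
  have hY : EB Y0 |β| := (P.eb_Y y).mono (le_abs_self _)
  have hS : EB S (Ks * r1) := P.eb_Sm E Ke hE y x
  have hR1b : EB (P.R1m C Kc s x) (A1 * q) := (P.eb_R C Kc hC s hs0 x).2
  have hq2 : e * (t * q ^ 2) ≤ 4 * P.er y x := P.qx_sq_le_er y x
  obtain ⟨pd', -, p4, p5, hd, her0⟩ := P.er_parts y x
  set u := sumSq (gr (P.cx y) x)
  have hu : 0 ≤ u := sumSq_nonneg _
  set er := P.er y x
  set R1 := P.R1m C Kc s x
  have hsym : Y0ᵀ = Y0 := (P.between_Y y).symm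
  have hYbsym : Ybᵀ = Yb := P.Yb_transpose x
  have ec : wsum Y0 (Sᵀ * P.Hm C Kc s x + P.Hm C Kc s x * S)
      = 2 * wsum Y0 (Yb * S) + e * (wsum Y0 (Sᵀ * R1) + wsum Y0 (R1 * S)) := by
    have : Sᵀ * Yb = (Yb * S)ᵀ := by rw [transpose_mul, hYbsym]
    rw [P.Hm_split', mul_add, add_mul, wsum_add, wsum_add, wsum_add, this, wsum_transpose hsym,
      Matrix.mul_smul, Matrix.smul_mul, wsum_smul, wsum_smul]
    ring
  have b1 := abs_le.1 (abs_wsum_le hY (hS.transpose.mul hR1b))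
  have b2 := abs_le.1 (abs_wsum_le hY (hR1b.mul hS))
  set c0 := n' ^ 2 * |β| * (n' * Ks * A1)
  have hc0 : 0 ≤ c0 := by
    have : 0 ≤ Ks := by positivity
    positivity
  have b3 : e * (r1 * q) ≤ (n' + 4) * er := by
    have k0 := two_mul_abs_le r1 q t ht0
    rw [abs_of_nonneg (mul_nonneg hr0 hq0)] at k0
    have k1 : e * (r1 ^ 2 / t) ≤ n' * er := by
      calc e * (r1 ^ 2 / t) ≤ e * (n' * u / t) := by gcongr
        _ = n' * (u / P.k / t) := by rw [he]; ring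
        _ ≤ n' * er := mul_le_mul_of_nonneg_left p5 (Nat.cast_nonneg n)
    have k2 := mul_le_mul_of_nonneg_left k0 he0.le
    have k3 : 0 ≤ e * (r1 * q) := mul_nonneg he0.le (mul_nonneg hr0 hq0)
    linarith
  have b4 : -(2 * c0 * (r1 * q)) ≤ wsum Y0 (Sᵀ * R1) + wsum Y0 (R1 * S) := by linarith
  have b5 := mul_le_mul_of_nonneg_left b4 (mul_nonneg he0.le he0.le)
  have b6 := mul_le_mul_of_nonneg_left b3 (mul_nonneg (mul_nonneg he0.le two_pos.le) hc0)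
  rw [ec]
  linarith

/-- The cost term. -/
lemma expand_cost (C E : Ten n) (Kc Ke : ℝ) (hC : ∀ p q i, |C p q i| ≤ Kc)
    (hE : ∀ p q i, |E p q i| ≤ Ke) (s : Fin n → ℝ) (hs0 : ∀ i, 0 ≤ s i) (y x : Fin n → ℝ) :
    (1 / P.k) ^ 2 * wsum (P.Y y) ((P.Sm E y x)ᵀ * P.Hm C Kc s x * P.Sm E y x)
      ≤ (1 / P.k) ^ 2 * wsum (P.Y y) ((P.Sm E y x)ᵀ * P.Y y * P.Sm E y x)
        + 1 / P.k * ((n : ℝ) ^ 2 * |1 / P.a| * ((n : ℝ) ^ 2 * ((n : ℝ) * |Ke| * |1 / P.a|) ^ 2)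
          * ((n : ℝ) ^ 2 + 4 + 8 * A1c n P.a Kc (∑ i, s i) ^ 2)) * P.er y x := by
  set β := 1 / P.a
  set n' := (n : ℝ)
  set Y0 := P.Y y
  set Yb := P.Yb x
  set S := P.Sm E y x
  set σ := ∑ i, s i
  set A1 := A1c n P.a Kc σ
  set Ks := n' * |Ke| * |β|
  set r1 := ∑ p, |gr (P.cx y) x p|
  set q := P.qx x
  set t := Real.sqrt P.k
  set e := 1 / P.k with he
  have hk := P.k_pos
  have ht0 : 0 < t := Real.sqrt_pos.2 hk
  have he0 : 0 < e := one_div_pos.2 hk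
  have hr0 : 0 ≤ r1 := sum_nonneg fun _ _ => abs_nonneg _
  have hr2 : r1 ^ 2 ≤ n' * sumSq (gr (P.cx y) x) := sum_abs_sq_le _
  have hq0 : 0 ≤ q := zero_le_one.trans (P.qx_ge_one x)
  have hA10 : 0 ≤ A1 := A1c_nonneg _ _ _ _
  have hY : EB Y0 |β| := (P.eb_Y y).mono (le_abs_self _)
  have hS : EB S (Ks * r1) := P.eb_Sm E Ke hE y x
  have hR1b : EB (P.R1m C Kc s x) (A1 * q) := (P.eb_R C Kc hC s hs0 x).2
  have hq2 : e * (t * q ^ 2) ≤ 4 * P.er y x := P.qx_sq_le_er y x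
  obtain ⟨pd', -, p4, p5, hd, her0⟩ := P.er_parts y x
  set u := sumSq (gr (P.cx y) x)
  have hu : 0 ≤ u := sumSq_nonneg _
  set er := P.er y x
  set R1 := P.R1m C Kc s x
  set d := P.sd y x
  set δ := Real.sqrt d + e * (A1 * q)
  have hδ : EB (P.Hm C Kc s x - Y0) δ := by
    rw [P.Hm_split', show Yb + e • R1 - Y0 = (Yb - Y0) + e • R1 by abel]
    exact ((P.eb_diff y x).add (hR1b.smul e)).mono (le_of_eq (by rw [abs_of_pos he0]))
  have es : wsum Y0 (Sᵀ * P.Hm C Kc s x * S)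
      = wsum Y0 (Sᵀ * Y0 * S) + wsum Y0 (Sᵀ * (P.Hm C Kc s x - Y0) * S) := by
    rw [← wsum_add, mul_sub, sub_mul]; congr 1; abel
  have b1 := (abs_le.1 (abs_wsum_le hY ((hS.transpose.mul hδ).mul hS))).2
  have hδ0 : 0 ≤ δ := add_nonneg (Real.sqrt_nonneg _) (mul_nonneg he0.le (mul_nonneg hA10 hq0))
  have b2 : e * (r1 ^ 2 * δ) ≤ (n' ^ 2 + 4 + 8 * A1 ^ 2) * er := by
    have k0 := two_mul_abs_le (r1 ^ 2) δ (P.k * t) (by positivity)
    rw [abs_of_nonneg (mul_nonneg (sq_nonneg r1) hδ0)] at k0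
    have k1 : e * ((r1 ^ 2) ^ 2 / (P.k * t)) ≤ n' ^ 2 * er := by
      calc e * ((r1 ^ 2) ^ 2 / (P.k * t)) ≤ e * ((n' * u) ^ 2 / (P.k * t)) := by gcongr
        _ = n' ^ 2 * (u ^ 2 / P.k ^ 2 / t) := by rw [he]; field_simp
        _ ≤ n' ^ 2 * er := mul_le_mul_of_nonneg_left p4 (sq_nonneg _)
    have k2 : e * (P.k * t * δ ^ 2) ≤ (2 + 8 * A1 ^ 2) * er := by
      rw [show e * (P.k * t * δ ^ 2) = t * δ ^ 2 by rw [he]; field_simp]
      have h5 : δ ^ 2 ≤ 2 * d + 2 * (e * (A1 * q)) ^ 2 := by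
        have := Real.sq_sqrt hd
        simp only [δ]; nlinarith [sq_nonneg (Real.sqrt d - e * (A1 * q))]
      have h6 : t * d ≤ er := le_trans
        (mul_le_mul_of_nonneg_left (le_add_of_nonneg_left (P.dx_nonneg x)) ht0.le) pd'
      have h7 : t * (e * (A1 * q)) ^ 2 ≤ 4 * A1 ^ 2 * er := by
        have : e * (e * (t * q ^ 2)) ≤ 4 * er :=
          (mul_le_of_le_one_left (by positivity) ((div_le_one hk).2 P.k_one)).trans hq2
        calc t * (e * (A1 * q)) ^ 2 = A1 ^ 2 * (e * (e * (t * q ^ 2))) := by ring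
          _ ≤ A1 ^ 2 * (4 * er) := mul_le_mul_of_nonneg_left this (sq_nonneg _)
          _ = _ := by ring
      have h8 := mul_le_mul_of_nonneg_left h5 ht0.le
      linarith
    have k3 := mul_le_mul_of_nonneg_left k0 he0.le
    have k4 : 0 ≤ e * (r1 ^ 2 * δ) := mul_nonneg he0.le (mul_nonneg (sq_nonneg r1) hδ0)
    linarith
  rw [es]
  have hKK : 0 ≤ n' ^ 2 * |β| * (n' ^ 2 * Ks ^ 2) := by positivity
  have b3 := mul_le_mul_of_nonneg_left b2 (mul_nonneg he0.le hKK)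
  have b4 := mul_le_mul_of_nonneg_left b1 (sq_nonneg e)
  linarith

/-- The integrand, expanded. -/
theorem exists_expand (n : ℕ) (a : ℝ) (Kc Ke : ℝ) (s : Fin n → ℝ) (hs0 : ∀ i, 0 ≤ s i) :
    ∃ K, 0 ≤ K ∧ ∀ (P : Setup n), P.a = a → ∀ (C E : Ten n), (∀ p q i, |C p q i| ≤ Kc) →
      (∀ p q i, |E p q i| ≤ Ke) → ∀ y x,
      wsum (P.Y y) ((1 - (1 / P.k) • P.Sm E y x)ᵀ * P.Hm C Kc s x * (1 - (1 / P.k) • P.Sm E y x))
        ≤ (1 + 1 / P.k) * wsum (P.Y y) (P.Yb x)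
          - 1 / P.k * wsum (P.Y y) (P.Yb x * diagonal s * P.Yb x)
          - 1 / P.k * (2 * pr C (tc 1 1 (P.Y y) (P.G x)) - 2 * pr C (tc (P.Y y) (P.Y y) (P.Y y) C))
          - 2 / P.k * wsum (P.Y y) (P.Yb x * P.Sm E y x)
          + (1 / P.k) ^ 2 * wsum (P.Y y) ((P.Sm E y x)ᵀ * P.Y y * P.Sm E y x)
          + K / P.k * P.er y x := by
  refine ⟨((n : ℝ) ^ 2 * |1 / a| * (2 * A2c n a Kc (∑ i, s i))
        + ((n : ℝ) ^ 2 * |1 / a| * |zK n a Kc| + 4 * (n : ℝ) ^ 6 * |Kc| ^ 2 * |1 / a| ^ 2))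
      + 2 * ((n : ℝ) ^ 2 * |1 / a|
          * ((n : ℝ) * ((n : ℝ) * |Ke| * |1 / a|) * A1c n a Kc (∑ i, s i))) * ((n : ℝ) + 4)
      + (n : ℝ) ^ 2 * |1 / a| * ((n : ℝ) ^ 2 * ((n : ℝ) * |Ke| * |1 / a|) ^ 2)
          * ((n : ℝ) ^ 2 + 4 + 8 * A1c n a Kc (∑ i, s i) ^ 2), ?_, fun P hPa C E hC hE y x => ?_⟩
  · have := A2c_nonneg n a Kc (∑ i, s i)
    have := A1c_nonneg n a Kc (∑ i, s i)
    positivity
  subst hPa
  have h1 := P.expand_first C Kc hC s hs0 y x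
  have h2 := P.expand_cross C E Kc Ke hC hE s hs0 y x
  have h3 := P.expand_cost C E Kc Ke hC hE s hs0 y x
  rw [cong_identity, wsum_add, wsum_sub, wsum_smul, wsum_smul]
  rw [show ∀ K : ℝ, K / P.k * P.er y x = 1 / P.k * K * P.er y x from fun K => by ring,
    show (2 : ℝ) / P.k = 2 * (1 / P.k) by ring]
  linarith

end Setup

end Vale.Agent.P254M
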