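import Vale.Agent.P254M.Setup

/-!
The two conditional laws of the regularised coupling: bounds, derivatives and regularity.
-/

namespace Vale.Agent.P254M

open MeasureTheory Set Filter Topology Finset Matrix
open Vale.Agent.P245 (pd dot sumSq sumSq_nonneg sq_le_sumSq pd_sub pd_add pd_const_mul contDiff_pd)
open scoped ContDiff

variable {n : ℕ} {U f : (Fin n → ℝ) → ℝ} {a b k : ℝ}

/-- Partial derivatives after a scaling. -/
lemma pd_comp_smul (hf : Differentiable ℝ f) (k : ℝ) (i : Fin n) (x : Fin n → ℝ) :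
    pd i (fun y => f (k • y)) x = k * pd i f (k • x) := by
  have h : HasFDerivAt (fun y => f (k • y))
      ((fderiv ℝ f (k • x)).comp (k • ContinuousLinearMap.id ℝ (Fin n → ℝ))) x :=
    (hf (k • x)).hasFDerivAt.comp x ((hasFDerivAt_id x).const_smul k)
  rw [pd, pd, h.fderiv]
  simp

lemma dot_smul_left (k : ℝ) (x y : Fin n → ℝ) : dot (k • x) y = k * dot x y := by
  simp [dot, Finset.mul_sum, mul_assoc]

lemma pd_sub_dot (hU : Differentiable ℝ U) (θ : Fin n → ℝ) (j : Fin n) :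
    pd j (fun x => U x - dot θ x) = fun x => pd j U x - θ j :=
  funext fun x => by rw [pd_sub hU (by unfold dot; fun_prop), pd_dot_left]

lemma gr_sub_dot (hU : Differentiable ℝ U) (θ x : Fin n → ℝ) (i : Fin n) :
    gr (fun x => U x - dot θ x) x i = gr U x i - θ i := congrFun (pd_sub_dot hU θ i) x

lemma hs_sub_dot (hU : ContDiff ℝ ∞ U) (θ x : Fin n → ℝ) :
    hs (fun x => U x - dot θ x) x = hs U x := by
  ext i j
  show pd i (pd j fun x => U x - dot θ x) x = pd i (pd j U) x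
  rw [pd_sub_dot (hU.differentiable (by simp)), pd_sub
    ((contDiff_pd hU j).differentiable (by simp)) (differentiable_const _)]
  simp [pd]

/-- Scaling a potential. -/
lemma Bd.const_mul (h : Bd U a b) {r : ℝ} (hr : 0 < r) : Bd (fun x => r * U x) (r * a) (r * b) := by
  have e : ∀ x, hs (fun x => r * U x) x = r • hs U x := fun x => by
    ext i j
    show pd i (pd j fun x => r * U x) x = r * pd i (pd j U) x
    rw [show pd j (fun x => r * U x) = fun x => r * pd j U x from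
      funext fun y => pd_const_mul h.diff r j y, pd_const_mul (h.diff_gr j)]
  refine ⟨contDiff_const.mul h.smooth, mul_pos hr h.a_pos, mul_le_mul_of_nonneg_left h.a_le hr.le,
    fun x v => ?_, fun x v => ?_⟩
  · rw [e, smul_mulVec, dotProduct_smul, smul_eq_mul, mul_assoc]
    exact mul_le_mul_of_nonneg_left (h.lower x v) hr.le
  · rw [e, smul_mulVec, dotProduct_smul, smul_eq_mul, mul_assoc]
    exact mul_le_mul_of_nonneg_left (h.upper x v) hr.le

namespace Setup

variable (P : Setup n)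

lemma k_pos : 0 < P.k := zero_lt_one.trans_le P.k_one

lemma k1_pos : 0 < P.k + 1 := by linarith [P.k_pos]

/-- The untilted potential of the laws of `y` given `x`. -/
noncomputable def V (y : Fin n → ℝ) : ℝ := (P.k + 1) * P.ψ y

lemma bd_V : Bd P.V (P.k / P.b) (P.k / P.a) := by
  have h := P.hψ.const_mul P.k1_pos
  have := P.hU.a_pos; have := P.hU.b_pos; have := P.k1_pos.ne'
  rwa [show P.k / P.b = (P.k + 1) * (P.k / ((P.k + 1) * P.b)) by field_simp,
    show P.k / P.a = (P.k + 1) * (P.k / ((P.k + 1) * P.a)) by field_simp]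

lemma cy_eq (x : Fin n → ℝ) : P.cy x = fun y => P.V y - dot (P.k • x) y :=
  funext fun y => by rw [dot_smul_left]; rfl

lemma bd_cy (x : Fin n → ℝ) : Bd (P.cy x) (P.k / P.b) (P.k / P.a) := by
  rw [cy_eq]; exact P.bd_V.sub_dot _

lemma gr_cy (x z : Fin n → ℝ) (i : Fin n) :
    gr (P.cy x) z i = (P.k + 1) * gr P.ψ z i - P.k * x i := by
  rw [cy_eq, gr_sub_dot P.bd_V.diff]
  show pd i (fun y => (P.k + 1) * P.ψ y) z - _ = _
  rw [pd_const_mul P.hψ.diff]; rfl

lemma hs_cy (x z : Fin n → ℝ) (i j : Fin n) : hs (P.cy x) z i j = (P.k + 1) * P.Y z i j := by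
  rw [cy_eq, hs_sub_dot P.bd_V.smooth]
  show pd i (pd j fun y => (P.k + 1) * P.ψ y) z = _
  rw [show pd j (fun y => (P.k + 1) * P.ψ y) = fun y => (P.k + 1) * pd j P.ψ y from
    funext fun y => pd_const_mul P.hψ.diff _ j y, pd_const_mul (P.hψ.diff_gr j)]
  rfl

lemma covm_cy_lower (x u : Fin n → ℝ) : P.a / P.k * sumSq u ≤ u ⬝ᵥ (covm (P.cy x) *ᵥ u) := by
  refine le_trans (le_of_eq ?_) ((P.bd_cy x).covm_lower u)
  rw [div_div_eq_mul_div]; ring

lemma covm_cy_upper (x u : Fin n → ℝ) : u ⬝ᵥ (covm (P.cy x) *ᵥ u) ≤ P.b / P.k * sumSq u := by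
  refine ((P.bd_cy x).covm_upper u).trans (le_of_eq ?_)
  rw [div_div_eq_mul_div]; ring

lemma Phi_eq : Phi P.k P.ψ
    = fun x => (fun θ => Real.log (Zp fun y => P.V y - dot θ y)) (P.k • x) := by
  funext x
  show Real.log (Zp (P.cy x)) = _
  rw [cy_eq]

lemma Phi_smooth : ContDiff ℝ ∞ (Phi P.k P.ψ) := by
  rw [Phi_eq]
  exact P.bd_V.grow.contDiff_logZp.comp (contDiff_const_smul P.k)

lemma pd_Phi (i : Fin n) (x : Fin n → ℝ) : pd i (Phi P.k P.ψ) x = P.k * mn (P.cy x) i := by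
  rw [Phi_eq, pd_comp_smul (P.bd_V.grow.contDiff_logZp.differentiable (by simp)),
    P.bd_V.grow.pd_logZp, cy_eq]

/-- Averages given `x` are smooth in `x`. -/
lemma contDiff_ex_cy (hf : Poly f) : ContDiff ℝ ∞ fun x => ex (P.cy x) f := by
  simp only [cy_eq]
  exact (P.bd_V.grow.contDiff_ex_tilt hf).comp (contDiff_const_smul P.k)

lemma pd_ex_cy (hf : Poly f) (l : Fin n) (x : Fin n → ℝ) :
    pd l (fun x => ex (P.cy x) f) x = P.k * cv2 (P.cy x) f fun y => y l := by
  simp only [cy_eq]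
  rw [pd_comp_smul (f := fun θ => ex (fun y => P.V y - dot θ y) f)
    ((P.bd_V.grow.contDiff_ex_tilt hf).differentiable (by simp)), P.bd_V.grow.pd_ex_tilt hf]

lemma hs_Phi (x : Fin n → ℝ) (i j : Fin n) :
    hs (Phi P.k P.ψ) x i j = P.k ^ 2 * covm (P.cy x) i j := by
  show pd i (pd j (Phi P.k P.ψ)) x = _
  rw [show pd j (Phi P.k P.ψ) = fun x => P.k * ex (P.cy x) (fun y => y j) from funext (P.pd_Phi j),
    pd_const_mul ((P.contDiff_ex_cy (Poly.coord j)).differentiable (by simp)),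
    P.pd_ex_cy (Poly.coord j), covm, cv2_comm]
  ring

/-- The untilted potential of the laws of `x` given `y`. -/
noncomputable def W (x : Fin n → ℝ) : ℝ := P.U x + Phi P.k P.ψ x

lemma hs_W (x : Fin n → ℝ) (i j : Fin n) :
    hs P.W x i j = hs P.U x i j + P.k ^ 2 * covm (P.cy x) i j := by
  have d : Differentiable ℝ (Phi P.k P.ψ) := P.Phi_smooth.differentiable (by simp)
  show pd i (pd j fun x => P.U x + Phi P.k P.ψ x) x = _
  rw [show pd j (fun x => P.U x + Phi P.k P.ψ x) = fun x => pd j P.U x + pd j (Phi P.k P.ψ) x from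
    funext fun y => pd_add P.hU.diff d j y,
    pd_add (P.hU.diff_gr j) ((contDiff_pd P.Phi_smooth j).differentiable (by simp)), ← P.hs_Phi]
  rfl

lemma bd_W : Bd P.W ((P.k + 1) * P.a) ((P.k + 1) * P.b) := by
  have hk := P.k_pos
  have e : ∀ x v, v ⬝ᵥ (hs P.W x *ᵥ v)
      = v ⬝ᵥ (hs P.U x *ᵥ v) + P.k ^ 2 * (v ⬝ᵥ (covm (P.cy x) *ᵥ v)) := fun x v => by
    simp only [dotProduct, mulVec, hs_W, Finset.mul_sum, ← Finset.sum_add_distrib]
    exact Finset.sum_congr rfl fun i _ => Finset.sum_congr rfl fun j _ => by ring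
  refine ⟨P.hU.smooth.add P.Phi_smooth, mul_pos P.k1_pos P.hU.a_pos,
    mul_le_mul_of_nonneg_left P.hU.a_le P.k1_pos.le, fun x v => ?_, fun x v => ?_⟩
  · rw [e]
    have h := mul_le_mul_of_nonneg_left (P.covm_cy_lower x v) (sq_nonneg P.k)
    rw [show P.k ^ 2 * (P.a / P.k * sumSq v) = P.k * P.a * sumSq v by field_simp] at h
    linarith [P.hU.lower x v]
  · rw [e]
    have h := mul_le_mul_of_nonneg_left (P.covm_cy_upper x v) (sq_nonneg P.k)
    rw [show P.k ^ 2 * (P.b / P.k * sumSq v) = P.k * P.b * sumSq v by field_simp] at h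
    linarith [P.hU.upper x v]

lemma cx_eq (y : Fin n → ℝ) : P.cx y = fun x => P.W x - dot (P.k • y) x :=
  funext fun x => by rw [dot_smul_left, P245.dot_comm]; rfl

lemma bd_cx (y : Fin n → ℝ) : Bd (P.cx y) ((P.k + 1) * P.a) ((P.k + 1) * P.b) := by
  rw [cx_eq]; exact P.bd_W.sub_dot _

lemma hs_cx (y x : Fin n → ℝ) (i j : Fin n) :
    hs (P.cx y) x i j = hs P.U x i j + P.k ^ 2 * covm (P.cy x) i j := by
  rw [cx_eq, hs_sub_dot P.bd_W.smooth, hs_W]

lemma gr_cx (y x : Fin n → ℝ) (i : Fin n) :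
    gr (P.cx y) x i = gr P.U x i + P.k * mn (P.cy x) i - P.k * y i := by
  rw [cx_eq, gr_sub_dot P.bd_W.diff, ← P.pd_Phi]
  show pd i (fun x => P.U x + Phi P.k P.ψ x) x - _ = _
  rw [pd_add P.hU.diff (P.Phi_smooth.differentiable (by simp))]
  rfl

lemma psi_eq : P.ψ = fun y =>
    1 / P.k * (fun θ => Real.log (Zp fun x => P.W x - dot θ x)) (P.k • y) := by
  funext y
  show P.ψ y = 1 / P.k * Real.log (Zp fun x => P.W x - dot (P.k • y) x)
  rw [← cx_eq, cx, ← P.bal.eq y, one_div, inv_mul_cancel_left₀ P.k_pos.ne']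

/-- The gradient of the moment map potential. -/
lemma gr_psi (y : Fin n → ℝ) (i : Fin n) : gr P.ψ y i = mn (P.cx y) i := by
  have hd : Differentiable ℝ fun y : Fin n → ℝ =>
      (fun θ => Real.log (Zp fun x => P.W x - dot θ x)) (P.k • y) :=
    (P.bd_W.grow.contDiff_logZp.comp (contDiff_const_smul P.k)).differentiable (by simp)
  rw [gr, psi_eq, pd_const_mul hd,
    pd_comp_smul (P.bd_W.grow.contDiff_logZp.differentiable (by simp)), P.bd_W.grow.pd_logZp,
    ← cx_eq, ← mul_assoc, one_div_mul_cancel P.k_pos.ne', one_mul]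

/-- Averages given `y` are smooth in `y`. -/
lemma contDiff_ex_cx (hf : Poly f) : ContDiff ℝ ∞ fun y => ex (P.cx y) f := by
  simp only [cx_eq]
  exact (P.bd_W.grow.contDiff_ex_tilt hf).comp (contDiff_const_smul P.k)

lemma pd_ex_cx (hf : Poly f) (l : Fin n) (y : Fin n → ℝ) :
    pd l (fun y => ex (P.cx y) f) y = P.k * cv2 (P.cx y) f fun x => x l := by
  simp only [cx_eq]
  rw [pd_comp_smul (f := fun θ => ex (fun x => P.W x - dot θ x) f)
    ((P.bd_W.grow.contDiff_ex_tilt hf).differentiable (by simp)), P.bd_W.grow.pd_ex_tilt hf]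

/-- The Hessian of the moment map potential is the covariance given `y`. -/
lemma Y_eq (y : Fin n → ℝ) (i j : Fin n) : P.Y y i j = P.k * covm (P.cx y) i j := by
  show pd i (pd j P.ψ) y = _
  rw [show pd j P.ψ = fun y => ex (P.cx y) (fun x => x j) from funext fun y => P.gr_psi y j,
    P.pd_ex_cx (Poly.coord j), covm, cv2_comm]

lemma abs_Y_le (y : Fin n → ℝ) (i j : Fin n) : |P.Y y i j| ≤ 1 / P.a := by
  refine (P.hψ.abs_hs_le i j y).trans ?_
  have := P.hU.a_pos
  rw [div_le_div_iff₀ (mul_pos P.k1_pos this) this]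
  nlinarith [P.k_pos]

lemma poly_Y (i j : Fin n) : Poly fun y => P.Y y i j := P.hψ.poly_hs i j

lemma continuous_Y (i j : Fin n) : Continuous fun y => P.Y y i j := (P.poly_Y i j).1

lemma Yb_eq (x : Fin n → ℝ) (i j : Fin n) : P.Yb x i j = mH (P.cy x) i j / (P.k + 1) := by
  show ex (P.cy x) (fun y => P.Y y i j) = _
  simp only [mH, hs_cy]
  rw [ex_const_mul, mul_div_cancel_left₀ _ P.k1_pos.ne']

lemma dx_eq (x : Fin n → ℝ) : P.dx x = dev (P.cy x) / (P.k + 1) ^ 2 := by
  simp only [dx, dev, Finset.sum_div, hs_cy, P.Yb_eq]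
  refine Finset.sum_congr rfl fun i _ => Finset.sum_congr rfl fun j _ => ?_
  rw [div_eq_mul_inv _ ((P.k + 1) ^ 2), ← ex_mul_const]
  congr 1; funext y
  have := P.k1_pos.ne'
  field_simp

lemma abs_Yb_le (x : Fin n → ℝ) (i j : Fin n) : |P.Yb x i j| ≤ 1 / P.a := by
  have hG := (P.bd_cy x).grow
  refine (hG.abs_ex_le (P.poly_Y i j) (Poly.const _) fun y => P.abs_Y_le y i j).trans ?_
  rw [hG.ex_const]

lemma contDiff_Yb (i j : Fin n) : ContDiff ℝ 1 fun x => P.Yb x i j :=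
  (P.contDiff_ex_cy (P.poly_Y i j)).of_le (by simp)

lemma continuous_Yb (i j : Fin n) : Continuous fun x => P.Yb x i j :=
  (P.contDiff_Yb i j).continuous

lemma poly_Yb (i j : Fin n) : Poly fun x => P.Yb x i j :=
  Poly.bdd (P.continuous_Yb i j) fun x => P.abs_Yb_le x i j

lemma pd_Yb (l i j : Fin n) (x : Fin n → ℝ) :
    pd l (fun x => P.Yb x i j) x = P.k * cv2 (P.cy x) (fun y => P.Y y i j) fun y => y l :=
  P.pd_ex_cy (P.poly_Y i j) l x

lemma abs_pd_Yb_le (l i j : Fin n) (x : Fin n → ℝ) :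
    |pd l (fun x => P.Yb x i j) x| ≤ (P.k + P.b) / P.a := by
  have hB := P.bd_cy x
  have hG := hB.grow
  have hk := P.k_pos
  have ha := P.hU.a_pos
  rw [pd_Yb, abs_mul, abs_of_pos hk, hG.cv2_eq_centred (P.poly_Y i j) (Poly.coord l)]
  have hp1 := (P.poly_Y i j).sub_const (P.Yb x i j)
  have hp2 := (Poly.coord l).sub_const (mn (P.cy x) l)
  have h1 : |ex (P.cy x) fun y => (P.Y y i j - P.Yb x i j) * (y l - mn (P.cy x) l)|
      ≤ ex (P.cy x) fun y => 1 / P.a * ((y l - mn (P.cy x) l) * (y l - mn (P.cy x) l) + 1) := by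
    refine hG.abs_ex_le (hp1.mul hp2) (((hp2.mul hp2).add (Poly.const 1)).const_mul _) fun y => ?_
    rw [abs_mul]
    have := abs_sub (P.Y y i j) (P.Yb x i j)
    have := P.abs_Y_le y i j
    have := P.abs_Yb_le x i j
    have h3 : |P.Y y i j - P.Yb x i j| ≤ 2 * (1 / P.a) := by linarith
    refine (mul_le_mul_of_nonneg_right h3 (abs_nonneg _)).trans ?_
    have h4 : 2 * |y l - mn (P.cy x) l| ≤ (y l - mn (P.cy x) l) * (y l - mn (P.cy x) l) + 1 := by
      nlinarith [sq_nonneg (|y l - mn (P.cy x) l| - 1), sq_abs (y l - mn (P.cy x) l)]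
    have := mul_le_mul_of_nonneg_left h4 (one_div_pos.2 ha).le
    linarith
  rw [ex_const_mul, hG.ex_add (hp2.mul hp2) (Poly.const 1), hG.ex_const] at h1
  have h2 : ex (P.cy x) (fun y => (y l - mn (P.cy x) l) * (y l - mn (P.cy x) l)) ≤ P.b / P.k := by
    rw [mn, ← hG.cv2_eq_centred (Poly.coord l) (Poly.coord l)]
    have := P.covm_cy_upper x (Pi.single l 1)
    simpa [sumSq, Pi.single_apply, covm, mulVec, dotProduct] using this
  refine (mul_le_mul_of_nonneg_left (h1.trans (mul_le_mul_of_nonneg_left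
    (add_le_add h2 le_rfl) (one_div_pos.2 ha).le)) hk.le).trans (le_of_eq ?_)
  field_simp
  ring

lemma poly_pd_Yb (l i j : Fin n) : Poly (pd l fun x => P.Yb x i j) :=
  Poly.bdd (((P.contDiff_ex_cy (P.poly_Y i j)).continuous_fderiv (by simp)).clm_apply
    continuous_const) (P.abs_pd_Yb_le l i j)

lemma G_eq (x : Fin n → ℝ) (i j l : Fin n) :
    P.G x i j l = (P.k + 1) * ex (P.cy x) (fun y => gr P.ψ y i * P.Y y j l)
      - P.k * x i * P.Yb x j l := by
  have hB := P.bd_cy x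
  have h1 := (P.hψ.poly_gr i).mul (P.poly_Y j l)
  rw [G, ← hB.ex_gr_mul_hs]
  rw [show (fun y => gr (P.cy x) y i * hs (P.cy x) y j l) = fun y =>
    (P.k + 1) * ((P.k + 1) * (gr P.ψ y i * P.Y y j l) - P.k * x i * P.Y y j l) from funext fun y => by
      rw [gr_cy, hs_cy]; ring,
    ex_const_mul, hB.grow.ex_sub (h1.const_mul _) ((P.poly_Y j l).const_mul _), ex_const_mul,
    ex_const_mul, mul_div_cancel_left₀ _ P.k1_pos.ne']
  rfl

lemma continuous_G (i j l : Fin n) : Continuous fun x => P.G x i j l := by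
  simp only [G_eq]
  exact (continuous_const.mul (P.contDiff_ex_cy ((P.hψ.poly_gr i).mul (P.poly_Y j l))).continuous).sub
    ((continuous_const.mul (continuous_apply i)).mul (P.continuous_Yb j l))

lemma abs_G_le (x : Fin n → ℝ) (i j l : Fin n) :
    |P.G x i j l| ≤ P.k / P.a * (P.k / P.a + 1) := by
  have hB := P.bd_cy x
  have hG := hB.grow
  have hk := P.k1_pos
  have hc : 0 ≤ P.k / P.a := (div_pos P.k_pos P.hU.a_pos).le
  rw [G, abs_div, abs_of_pos hk, ← hB.ex_gr_mul_hs]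
  refine (div_le_self (abs_nonneg _) (by linarith [P.k_pos])).trans ?_
  have h1 := hG.abs_ex_le ((hB.poly_gr i).mul (hB.poly_hs j l))
    ((((hB.poly_gr i).mul (hB.poly_gr i)).add (Poly.const 1)).const_mul (P.k / P.a)) fun y => by
      rw [abs_mul, mul_comm]
      refine mul_le_mul (hB.abs_hs_le j l y) ?_ (abs_nonneg _) hc
      nlinarith [sq_nonneg (|gr (P.cy x) y i| - 1), sq_abs (gr (P.cy x) y i), abs_nonneg (gr (P.cy x) y i)]
  rw [ex_const_mul, hG.ex_add ((hB.poly_gr i).mul (hB.poly_gr i)) (Poly.const 1), hB.ex_gr_mul_gr,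
    hG.ex_const] at h1
  exact h1.trans (mul_le_mul_of_nonneg_left
    (add_le_add ((le_abs_self _).trans (hB.abs_mH_le i i)) le_rfl) hc)

lemma poly_G (i j l : Fin n) : Poly fun x => P.G x i j l :=
  Poly.bdd (P.continuous_G i j l) fun x => P.abs_G_le x i j l

lemma poly_G2 : Poly P.G2 :=
  Poly.sum _ fun i _ => Poly.sum _ fun j _ => Poly.sum _ fun l _ => (P.poly_G i j l).pow 2

lemma dx_nonneg (x : Fin n → ℝ) : 0 ≤ P.dx x :=
  Finset.sum_nonneg fun _ _ => Finset.sum_nonneg fun _ _ => ex_nonneg _ fun _ => sq_nonneg _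

lemma ex_dx_term (x : Fin n → ℝ) (i j : Fin n) :
    ex (P.cy x) (fun y => (P.Y y i j - P.Yb x i j) ^ 2)
      = ex (P.cy x) (fun y => P.Y y i j ^ 2) - P.Yb x i j ^ 2 := by
  have hG := (P.bd_cy x).grow
  rw [show (fun y => (P.Y y i j - P.Yb x i j) ^ 2) = fun y =>
      P.Y y i j ^ 2 - (2 * P.Yb x i j * P.Y y i j - P.Yb x i j ^ 2) from funext fun y => by ring,
    hG.ex_sub ((P.poly_Y i j).pow 2) (((P.poly_Y i j).const_mul _).sub_const _),
    hG.ex_sub ((P.poly_Y i j).const_mul _) (Poly.const _), ex_const_mul, hG.ex_const]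
  show _ - (2 * P.Yb x i j * P.Yb x i j - _) = _
  ring

lemma poly_dx : Poly P.dx := by
  refine Poly.bdd ?_ (B := ∑ _i : Fin n, ∑ _j : Fin n, (1 / P.a) ^ 2) fun x => ?_
  · show Continuous fun x => ∑ i, ∑ j, ex (P.cy x) fun y => (P.Y y i j - P.Yb x i j) ^ 2
    simp only [ex_dx_term]
    exact continuous_finsetSum _ fun i _ => continuous_finsetSum _ fun j _ =>
      (P.contDiff_ex_cy ((P.poly_Y i j).pow 2)).continuous.sub ((P.continuous_Yb i j).pow 2)
  · rw [abs_of_nonneg (P.dx_nonneg x), dx]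
    refine Finset.sum_le_sum fun i _ => Finset.sum_le_sum fun j _ => ?_
    rw [ex_dx_term]
    have hG := (P.bd_cy x).grow
    refine le_trans (sub_le_self _ (sq_nonneg _)) ?_
    refine (hG.ex_mono ((P.poly_Y i j).pow 2) (Poly.const ((1 / P.a) ^ 2)) fun y => ?_).trans
      (le_of_eq (hG.ex_const _))
    rw [← sq_abs]
    exact pow_le_pow_left₀ (abs_nonneg _) (P.abs_Y_le y i j) 2

/-- Averages given `y` of bounded observables. -/
lemma poly_ex_cx (hc : Continuous f) {B : ℝ} (hB : ∀ x, |f x| ≤ B) :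
    Poly fun y => ex (P.cx y) f :=
  Poly.bdd (P.contDiff_ex_cx (Poly.bdd hc hB)).continuous fun y =>
    ((P.bd_cx y).grow.abs_ex_le (Poly.bdd hc hB) (Poly.const B) hB).trans
      (le_of_eq ((P.bd_cx y).grow.ex_const B))

lemma dy_nonneg (y : Fin n → ℝ) : 0 ≤ P.dy y :=
  Finset.sum_nonneg fun _ _ => Finset.sum_nonneg fun _ _ => ex_nonneg _ fun _ => sq_nonneg _

lemma poly_dy : Poly P.dy := by
  refine Poly.sum _ fun i _ => Poly.sum _ fun j _ => ?_
  have hb : ∀ x, |P.Yb x i j ^ 2| ≤ (1 / P.a) ^ 2 := fun x => by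
    rw [abs_pow]
    exact pow_le_pow_left₀ (abs_nonneg _) (P.abs_Yb_le x i j) 2
  refine ((((P.poly_Y i j).pow 2).sub (((P.poly_Y i j).const_mul 2).mul
    (P.poly_ex_cx (P.continuous_Yb i j) fun x => P.abs_Yb_le x i j))).add
    (P.poly_ex_cx ((P.continuous_Yb i j).pow 2) hb)).congr fun y => ?_
  have hG := (P.bd_cx y).grow
  rw [show (fun x => (P.Y y i j - P.Yb x i j) ^ 2) = fun x =>
      P.Y y i j ^ 2 - 2 * P.Y y i j * P.Yb x i j + P.Yb x i j ^ 2 from funext fun x => by ring,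
    hG.ex_add ((Poly.const _).sub ((P.poly_Yb i j).const_mul _)) ((P.poly_Yb i j).pow 2),
    hG.ex_sub (Poly.const _) ((P.poly_Yb i j).const_mul _), ex_const_mul, hG.ex_const]
  rfl

end Setup

end Vale.Agent.P254M
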