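import Vale.Agent.P254M.BodyBound
import Vale.Agent.Results.P254.AsymptoticEquiv

/-!
The slicing bound and its comparison with the simplex in each dimension.
-/

namespace Vale.Agent.P254M

open Vale.Agent.P254

lemma exp_mul_sqrt_slicing :
    Real.exp 1 * Real.sqrt (2 / (Real.pi * Real.exp 1))
      = Real.sqrt (2 * Real.exp 1 / Real.pi) := by
  have he := Real.exp_pos 1
  rw [← Real.sqrt_sq (by positivity : 0 ≤ Real.exp 1 * Real.sqrt (2 / (Real.pi * Real.exp 1))),
    mul_pow, Real.sq_sqrt (by positivity)]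
  congr 1
  field_simp

/-- Both bounds, from the entropy gap. -/
theorem bounds_of_entropyGap (hgap : EntropyGap) :
    ∀ n : ℕ, 0 < n → ∀ K : Set (Fin n → ℝ), Convex ℝ K → IsCompact K → (interior K).Nonempty →
      isoConst K ≤ Real.sqrt (2 / (Real.pi * Real.exp 1)) ∧
        isoConst K ≤ Real.sqrt (2 * Real.exp 1 / Real.pi) ^ (((n : ℝ) + 1) / n) * simplexConst n := by
  intro n hn K hc hk hi
  refine ⟨bodyBound hgap n hn K hc hk hi, ?_⟩
  rw [← exp_mul_sqrt_slicing]
  exact Results.P254.AsymptoticEquiv.amplify (n₀ := 1) (by positivity)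
    (fun N hN Q hQ hQk hQi => bodyBound hgap N hN Q hQ hQk hQi) hn hc hk hi

/-- Both bounds, from any bound on the entropy gap. -/
theorem bounds_of_gap {g : ℝ} (hgap : GapLe g) :
    ∀ n : ℕ, 0 < n → ∀ K : Set (Fin n → ℝ), Convex ℝ K → IsCompact K → (interior K).Nonempty →
      isoConst K ≤ Real.exp g / Real.sqrt (2 * Real.pi * Real.exp 1) ∧
        isoConst K ≤ (Real.exp (g + 1) / Real.sqrt (2 * Real.pi * Real.exp 1)) ^ (((n : ℝ) + 1) / n)
          * simplexConst n := by
  intro n hn K hc hk hi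
  refine ⟨isoConst_le_of_gap hgap hn hc hk hi, ?_⟩
  have e : Real.exp 1 * (Real.exp g / Real.sqrt (2 * Real.pi * Real.exp 1))
      = Real.exp (g + 1) / Real.sqrt (2 * Real.pi * Real.exp 1) := by
    rw [Real.exp_add]; ring
  rw [← e]
  exact Results.P254.AsymptoticEquiv.amplify (n₀ := 1) (by positivity)
    (fun N hN Q hQ hQk hQi => isoConst_le_of_gap hgap hN hQ hQk hQi) hn hc hk hi

end Vale.Agent.P254M
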