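import Vale.Agent.P254M.Defs

/-!
Third-order tensors in an eigenframe of a positive matrix: the choice of test coefficients.
-/

namespace Vale.Agent.P254M

open Finset

variable {n : ℕ}

/-- A tensor symmetric under permutations of its three slots. -/
def Sym3 (G : Fin n → Fin n → Fin n → ℝ) : Prop :=
  (∀ a b c, G a b c = G b a c) ∧ ∀ a b c, G a b c = G a c b

/-- The symmetrisation. -/
noncomputable def sym3 (W : Fin n → Fin n → Fin n → ℝ) (a b c : Fin n) : ℝ :=
  (W a b c + W b a c + W a c b + W c a b + W b c a + W c b a) / 6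

lemma sym3_sym (W : Fin n → Fin n → Fin n → ℝ) : Sym3 (sym3 W) :=
  ⟨fun a b c => by simp only [sym3]; ring, fun a b c => by simp only [sym3]; ring⟩

lemma sum_swap12 (f : Fin n → Fin n → Fin n → ℝ) :
    ∑ a, ∑ b, ∑ c, f b a c = ∑ a, ∑ b, ∑ c, f a b c := sum_comm

lemma sum_swap23 (f : Fin n → Fin n → Fin n → ℝ) :
    ∑ a, ∑ b, ∑ c, f a c b = ∑ a, ∑ b, ∑ c, f a b c := sum_congr rfl fun _ _ => sum_comm

lemma sum_sym3_mul (W G : Fin n → Fin n → Fin n → ℝ) (hG : Sym3 G) :
    ∑ a, ∑ b, ∑ c, sym3 W a b c * G a b c = ∑ a, ∑ b, ∑ c, W a b c * G a b c := by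
  set f := fun a b c => W a b c * G a b c
  have e : ∀ a b c, sym3 W a b c * G a b c
      = (f a b c + f b a c + f a c b + f c a b + f b c a + f c b a) / 6 := by
    intro a b c
    have h1 : G b a c = G a b c := (hG.1 a b c).symm
    have h2 : G a c b = G a b c := (hG.2 a b c).symm
    have h3 : G c a b = G a b c := by rw [hG.1 c a b, h2]
    have h4 : G b c a = G a b c := by rw [hG.2 b c a, h1]
    have h5 : G c b a = G a b c := by rw [hG.2 c b a, h3]
    simp only [f, sym3, h1, h2, h3, h4, h5]; ring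
  simp only [e, ← Finset.sum_div, sum_add_distrib]
  have s1 := sum_swap12 f
  have s2 := sum_swap23 f
  have s3 : ∑ a, ∑ b, ∑ c, f c a b = ∑ a, ∑ b, ∑ c, f a b c :=
    (sum_swap23 fun a b c => f b a c).trans s1
  have s4 : ∑ a, ∑ b, ∑ c, f b c a = ∑ a, ∑ b, ∑ c, f a b c :=
    (sum_swap12 fun a b c => f a c b).trans s2
  have s5 : ∑ a, ∑ b, ∑ c, f c b a = ∑ a, ∑ b, ∑ c, f a b c :=
    (sum_swap23 fun a b c => f b c a).trans s4
  rw [s1, s2, s3, s4, s5]; ring

/-- The symmetrised weight `y_c / (y_a y_b)`. -/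
noncomputable def wt3 (y : Fin n → ℝ) : Fin n → Fin n → Fin n → ℝ :=
  sym3 fun a b c => y c / (y a * y b)

lemma inv_avg_le_wt3 {y : Fin n → ℝ} (hy : ∀ i, 0 < y i) (a b c : Fin n) :
    ((y a)⁻¹ + (y b)⁻¹ + (y c)⁻¹) / 3 ≤ wt3 y a b c := by
  have := hy a; have := hy b; have := hy c
  have e : wt3 y a b c - ((y a)⁻¹ + (y b)⁻¹ + (y c)⁻¹) / 3
      = ((y a - y b) ^ 2 + (y b - y c) ^ 2 + (y c - y a) ^ 2) / (6 * (y a * y b * y c)) := by
    simp only [wt3, sym3]; field_simp; ring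
  have h0 : 0 ≤ ((y a - y b) ^ 2 + (y b - y c) ^ 2 + (y c - y a) ^ 2) / (6 * (y a * y b * y c)) := by
    positivity
  linarith

lemma wt3_pos {y : Fin n → ℝ} (hy : ∀ i, 0 < y i) (a b c : Fin n) : 0 < wt3 y a b c := by
  have := hy a; have := hy b; have := hy c
  exact lt_of_lt_of_le (by positivity) (inv_avg_le_wt3 hy a b c)

lemma inv_le_wt3 {y : Fin n → ℝ} {B : ℝ} (hy : ∀ i, 0 < y i) (hB : ∀ i, y i ≤ B) (a b c : Fin n) :
    B⁻¹ ≤ wt3 y a b c := by
  refine le_trans ?_ (inv_avg_le_wt3 hy a b c)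
  have h := fun i => inv_anti₀ (hy i) (hB i)
  have := h a; have := h b; have := h c
  linarith

/-- The optimal symmetric coefficient for a test tensor. -/
noncomputable def hat (y : Fin n → ℝ) (W : Fin n → Fin n → Fin n → ℝ) (a b c : Fin n) : ℝ :=
  sym3 W a b c / wt3 y a b c

lemma hat_sym (y : Fin n → ℝ) (W : Fin n → Fin n → Fin n → ℝ) : Sym3 (hat y W) :=
  ⟨fun a b c => by simp only [hat, wt3, (sym3_sym _).1 a b c],
   fun a b c => by simp only [hat, wt3, (sym3_sym _).2 a b c]⟩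

lemma abs_hat_le {y : Fin n → ℝ} {B K : ℝ} (hy : ∀ i, 0 < y i) (hB : ∀ i, y i ≤ B)
    {W : Fin n → Fin n → Fin n → ℝ} (hW : ∀ a b c, |W a b c| ≤ K) (a b c : Fin n) :
    |hat y W a b c| ≤ K * B := by
  have hB0 : 0 < B := (hy a).trans_le (hB a)
  have h1 : |sym3 W a b c| ≤ K := by
    simp only [sym3, abs_div, abs_of_pos (show (0:ℝ) < 6 by norm_num)]
    rw [div_le_iff₀ (by norm_num)]
    have := abs_le.1 (hW a b c); have := abs_le.1 (hW b a c); have := abs_le.1 (hW a c b)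
    have := abs_le.1 (hW c a b); have := abs_le.1 (hW b c a); have := abs_le.1 (hW c b a)
    exact abs_le.2 ⟨by linarith, by linarith⟩
  rw [hat, abs_div, abs_of_pos (wt3_pos hy a b c), div_le_iff₀ (wt3_pos hy a b c), mul_assoc]
  refine h1.trans (le_mul_of_one_le_right ((abs_nonneg _).trans (hW a b c)) ?_)
  have := mul_le_mul_of_nonneg_left (inv_le_wt3 hy hB a b c) hB0.le
  rwa [mul_inv_cancel₀ hB0.ne'] at this

/-- The test coefficient on the side of `y`. -/
noncomputable def coefC (y : Fin n → ℝ) (W : Fin n → Fin n → Fin n → ℝ) (a b c : Fin n) : ℝ :=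
  hat y W a b c / (2 * (y a * y b))

/-- The test coefficient on the side of `x`. -/
noncomputable def coefD (y : Fin n → ℝ) (W : Fin n → Fin n → Fin n → ℝ) (b a c : Fin n) : ℝ :=
  hat y W a b c / (y a + y b)

/-- The gain from the affine test field on the side of `y`. -/
theorem gainC {y : Fin n → ℝ} (hy : ∀ i, 0 < y i) (W G : Fin n → Fin n → Fin n → ℝ) (hG : Sym3 G) :
    (∑ a, ∑ b, ∑ c, W a b c * G a b c) - (∑ a, ∑ b, ∑ c, W a b c ^ 2 * y c) / 2
      ≤ ∑ a, ∑ b, ∑ c, y c *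
        (2 * coefC y W a b c * G a b c - 2 * (y a * y b) * coefC y W a b c ^ 2) := by
  set q := hat y W
  have hq : Sym3 q := hat_sym y W
  set ρ := fun a b c => y c / (y a * y b) with hρ
  have hw : wt3 y = sym3 ρ := rfl
  have e1 : ∀ a b c, y c * (2 * coefC y W a b c * G a b c - 2 * (y a * y b) * coefC y W a b c ^ 2)
      = ρ a b c * (q a b c * G a b c - q a b c ^ 2 / 2) := by
    intro a b c
    have := hy a; have := hy b
    simp only [coefC, ρ, q]; field_simp
  simp only [e1]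
  rw [← sum_sym3_mul ρ (fun a b c => q a b c * G a b c - q a b c ^ 2 / 2)
    ⟨fun a b c => by simp only [hq.1 a b c, hG.1 a b c],
     fun a b c => by simp only [hq.2 a b c, hG.2 a b c]⟩]
  have e2 : ∀ a b c, sym3 ρ a b c * (q a b c * G a b c - q a b c ^ 2 / 2)
      = sym3 W a b c * G a b c - sym3 W a b c * q a b c / 2 := by
    intro a b c
    have := (wt3_pos hy a b c).ne'
    simp only [q, hat, ← hw]; field_simp
  simp only [e2, sum_sub_distrib, ← Finset.sum_div, sum_sym3_mul W G hG]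
  rw [sum_sym3_mul W q hq]
  suffices h : ∑ a, ∑ b, ∑ c, W a b c * q a b c ≤ ∑ a, ∑ b, ∑ c, W a b c ^ 2 * y c by linarith
  have h1 : ∀ a b c, 2 * (W a b c * q a b c) ≤ W a b c ^ 2 * y c + q a b c ^ 2 * (y c)⁻¹ := by
    intro a b c
    have := hy c
    have e : W a b c ^ 2 * y c + q a b c ^ 2 * (y c)⁻¹ - 2 * (W a b c * q a b c)
        = (W a b c * y c - q a b c) ^ 2 / y c := by field_simp; ring
    nlinarith [div_nonneg (sq_nonneg (W a b c * y c - q a b c)) (hy c).le]
  have h2 := sum_le_sum (s := (univ : Finset (Fin n))) fun a _ => sum_le_sum (s := (univ : Finset (Fin n)))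
    fun b _ => sum_le_sum (s := (univ : Finset (Fin n))) fun c _ => h1 a b c
  simp only [← mul_sum, sum_add_distrib] at h2
  have h3 : ∑ a, ∑ b, ∑ c, q a b c ^ 2 * (y c)⁻¹ ≤ ∑ a, ∑ b, ∑ c, W a b c * q a b c := by
    rw [← sum_sym3_mul W q hq]
    have e4 : ∑ a, ∑ b, ∑ c, q a b c ^ 2 * (y c)⁻¹
        = ∑ a, ∑ b, ∑ c, sym3 (fun _ _ c => (y c)⁻¹) a b c * q a b c ^ 2 := by
      rw [sum_sym3_mul (fun _ _ c => (y c)⁻¹) (fun a b c => q a b c ^ 2)
        ⟨fun a b c => by simp only [hq.1 a b c], fun a b c => by simp only [hq.2 a b c]⟩]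
      exact sum_congr rfl fun a _ => sum_congr rfl fun b _ => sum_congr rfl fun c _ => mul_comm _ _
    rw [e4]
    refine sum_le_sum fun a _ => sum_le_sum fun b _ => sum_le_sum fun c _ => ?_
    have e5 : sym3 W a b c * q a b c = wt3 y a b c * q a b c ^ 2 := by
      have := (wt3_pos hy a b c).ne'
      simp only [q, hat]; field_simp
    rw [e5]
    refine mul_le_mul_of_nonneg_right (le_trans (le_of_eq ?_) (inv_avg_le_wt3 hy a b c)) (sq_nonneg _)
    simp only [sym3]; ring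
  linarith

/-- The two sides give the same gain. -/
theorem gainD_eq {y : Fin n → ℝ} (hy : ∀ i, 0 < y i) (W G : Fin n → Fin n → Fin n → ℝ) (hG : Sym3 G) :
    ∑ a, ∑ b, ∑ c, y c *
        (2 * coefD y W b a c * G a b c / y a - coefD y W b a c ^ 2 * (y b / y a + 1))
      = ∑ a, ∑ b, ∑ c, y c *
        (2 * coefC y W a b c * G a b c - 2 * (y a * y b) * coefC y W a b c ^ 2) := by
  set f := fun a b c => y c *
    (2 * coefD y W b a c * G a b c / y a - coefD y W b a c ^ 2 * (y b / y a + 1)) with hf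
  show ∑ a, ∑ b, ∑ c, f a b c = _
  have h1 : ∑ a, ∑ b, ∑ c, (f a b c + f b a c) / 2 = ∑ a, ∑ b, ∑ c, f a b c := by
    simp only [← Finset.sum_div, sum_add_distrib, sum_swap12 f]; ring
  rw [← h1]
  refine sum_congr rfl fun a _ => sum_congr rfl fun b _ => sum_congr rfl fun c _ => ?_
  have := hy a; have := hy b; have := hy c
  simp only [f, coefC, coefD, ← (hat_sym y W).1 a b c, ← hG.1 a b c, add_comm (y b) (y a)]
  field_simp
  ring

end Vale.Agent.P254M
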