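import Vale.Agent.P254M.Frame
import Vale.Agent.P245.Cube.Spec

/-!
The test coefficients of the frame algebra, written in arbitrary coordinates.
-/

namespace Vale.Agent.P254M

open Finset Matrix
open Vale.Agent.P245 (exists_diag sumSq)

variable {n : ℕ}

/-- Third-order tensors. -/
abbrev Ten (n : ℕ) := Fin n → Fin n → Fin n → ℝ

/-- The pairing of two tensors. -/
noncomputable def pr (S T : Ten n) : ℝ := ∑ p, ∑ q, ∑ r, S p q r * T p q r

/-- Linear change in the first slot. -/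
noncomputable def s1 (A : Matrix (Fin n) (Fin n) ℝ) (T : Ten n) : Ten n :=
  fun a q r => ∑ p, A p a * T p q r

/-- Linear change in the second slot. -/
noncomputable def s2 (A : Matrix (Fin n) (Fin n) ℝ) (T : Ten n) : Ten n :=
  fun p b r => ∑ q, A q b * T p q r

/-- Linear change in the third slot. -/
noncomputable def s3 (A : Matrix (Fin n) (Fin n) ℝ) (T : Ten n) : Ten n :=
  fun p q c => ∑ r, A r c * T p q r

/-- Linear change in all three slots. -/
noncomputable def tc (A B C : Matrix (Fin n) (Fin n) ℝ) (T : Ten n) : Ten n := s1 A (s2 B (s3 C T))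

lemma pr_comm (S T : Ten n) : pr S T = pr T S := by simp only [pr, mul_comm]

lemma s1_adj (A : Matrix (Fin n) (Fin n) ℝ) (S T : Ten n) : pr (s1 A S) T = pr S (s1 Aᵀ T) := by
  simp only [pr, s1, transpose_apply, sum_mul, mul_sum]
  conv_lhs => rw [sum_comm]; enter [2, q]; rw [sum_comm]; enter [2, r]; rw [sum_comm]
  conv_rhs => rw [sum_comm]; enter [2, q]; rw [sum_comm]
  exact sum_congr rfl fun q _ => sum_congr rfl fun r _ => sum_congr rfl fun p _ =>
    sum_congr rfl fun a _ => by ring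

lemma s3_adj (A : Matrix (Fin n) (Fin n) ℝ) (S T : Ten n) : pr (s3 A S) T = pr S (s3 Aᵀ T) := by
  simp only [pr, s3, transpose_apply, sum_mul, mul_sum]
  refine sum_congr rfl fun p _ => sum_congr rfl fun q _ => ?_
  rw [sum_comm]
  exact sum_congr rfl fun r _ => sum_congr rfl fun c _ => by ring

lemma s2_adj (A : Matrix (Fin n) (Fin n) ℝ) (S T : Ten n) : pr (s2 A S) T = pr S (s2 Aᵀ T) := by
  simp only [pr, s2, transpose_apply, sum_mul, mul_sum]
  refine sum_congr rfl fun p _ => ?_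
  conv_lhs => enter [2, b]; rw [sum_comm]
  conv_rhs => enter [2, b]; rw [sum_comm]
  rw [sum_comm]
  exact sum_congr rfl fun q _ => sum_congr rfl fun b _ => sum_congr rfl fun r _ => by ring

lemma s1_s1 (A B : Matrix (Fin n) (Fin n) ℝ) (T : Ten n) : s1 A (s1 B T) = s1 (B * A) T := by
  funext a q r
  simp only [s1, mul_apply, mul_sum, sum_mul]
  rw [sum_comm]
  exact sum_congr rfl fun p _ => sum_congr rfl fun p' _ => by ring

lemma s2_s2 (A B : Matrix (Fin n) (Fin n) ℝ) (T : Ten n) : s2 A (s2 B T) = s2 (B * A) T := by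
  funext a q r
  simp only [s2, mul_apply, mul_sum, sum_mul]
  rw [sum_comm]
  exact sum_congr rfl fun p _ => sum_congr rfl fun p' _ => by ring

lemma s3_s3 (A B : Matrix (Fin n) (Fin n) ℝ) (T : Ten n) : s3 A (s3 B T) = s3 (B * A) T := by
  funext a q r
  simp only [s3, mul_apply, mul_sum, sum_mul]
  rw [sum_comm]
  exact sum_congr rfl fun p _ => sum_congr rfl fun p' _ => by ring

lemma s2_s1 (A B : Matrix (Fin n) (Fin n) ℝ) (T : Ten n) : s2 B (s1 A T) = s1 A (s2 B T) := by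
  funext a q r
  simp only [s1, s2, mul_sum]
  rw [sum_comm]
  exact sum_congr rfl fun p _ => sum_congr rfl fun p' _ => by ring

lemma s3_s1 (A B : Matrix (Fin n) (Fin n) ℝ) (T : Ten n) : s3 B (s1 A T) = s1 A (s3 B T) := by
  funext a q r
  simp only [s1, s3, mul_sum]
  rw [sum_comm]
  exact sum_congr rfl fun p _ => sum_congr rfl fun p' _ => by ring

lemma s3_s2 (A B : Matrix (Fin n) (Fin n) ℝ) (T : Ten n) : s3 B (s2 A T) = s2 A (s3 B T) := by
  funext a q r
  simp only [s2, s3, mul_sum]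
  rw [sum_comm]
  exact sum_congr rfl fun p _ => sum_congr rfl fun p' _ => by ring

lemma tc_tc (A B C A' B' C' : Matrix (Fin n) (Fin n) ℝ) (T : Ten n) :
    tc A B C (tc A' B' C' T) = tc (A' * A) (B' * B) (C' * C) T := by
  simp only [tc]
  rw [s3_s1 A' C, s3_s2 B' C, s3_s3, s2_s1 A' B, s2_s2, s1_s1]

lemma tc_adj (A B C : Matrix (Fin n) (Fin n) ℝ) (S T : Ten n) :
    pr (tc A B C S) T = pr S (tc Aᵀ Bᵀ Cᵀ T) := by
  simp only [tc]
  rw [s1_adj, s2_adj, s3_adj, s3_s2 Bᵀ Cᵀ, s3_s1 Aᵀ Cᵀ, s2_s1 Aᵀ Bᵀ]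

lemma tc_diag (u v w : Fin n → ℝ) (T : Ten n) :
    tc (diagonal u) (diagonal v) (diagonal w) T = fun a b c => u a * (v b * (w c * T a b c)) := by
  funext a b c
  simp [tc, s1, s2, s3, diagonal_apply]

lemma tc_one (T : Ten n) : tc 1 1 1 T = T := by
  rw [show (1 : Matrix (Fin n) (Fin n) ℝ) = diagonal fun _ => 1 from diagonal_one.symm, tc_diag]
  simp

/-- Pairing of conjugated tensors. -/
lemma pr_conj {O A B C A' B' C' : Matrix (Fin n) (Fin n) ℝ} (hO : Oᵀ * O = 1)
    (hA : A = O * A' * Oᵀ) (hB : B = O * B' * Oᵀ) (hC : C = O * C' * Oᵀ) (f g : Ten n) :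
    pr (tc Oᵀ Oᵀ Oᵀ f) (tc A B C (tc Oᵀ Oᵀ Oᵀ g)) = pr f (tc A' B' C' g) := by
  subst hA hB hC
  rw [tc_adj, tc_tc, tc_tc]
  simp only [transpose_transpose]
  have e : ∀ X, Oᵀ * (O * X * Oᵀ) * O = X := fun X => by
    rw [← Matrix.mul_assoc, ← Matrix.mul_assoc, hO, Matrix.one_mul, Matrix.mul_assoc, hO, Matrix.mul_one]
  simp only [← Matrix.mul_assoc] at e ⊢
  simp only [e]

lemma tc_sym {A : Matrix (Fin n) (Fin n) ℝ} {G : Ten n} (hG : Sym3 G) : Sym3 (tc A A A G) := by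
  constructor
  · intro a b c
    simp only [tc, s1, s2, s3, mul_sum]
    rw [sum_comm]
    refine sum_congr rfl fun p _ => sum_congr rfl fun q _ => sum_congr rfl fun r _ => ?_
    rw [hG.1 q p r]; ring
  · intro a b c
    simp only [tc, s1, s2, s3, mul_sum]
    refine sum_congr rfl fun p _ => ?_
    rw [sum_comm]
    refine sum_congr rfl fun q _ => sum_congr rfl fun r _ => ?_
    rw [hG.2 p r q]; ring

lemma abs_orth_le {O : Matrix (Fin n) (Fin n) ℝ} (hO : O * Oᵀ = 1) (p a : Fin n) : |O p a| ≤ 1 := by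
  have e : ∑ c, O p c * O p c = 1 := by
    simpa [mul_apply, transpose_apply] using congrFun (congrFun hO p) p
  have h : O p a * O p a ≤ 1 :=
    e ▸ single_le_sum (f := fun c => O p c * O p c) (fun c _ => mul_self_nonneg _) (mem_univ a)
  nlinarith [abs_mul_abs_self (O p a), abs_nonneg (O p a)]

lemma abs_tc_le {O : Matrix (Fin n) (Fin n) ℝ} (hO : ∀ p a, |O p a| ≤ 1) {T : Ten n} {M : ℝ}
    (hT : ∀ p q r, |T p q r| ≤ M) (a b c : Fin n) : |tc O O O T a b c| ≤ (n : ℝ) ^ 3 * M := by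
  have step : ∀ {f : Fin n → ℝ} {B : ℝ} (i : Fin n), (∀ p, |f p| ≤ B) →
      |∑ p, O p i * f p| ≤ n * B := by
    intro f B i hf
    refine (abs_sum_le_sum_abs _ _).trans ((sum_le_sum fun p _ => (?_ : _ ≤ B)).trans (le_of_eq (by simp)))
    rw [abs_mul, show B = 1 * B from (one_mul B).symm]
    exact mul_le_mul (hO p i) (hf p) (abs_nonneg _) zero_le_one
  simp only [tc, s1, s2, s3]
  refine (step a fun p => step b fun q => step c fun r => hT p q r).trans (le_of_eq ?_)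
  ring

/-- A positive matrix with quadratic form in `[α, β]`. -/
structure Between (Y : Matrix (Fin n) (Fin n) ℝ) (α β : ℝ) : Prop where
  symm : Yᵀ = Y
  pos : 0 < α
  lower : ∀ v, α * sumSq v ≤ v ⬝ᵥ (Y *ᵥ v)
  upper : ∀ v, v ⬝ᵥ (Y *ᵥ v) ≤ β * sumSq v

lemma Between.diag {Y : Matrix (Fin n) (Fin n) ℝ} {α β : ℝ} (h : Between Y α β) :
    ∃ (O : Matrix (Fin n) (Fin n) ℝ) (e : Fin n → ℝ), O * Oᵀ = 1 ∧ Oᵀ * O = 1 ∧
      Y = O * diagonal e * Oᵀ ∧ (∀ i, α ≤ e i) ∧ ∀ i, e i ≤ β := by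
  obtain ⟨O, e, hO, hO', rfl⟩ := exists_diag Y h.symm
  refine ⟨O, e, hO', hO, rfl, fun i => ?_, fun i => ?_⟩
  all_goals
    have k1 := h.lower (O *ᵥ Pi.single i 1)
    have k2 := h.upper (O *ᵥ Pi.single i 1)
    rw [Vale.Agent.P245.quad_conj, mulVec_mulVec, hO, one_mulVec] at k1 k2
    have s : sumSq (O *ᵥ Pi.single i (1:ℝ)) = 1 := by
      have := Vale.Agent.P245.sumSq_orth hO' (O *ᵥ Pi.single i (1:ℝ))
      rw [mulVec_mulVec, hO, one_mulVec] at this
      rw [← this]; simp [sumSq, Pi.single_apply]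
    rw [s] at k1 k2
    simp [Pi.single_apply] at k1 k2
    linarith

/-- Monotonicity of the contraction with a nonnegative matrix. -/
lemma Between.sum_mono {Y : Matrix (Fin n) (Fin n) ℝ} {α β : ℝ} (h : Between Y α β)
    {A B : Matrix (Fin n) (Fin n) ℝ} (hAB : ∀ v, v ⬝ᵥ (A *ᵥ v) ≤ v ⬝ᵥ (B *ᵥ v)) :
    ∑ i, ∑ l, Y i l * A i l ≤ ∑ i, ∑ l, Y i l * B i l := by
  obtain ⟨O, e, -, -, hY, he, -⟩ := h.diag
  have e1 : ∀ r s, Y r s = ∑ d, O r d * e d * O s d := fun r s => by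
    rw [hY, mul_apply]; simp [mul_diagonal, transpose_apply]
  have e2 : ∀ X : Matrix (Fin n) (Fin n) ℝ, ∑ i, ∑ l, Y i l * X i l
      = ∑ d, e d * ((fun i => O i d) ⬝ᵥ (X *ᵥ fun i => O i d)) := by
    intro X
    simp only [e1, dotProduct, mulVec, sum_mul, mul_sum]
    symm
    rw [sum_comm]
    refine sum_congr rfl fun i _ => ?_
    rw [sum_comm]
    exact sum_congr rfl fun l _ => sum_congr rfl fun d _ => by ring
  rw [e2, e2]
  exact sum_le_sum fun d _ => mul_le_mul_of_nonneg_left (hAB _) (h.pos.le.trans (he d))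

/-- The part of the gain linear in the test tensor, minus the cost. -/
noncomputable def gainFun (Y : Matrix (Fin n) (Fin n) ℝ) (W G : Ten n) : ℝ :=
  pr W G - pr W (tc 1 1 Y W) / 2

lemma gainFun_rot {O : Matrix (Fin n) (Fin n) ℝ} (hO : O * Oᵀ = 1) (e : Fin n → ℝ) (W G : Ten n) :
    gainFun (O * diagonal e * Oᵀ) W G
      = (∑ a, ∑ b, ∑ c, tc O O O W a b c * tc O O O G a b c)
        - (∑ a, ∑ b, ∑ c, tc O O O W a b c ^ 2 * e c) / 2 := by
  have h1 : pr (tc O O O W) (tc O O O G) = pr W G := by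
    rw [tc_adj, tc_tc, hO, tc_one]
  have h2 : pr (tc O O O W) (tc 1 1 (diagonal e) (tc O O O W)) = pr W (tc 1 1 (O * diagonal e * Oᵀ) W) := by
    rw [tc_adj, tc_tc, tc_tc]
    simp only [Matrix.one_mul, hO, ← Matrix.mul_assoc]
  rw [gainFun, ← h1, ← h2, show (1 : Matrix (Fin n) (Fin n) ℝ) = diagonal fun _ => 1 from diagonal_one.symm,
    tc_diag]
  simp only [pr, one_mul]
  congr 2
  exact sum_congr rfl fun a _ => sum_congr rfl fun b _ => sum_congr rfl fun c _ => by ring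

lemma conj_one {O : Matrix (Fin n) (Fin n) ℝ} (hO : O * Oᵀ = 1) :
    (1 : Matrix (Fin n) (Fin n) ℝ) = O * 1 * Oᵀ := by rw [Matrix.mul_one, hO]

lemma pr_tc_mid {O : Matrix (Fin n) (Fin n) ℝ} (hO' : Oᵀ * O = 1) (e : Fin n → ℝ) (f G : Ten n) :
    pr (tc Oᵀ Oᵀ Oᵀ f) (tc 1 1 (O * diagonal e * Oᵀ) G)
      = pr f (tc 1 1 (diagonal e) (tc O O O G)) := by
  rw [tc_adj, tc_tc, tc_tc]
  simp only [transpose_transpose, Matrix.mul_one, Matrix.one_mul, Matrix.mul_assoc, hO']

/-- The test coefficients on the side of `y`. -/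
theorem exists_testC {Y : Matrix (Fin n) (Fin n) ℝ} {α β M : ℝ} (h : Between Y α β) {W : Ten n}
    (hW : ∀ p q r, |W p q r| ≤ M) :
    ∃ C : Ten n, (∀ p q i, C p q i = C q p i) ∧
      (∀ p q i, |C p q i| ≤ (n : ℝ) ^ 3 * ((n : ℝ) ^ 3 * M * β / (2 * α ^ 2))) ∧
      ∀ G, Sym3 G → gainFun Y W G ≤ 2 * pr C (tc 1 1 Y G) - 2 * pr C (tc Y Y Y C) := by
  obtain ⟨O, e, hO, hO', rfl, he, he'⟩ := h.diag
  have hp : ∀ i, 0 < e i := fun i => h.pos.trans_le (he i)
  set f := coefC e (tc O O O W)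
  have fsym : ∀ a b v, f a b v = f b a v := fun a b v => by
    simp only [f, coefC, (hat_sym e (tc O O O W)).1 a b v, mul_comm (e a)]
  refine ⟨tc Oᵀ Oᵀ Oᵀ f, fun p q i => ?_, fun p q i => abs_tc_le
    (fun p a => by simpa using abs_orth_le hO a p) (fun a b c => ?_) p q i, fun G hG => ?_⟩
  · simp only [tc, s1, s2, s3, mul_sum]
    rw [sum_comm]
    refine sum_congr rfl fun a _ => sum_congr rfl fun b _ => sum_congr rfl fun c _ => ?_
    rw [fsym b a c]; ring
  · have k := abs_hat_le hp he' (abs_tc_le (abs_orth_le hO) hW) a b c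
    have hM : 0 ≤ (n : ℝ) ^ 3 * M * β := (abs_nonneg _).trans k
    show |hat e (tc O O O W) a b c / (2 * (e a * e b))| ≤ _
    have hee : α ^ 2 ≤ e a * e b := by
      rw [sq]; exact mul_le_mul (he a) (he b) h.pos.le (hp a).le
    rw [abs_div, abs_of_pos (by have := hp a; have := hp b; positivity : 0 < 2 * (e a * e b))]
    exact div_le_div₀ hM k (by have := h.pos; positivity) (by linarith)
  · rw [pr_conj hO' rfl rfl rfl, pr_tc_mid hO', gainFun_rot hO,
      show (1 : Matrix (Fin n) (Fin n) ℝ) = diagonal fun _ => 1 from diagonal_one.symm, tc_diag, tc_diag]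
    refine (gainC hp (tc O O O W) (tc O O O G) (tc_sym hG)).trans (le_of_eq ?_)
    simp only [pr, mul_sum, ← sum_sub_distrib]
    exact sum_congr rfl fun a _ => sum_congr rfl fun b _ => sum_congr rfl fun c _ => by
      simp only [f]; ring

/-- The test coefficients on the side of `x`. -/
theorem exists_testD {Y : Matrix (Fin n) (Fin n) ℝ} {α β M : ℝ} (h : Between Y α β) {W : Ten n}
    (hW : ∀ p q r, |W p q r| ≤ M) :
    ∃ E : Ten n, (∀ p q i, |E p q i| ≤ (n : ℝ) ^ 3 * ((n : ℝ) ^ 3 * M * β / (2 * α ^ 2))) ∧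
      ∀ G, Sym3 G → gainFun Y W G ≤
        2 * pr E (tc 1 1 Y G) - pr E (tc Y Y Y E) - pr E (tc (Y * Y) 1 Y E) := by
  obtain ⟨O, e, hO, hO', rfl, he, he'⟩ := h.diag
  have hp : ∀ i, 0 < e i := fun i => h.pos.trans_le (he i)
  set f : Ten n := fun a b c => coefD e (tc O O O W) b a c / e a
  refine ⟨tc Oᵀ Oᵀ Oᵀ f, fun p q i => abs_tc_le (fun p a => by simpa using abs_orth_le hO a p)
    (fun a b c => ?_) p q i, fun G hG => ?_⟩
  · have k := abs_hat_le hp he' (abs_tc_le (abs_orth_le hO) hW) a b c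
    have hM : 0 ≤ (n : ℝ) ^ 3 * M * β := (abs_nonneg _).trans k
    show |hat e (tc O O O W) a b c / (e a + e b) / e a| ≤ _
    rw [div_div, abs_div, abs_of_pos (by have := hp a; have := hp b; positivity : 0 < (e a + e b) * e a)]
    refine div_le_div₀ hM k (by have := h.pos; positivity) ?_
    have h1 := mul_le_mul (show 2 * α ≤ e a + e b by linarith [he a, he b]) (he a) h.pos.le
      (by linarith [hp a, hp b])
    nlinarith [h1]
  · have hYY : O * diagonal e * Oᵀ * (O * diagonal e * Oᵀ) = O * diagonal (fun i => e i * e i) * Oᵀ := by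
      rw [← diagonal_mul_diagonal]
      calc O * diagonal e * Oᵀ * (O * diagonal e * Oᵀ)
          = O * diagonal e * (Oᵀ * O) * diagonal e * Oᵀ := by simp only [Matrix.mul_assoc]
        _ = _ := by rw [hO', Matrix.mul_one]; simp only [Matrix.mul_assoc]
    rw [pr_conj hO' rfl rfl rfl, pr_conj hO' hYY (conj_one hO) rfl, pr_tc_mid hO', gainFun_rot hO,
      show (1 : Matrix (Fin n) (Fin n) ℝ) = diagonal fun _ => 1 from diagonal_one.symm, tc_diag,
      tc_diag, tc_diag]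
    refine ((gainC hp (tc O O O W) (tc O O O G) (tc_sym hG)).trans_eq
      (gainD_eq hp (tc O O O W) (tc O O O G) (tc_sym hG)).symm).trans (le_of_eq ?_)
    simp only [pr, mul_sum, ← sum_sub_distrib]
    refine sum_congr rfl fun a _ => sum_congr rfl fun b _ => sum_congr rfl fun c _ => ?_
    have := (hp a).ne'
    simp only [f]
    field_simp
    ring

end Vale.Agent.P254M
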