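import Vale.Agent.P254M.Defs

/-!
Laws proportional to `exp (-U)` for `U` of quadratic growth: polynomial observables, algebra of
averages, derivatives along a perturbation, smoothness in a tilt.
-/

namespace Vale.Agent.P254M

open MeasureTheory Set Filter Topology Finset Matrix
open Vale.Agent.P245 (pd dot sumSq sumSq_nonneg sq_le_sumSq continuous_sumSq dot_le_sumSq)
open scoped ContDiff

variable {n : ℕ} {U f g φ : (Fin n → ℝ) → ℝ}

namespace Poly

lemma const (r : ℝ) : Poly (fun _ : Fin n → ℝ => r) :=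
  ⟨continuous_const, |r|, 0, fun _ => by simp⟩

lemma exists_bound (h : Poly f) :
    ∃ (C : ℝ) (m : ℕ), 0 ≤ C ∧ ∀ x, |f x| ≤ C * (1 + sumSq x) ^ m := by
  obtain ⟨C, m, hC⟩ := h.2
  refine ⟨|C|, m, abs_nonneg C, fun x => (hC x).trans ?_⟩
  have := sumSq_nonneg x
  exact mul_le_mul_of_nonneg_right (le_abs_self C) (by positivity)

lemma add (hf : Poly f) (hg : Poly g) : Poly (fun x => f x + g x) := by
  refine ⟨hf.1.add hg.1, ?_⟩
  obtain ⟨C, m, hC0, hC⟩ := hf.exists_bound
  obtain ⟨D, k, hD0, hD⟩ := hg.exists_bound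
  refine ⟨C + D, m + k, fun x => ?_⟩
  have h1 : (1:ℝ) ≤ 1 + sumSq x := by linarith [sumSq_nonneg x]
  calc |f x + g x| ≤ |f x| + |g x| := abs_add_le _ _
    _ ≤ C * (1 + sumSq x) ^ (m + k) + D * (1 + sumSq x) ^ (m + k) :=
        add_le_add ((hC x).trans (mul_le_mul_of_nonneg_left (pow_le_pow_right₀ h1 (by omega)) hC0))
          ((hD x).trans (mul_le_mul_of_nonneg_left (pow_le_pow_right₀ h1 (by omega)) hD0))
    _ = _ := by ring

lemma mul (hf : Poly f) (hg : Poly g) : Poly (fun x => f x * g x) := by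
  refine ⟨hf.1.mul hg.1, ?_⟩
  obtain ⟨C, m, hC0, hC⟩ := hf.exists_bound
  obtain ⟨D, k, hD0, hD⟩ := hg.exists_bound
  refine ⟨C * D, m + k, fun x => ?_⟩
  have h1 : (0:ℝ) ≤ 1 + sumSq x := by linarith [sumSq_nonneg x]
  rw [abs_mul, pow_add, mul_mul_mul_comm]
  exact mul_le_mul (hC x) (hD x) (abs_nonneg _) (mul_nonneg hC0 (pow_nonneg h1 m))

lemma congr (hf : Poly f) (h : ∀ x, g x = f x) : Poly g := by rwa [funext h]

lemma const_mul (hf : Poly f) (r : ℝ) : Poly (fun x => r * f x) := (Poly.const r).mul hf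

lemma mul_const (hf : Poly f) (r : ℝ) : Poly (fun x => f x * r) := hf.mul (Poly.const r)

lemma neg (hf : Poly f) : Poly (fun x => -f x) := (hf.const_mul (-1)).congr fun x => by ring

lemma sub (hf : Poly f) (hg : Poly g) : Poly (fun x => f x - g x) :=
  (hf.add hg.neg).congr fun x => by ring

lemma pow (hf : Poly f) (k : ℕ) : Poly (fun x => f x ^ k) := by
  induction k with
  | zero => simpa using Poly.const 1
  | succ k ih => simpa [pow_succ] using ih.mul hf

lemma sum {ι : Type*} (s : Finset ι) {F : ι → (Fin n → ℝ) → ℝ} (h : ∀ i ∈ s, Poly (F i)) :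
    Poly (fun x => ∑ i ∈ s, F i x) := by
  classical
  induction s using Finset.induction with
  | empty => simpa using Poly.const 0
  | insert i s hi ih =>
    simp only [Finset.sum_insert hi]
    exact (h i (Finset.mem_insert_self i s)).add (ih fun j hj => h j (Finset.mem_insert_of_mem hj))

/-- A continuous function dominated by a polynomial one. -/
lemma of_le (hg : Poly g) (hc : Continuous f) (h : ∀ x, |f x| ≤ |g x|) : Poly f := by
  obtain ⟨C, m, hC⟩ := hg.2
  exact ⟨hc, C, m, fun x => (h x).trans (hC x)⟩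

protected lemma abs (hf : Poly f) : Poly (fun x => |f x|) :=
  hf.of_le hf.1.abs fun _ => le_of_eq (abs_abs _)

lemma sumSq' : Poly (sumSq : (Fin n → ℝ) → ℝ) := by
  refine ⟨continuous_sumSq, 1, 1, fun x => ?_⟩
  rw [one_mul, pow_one, abs_of_nonneg (sumSq_nonneg x)]
  linarith

lemma coord (i : Fin n) : Poly (fun x : Fin n → ℝ => x i) := by
  refine ⟨continuous_apply i, 1, 1, fun x => ?_⟩
  rw [one_mul, pow_one]
  nlinarith [sq_le_sumSq x i, sq_abs (x i), sq_nonneg (|x i| - 1)]

lemma dot_left (v : Fin n → ℝ) : Poly (fun x => dot v x) :=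
  sum _ fun i _ => (coord i).const_mul (v i)

lemma comp_sub (hf : Poly f) (v : Fin n → ℝ) : Poly (fun x => f (x - v)) := by
  refine ⟨hf.1.comp (continuous_id.sub continuous_const), ?_⟩
  obtain ⟨C, m, hC0, hC⟩ := hf.exists_bound
  refine ⟨C * (2 + 2 * sumSq v) ^ m, m, fun x => ?_⟩
  have hx := sumSq_nonneg x
  have hv := sumSq_nonneg v
  have hxv := sumSq_nonneg (x - v)
  have h1 : sumSq (x - v) ≤ 2 * sumSq x + 2 * sumSq v := by
    simp only [sumSq, Finset.mul_sum, ← Finset.sum_add_distrib, Pi.sub_apply]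
    exact Finset.sum_le_sum fun i _ => by nlinarith [sq_nonneg (x i + v i)]
  calc |f (x - v)| ≤ C * (1 + sumSq (x - v)) ^ m := hC _
    _ ≤ C * ((2 + 2 * sumSq v) * (1 + sumSq x)) ^ m :=
        mul_le_mul_of_nonneg_left (pow_le_pow_left₀ (by linarith)
          (by nlinarith [mul_nonneg hv hx]) m) hC0
    _ = _ := by rw [mul_pow]; ring

/-- Polynomial functions grow slower than every Gaussian. -/
lemma le_exp (hf : Poly f) {e : ℝ} (he : 0 < e) :
    ∃ K, 0 ≤ K ∧ ∀ x, |f x| ≤ K * Real.exp (e * sumSq x) := by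
  obtain ⟨C, m, hC0, hC⟩ := hf.exists_bound
  refine ⟨C * ((m.factorial : ℝ) / e ^ m * Real.exp e), by positivity, fun x => (hC x).trans ?_⟩
  have hs : 0 ≤ e * (1 + sumSq x) := mul_nonneg he.le (by linarith [sumSq_nonneg x])
  have h := Real.pow_div_factorial_le_exp (x := e * (1 + sumSq x)) hs m
  rw [div_le_iff₀ (by positivity), mul_add e 1 (sumSq x), Real.exp_add, mul_one] at h
  rw [mul_assoc C]
  refine mul_le_mul_of_nonneg_left ?_ hC0
  rw [show (m.factorial : ℝ) / e ^ m * Real.exp e * Real.exp (e * sumSq x)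
    = Real.exp e * Real.exp (e * sumSq x) * m.factorial / e ^ m by ring,
    le_div_iff₀ (pow_pos he m), ← mul_pow]
  calc ((1 + sumSq x) * e) ^ m = (e + e * sumSq x) ^ m := by ring
    _ ≤ _ := h

end Poly

namespace Grow

variable (hU : Grow U)
include hU

lemma integrable (hf : Poly f) : Integrable (fun x => f x * Real.exp (-U x)) := by
  obtain ⟨c, C, hc, hl⟩ := hU.lower
  obtain ⟨K, hK0, hK⟩ := hf.le_exp (half_pos hc)
  have hm := ((P245.integrable_gauss (ι := Fin n) (half_pos hc)).const_mul (K * Real.exp C))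
  refine hm.mono' (hf.1.mul hU.cont.neg.rexp).aestronglyMeasurable
    (Eventually.of_forall fun x => ?_)
  rw [Real.norm_eq_abs, abs_mul, abs_of_pos (Real.exp_pos _)]
  refine (mul_le_mul_of_nonneg_right (hK x) (Real.exp_pos _).le).trans ?_
  rw [mul_assoc, mul_assoc, ← Real.exp_add, ← Real.exp_add]
  exact mul_le_mul_of_nonneg_left (Real.exp_le_exp.2 (by linarith [hl x])) hK0

lemma integrable_exp : Integrable (fun x => Real.exp (-U x)) := by
  simpa using hU.integrable (Poly.const 1)

lemma Zp_pos : 0 < Zp U :=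
  integral_pos_of_integrable_nonneg_nonzero (x := 0) (hU.cont.neg.rexp) hU.integrable_exp
    (fun _ => (Real.exp_pos _).le) (Real.exp_pos _).ne'

lemma add_const (r : ℝ) : Grow (fun x => U x + r) := by
  obtain ⟨c, C, hc, hl⟩ := hU.lower
  exact ⟨hU.cont.add continuous_const, c, C - r, hc, fun x => by linarith [hl x]⟩

lemma sub_dot (θ : Fin n → ℝ) : Grow (fun x => U x - dot θ x) := by
  obtain ⟨c, C, hc, hl⟩ := hU.lower
  refine ⟨hU.cont.sub (by fun_prop), c / 2, C + sumSq θ / (4 * (c / 2)), half_pos hc, fun x => ?_⟩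
  linarith [dot_le_sumSq θ x (half_pos hc), hl x]

omit hU in
/-- Small perturbations by observables of quadratic growth keep quadratic growth. -/
lemma eventually_add_mul (hU : Grow U) (hφ : Continuous φ) {D : ℝ}
    (hD : ∀ x, |φ x| ≤ D * (1 + sumSq x)) :
    ∀ᶠ t in 𝓝 (0:ℝ), Grow (fun x => U x + t * φ x) := by
  obtain ⟨c, C, hc, hl⟩ := hU.lower
  have hD0 : 0 ≤ D := by
    have h := hD 0
    have h0 : sumSq (0 : Fin n → ℝ) = 0 := by simp [sumSq]
    rw [h0] at h
    linarith [abs_nonneg (φ 0)]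
  have : Tendsto (fun t : ℝ => |t| * D) (𝓝 0) (𝓝 0) := by
    have h := ((by fun_prop : Continuous fun t : ℝ => |t| * D)).tendsto (0:ℝ)
    simpa using h
  filter_upwards [this.eventually (eventually_lt_nhds (half_pos hc))] with t ht
  refine ⟨hU.cont.add (continuous_const.mul hφ), c / 2, C + c / 2, half_pos hc, fun x => ?_⟩
  have h1 : -(t * φ x) ≤ c / 2 * (1 + sumSq x) := by
    refine le_trans (neg_le_abs _) ?_
    rw [abs_mul]
    refine (mul_le_mul_of_nonneg_left (hD x) (abs_nonneg t)).trans ?_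
    rw [← mul_assoc]
    exact mul_le_mul_of_nonneg_right ht.le (by linarith [sumSq_nonneg x])
  linarith [hl x]

lemma ex_const (r : ℝ) : ex U (fun _ => r) = r := by
  rw [ex, integral_const_mul]
  exact mul_div_cancel_right₀ r hU.Zp_pos.ne'

lemma ex_add (hf : Poly f) (hg : Poly g) : ex U (fun x => f x + g x) = ex U f + ex U g := by
  simp only [ex, add_mul]
  rw [integral_add (hU.integrable hf) (hU.integrable hg), add_div]

lemma ex_sub (hf : Poly f) (hg : Poly g) : ex U (fun x => f x - g x) = ex U f - ex U g := by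
  simp only [ex, sub_mul]
  rw [integral_sub (hU.integrable hf) (hU.integrable hg), sub_div]

lemma ex_sum {ι : Type*} (s : Finset ι) {F : ι → (Fin n → ℝ) → ℝ} (hF : ∀ i ∈ s, Poly (F i)) :
    ex U (fun x => ∑ i ∈ s, F i x) = ∑ i ∈ s, ex U (F i) := by
  simp only [ex, Finset.sum_mul]
  rw [integral_finsetSum _ fun i hi => hU.integrable (hF i hi), Finset.sum_div]

lemma ex_mono (hf : Poly f) (hg : Poly g) (h : ∀ x, f x ≤ g x) : ex U f ≤ ex U g :=
  div_le_div_of_nonneg_right (integral_mono (hU.integrable hf) (hU.integrable hg) fun x =>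
    mul_le_mul_of_nonneg_right (h x) (Real.exp_pos _).le) hU.Zp_pos.le

end Grow

lemma ex_const_mul (U f : (Fin n → ℝ) → ℝ) (r : ℝ) : ex U (fun x => r * f x) = r * ex U f := by
  simp only [ex, mul_assoc]
  rw [integral_const_mul, mul_div_assoc]

lemma ex_mul_const (U f : (Fin n → ℝ) → ℝ) (r : ℝ) : ex U (fun x => f x * r) = ex U f * r := by
  rw [mul_comm _ r, ← ex_const_mul]
  simp only [mul_comm]

lemma ex_neg (U f : (Fin n → ℝ) → ℝ) : ex U (fun x => -f x) = -ex U f := by
  simpa using ex_const_mul U f (-1)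

lemma ex_nonneg (U : (Fin n → ℝ) → ℝ) (h : ∀ x, 0 ≤ f x) : 0 ≤ ex U f :=
  div_nonneg (integral_nonneg fun x => mul_nonneg (h x) (Real.exp_pos _).le)
    (integral_nonneg fun _ => (Real.exp_pos _).le)

lemma Zp_add_const (U : (Fin n → ℝ) → ℝ) (r : ℝ) :
    Zp (fun x => U x + r) = Real.exp (-r) * Zp U := by
  simp only [Zp, neg_add, Real.exp_add]
  rw [integral_mul_const, mul_comm]

lemma ex_add_const (U f : (Fin n → ℝ) → ℝ) (r : ℝ) : ex (fun x => U x + r) f = ex U f := by
  rw [ex, ex, Zp_add_const]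
  simp only [neg_add, Real.exp_add, ← mul_assoc]
  rw [integral_mul_const, mul_comm _ (Real.exp (-r)),
    mul_div_mul_left _ _ (Real.exp_ne_zero _)]

lemma cv2_comm (U f g : (Fin n → ℝ) → ℝ) : cv2 U f g = cv2 U g f := by
  simp only [cv2, mul_comm (f _) (g _), mul_comm (ex U f)]

lemma covm_symm (U : (Fin n → ℝ) → ℝ) (i j : Fin n) : covm U i j = covm U j i := cv2_comm _ _ _

namespace Grow

variable (hU : Grow U)
include hU

lemma cv2_eq_centred (hf : Poly f) (hg : Poly g) :
    cv2 U f g = ex U (fun x => (f x - ex U f) * (g x - ex U g)) := by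
  have e : (fun x => (f x - ex U f) * (g x - ex U g))
      = fun x => f x * g x - (ex U g * f x + ex U f * g x - ex U f * ex U g) := by
    funext x; ring
  rw [e, hU.ex_sub (hf.mul hg) (((hf.const_mul _).add (hg.const_mul _)).sub (Poly.const _)),
    hU.ex_sub ((hf.const_mul _).add (hg.const_mul _)) (Poly.const _),
    hU.ex_add (hf.const_mul _) (hg.const_mul _), ex_const_mul, ex_const_mul, hU.ex_const, cv2]
  ring

lemma cv2_self_nonneg (hf : Poly f) : 0 ≤ cv2 U f f := by
  rw [hU.cv2_eq_centred hf hf]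
  exact ex_nonneg U fun x => mul_self_nonneg _

lemma sq_ex_le (hf : Poly f) : ex U f ^ 2 ≤ ex U (fun x => f x ^ 2) := by
  have := hU.cv2_self_nonneg hf
  simp only [cv2, ← sq] at this
  linarith

lemma ex_mul_sq_le (hf : Poly f) (hg : Poly g) :
    ex U (fun x => f x * g x) ^ 2 ≤ ex U (fun x => f x ^ 2) * ex U (fun x => g x ^ 2) := by
  set A := ex U (fun x => f x ^ 2)
  set B := ex U (fun x => f x * g x)
  set C := ex U (fun x => g x ^ 2)
  have h : ∀ t : ℝ, 0 ≤ A * (t * t) + (-2 * B) * t + C := fun t => by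
    have h0 : 0 ≤ ex U (fun x => (t * f x - g x) ^ 2) := ex_nonneg U fun x => sq_nonneg _
    have e : (fun x => (t * f x - g x) ^ 2)
        = fun x => (t * t) * f x ^ 2 + (-2 * t) * (f x * g x) + g x ^ 2 := by funext x; ring
    rw [e, hU.ex_add (((hf.pow 2).const_mul _).add ((hf.mul hg).const_mul _)) (hg.pow 2),
      hU.ex_add ((hf.pow 2).const_mul _) ((hf.mul hg).const_mul _), ex_const_mul, ex_const_mul] at h0
    linarith
  have := discrim_le_zero h
  simp only [discrim] at this
  nlinarith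

/-- Differentiation along a perturbation of the potential. -/
lemma hasDerivAt_integral (hf : Poly f) (hφ : Continuous φ) {D : ℝ}
    (hD : ∀ x, |φ x| ≤ D * (1 + sumSq x)) :
    HasDerivAt (fun t : ℝ => ∫ x, f x * Real.exp (-(U x + t * φ x)))
      (-∫ x, f x * φ x * Real.exp (-U x)) 0 := by
  obtain ⟨c, C, hc, hl⟩ := hU.lower
  have hD0 : 0 ≤ D := by
    have h := hD 0
    have h0 : sumSq (0 : Fin n → ℝ) = 0 := by simp [sumSq]
    rw [h0] at h
    linarith [abs_nonneg (φ 0)]
  set δ := c / (2 * (D + 1)) with hδ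
  have hδ0 : 0 < δ := by positivity
  have hV : Grow fun x => U x - c / 2 * (1 + sumSq x) := by
    refine ⟨hU.cont.sub (by fun_prop), c / 2, C + c / 2, half_pos hc, fun x => ?_⟩
    linarith [hl x]
  have hφp : Poly φ := ⟨hφ, D, 1, fun x => by simpa using hD x⟩
  have hm : ∀ t : ℝ, AEStronglyMeasurable (fun x => f x * Real.exp (-(U x + t * φ x))) volume :=
    fun t => (hf.1.mul (hU.cont.add (continuous_const.mul hφ)).neg.rexp).aestronglyMeasurable
  have key := hasDerivAt_integral_of_dominated_loc_of_deriv_le (μ := (volume : Measure (Fin n → ℝ)))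
    (F := fun t x => f x * Real.exp (-(U x + t * φ x)))
    (F' := fun t x => -(f x * φ x * Real.exp (-(U x + t * φ x))))
    (bound := fun x => |f x * φ x| * Real.exp (-(U x - c / 2 * (1 + sumSq x))))
    (x₀ := (0:ℝ)) (Metric.ball_mem_nhds 0 hδ0) (Eventually.of_forall hm) ?_ ?_ ?_
    (hV.integrable (hf.mul hφp).abs) ?_
  · have h2 := key.2
    simpa only [zero_mul, add_zero, integral_neg] using h2
  · simpa only [zero_mul, add_zero] using hU.integrable hf
  · exact ((hf.1.mul hφ).mul (hU.cont.add (continuous_const.mul hφ)).neg.rexp).neg.aestronglyMeasurable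
  · refine Eventually.of_forall fun x t ht => ?_
    rw [norm_neg, Real.norm_eq_abs, abs_mul, abs_of_pos (Real.exp_pos _)]
    refine mul_le_mul_of_nonneg_left (Real.exp_le_exp.2 ?_) (abs_nonneg _)
    have ht' : |t| * D ≤ c / 2 := by
      rw [Metric.mem_ball, dist_zero_right, Real.norm_eq_abs] at ht
      refine le_trans (mul_le_mul ht.le (by linarith : D ≤ D + 1) hD0 hδ0.le) (le_of_eq ?_)
      rw [hδ]; field_simp
    have h1 : -(t * φ x) ≤ c / 2 * (1 + sumSq x) := by
      refine le_trans (neg_le_abs _) ?_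
      rw [abs_mul]
      refine (mul_le_mul_of_nonneg_left (hD x) (abs_nonneg t)).trans ?_
      rw [← mul_assoc]
      exact mul_le_mul_of_nonneg_right ht' (by linarith [sumSq_nonneg x])
    linarith
  · refine Eventually.of_forall fun x t _ => ?_
    exact ((((hasDerivAt_id t).mul_const (φ x)).const_add (U x)).fun_neg.exp.const_mul (f x)).congr_deriv
      (by simp only [id_eq]; ring)

lemma hasDerivAt_Zp (hφ : Continuous φ) {D : ℝ} (hD : ∀ x, |φ x| ≤ D * (1 + sumSq x)) :
    HasDerivAt (fun t : ℝ => Zp (fun x => U x + t * φ x)) (-(ex U φ * Zp U)) 0 := by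
  have h := hU.hasDerivAt_integral (Poly.const 1) hφ hD
  simp only [one_mul] at h
  rw [show ex U φ * Zp U = ∫ x, φ x * Real.exp (-U x) from div_mul_cancel₀ _ hU.Zp_pos.ne']
  exact h

lemma hasDerivAt_logZp (hφ : Continuous φ) {D : ℝ} (hD : ∀ x, |φ x| ≤ D * (1 + sumSq x)) :
    HasDerivAt (fun t : ℝ => Real.log (Zp (fun x => U x + t * φ x))) (-ex U φ) 0 := by
  have h := (hU.hasDerivAt_Zp hφ hD).log (by simpa using hU.Zp_pos.ne')
  refine h.congr_deriv ?_
  simp [neg_div, mul_div_cancel_right₀ _ hU.Zp_pos.ne']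

lemma hasDerivAt_ex (hf : Poly f) (hφ : Continuous φ) {D : ℝ}
    (hD : ∀ x, |φ x| ≤ D * (1 + sumSq x)) :
    HasDerivAt (fun t : ℝ => ex (fun x => U x + t * φ x) f) (-cv2 U f φ) 0 := by
  have h := (hU.hasDerivAt_integral hf hφ hD).div (hU.hasDerivAt_Zp hφ hD)
    (by simpa using hU.Zp_pos.ne')
  refine h.congr_deriv ?_
  simp only [cv2, ex, zero_mul, add_zero]
  have := hU.Zp_pos.ne'
  field_simp
  ring

lemma hasDerivAt_ex_tilt (hf : Poly f) (v : Fin n → ℝ) :
    HasDerivAt (fun t : ℝ => ex (fun x => U x - t * dot v x) f)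
      (cv2 U f (fun x => dot v x)) 0 := by
  obtain ⟨D, hD⟩ : ∃ D, ∀ x, |-dot v x| ≤ D * (1 + sumSq x) := by
    refine ⟨1 + sumSq v, fun x => ?_⟩
    rw [abs_neg]
    refine (P245.abs_dot_le v x).trans ?_
    nlinarith [sq_nonneg (Real.sqrt (sumSq v) - Real.sqrt (sumSq x)), Real.sq_sqrt (sumSq_nonneg v),
      Real.sq_sqrt (sumSq_nonneg x), mul_nonneg (sumSq_nonneg v) (sumSq_nonneg x)]
  have h := hU.hasDerivAt_ex hf (by fun_prop : Continuous fun x => -dot v x) hD
  simp only [mul_neg, ← sub_eq_add_neg] at h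
  refine h.congr_deriv ?_
  simp only [cv2, mul_neg, ex_neg]
  ring

/-- Partial derivatives of a tilted integral. -/
lemma hasFDerivAt_tilt (hf : Poly f) (θ : Fin n → ℝ) :
    HasFDerivAt (fun θ : Fin n → ℝ => ∫ x, f x * Real.exp (-(U x - dot θ x)))
      (∑ i, (∫ x, f x * x i * Real.exp (-(U x - dot θ x))) •
        ContinuousLinearMap.proj (R := ℝ) (φ := fun _ : Fin n => ℝ) i) θ := by
  obtain ⟨c, C, hc, hl⟩ := hU.lower
  set R := sumSq θ + 1 with hR
  set P : Fin n → (Fin n → ℝ) →L[ℝ] ℝ := fun i => ContinuousLinearMap.proj i with hP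
  have hP1 : ∀ i, ‖P i‖ ≤ 1 := fun i =>
    ContinuousLinearMap.opNorm_le_bound _ zero_le_one fun v => by
      simpa [hP] using norm_le_pi_norm v i
  have hs : {η : Fin n → ℝ | sumSq η < R} ∈ 𝓝 θ :=
    (isOpen_lt continuous_sumSq continuous_const).mem_nhds (by simp [hR])
  have hV : Grow fun x => U x - c / 2 * sumSq x := by
    refine ⟨hU.cont.sub (by fun_prop), c / 2, C, half_pos hc, fun x => ?_⟩
    linarith [hl x]
  have hb : Poly fun x => |f x| * ∑ i, |x i| * Real.exp (R / (4 * (c / 2))) :=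
    hf.abs.mul (Poly.sum _ fun i _ => (Poly.coord i).abs.mul_const _)
  have hF' : ∀ η, Continuous fun x => ∑ i, (f x * x i * Real.exp (-(U x - dot η x))) • P i :=
    fun η => by
      have := hf.1; have := hU.cont
      fun_prop
  have key := hasFDerivAt_integral_of_dominated_of_fderiv_le (μ := (volume : Measure (Fin n → ℝ)))
    (F := fun η x => f x * Real.exp (-(U x - dot η x)))
    (F' := fun η x => ∑ i, (f x * x i * Real.exp (-(U x - dot η x))) • P i)
    (bound := fun x => (|f x| * ∑ i, |x i| * Real.exp (R / (4 * (c / 2))))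
      * Real.exp (-(U x - c / 2 * sumSq x))) (x₀ := θ) hs
    (Eventually.of_forall fun η => ((hU.sub_dot η).integrable hf).aestronglyMeasurable)
    ((hU.sub_dot θ).integrable hf) (hF' θ).aestronglyMeasurable ?_ (hV.integrable hb) ?_
  · refine key.congr_fderiv ?_
    have hi : ∀ i, Integrable fun x => f x * x i * Real.exp (-(U x - dot θ x)) := fun i =>
      (hU.sub_dot θ).integrable (hf.mul (Poly.coord i))
    rw [integral_finsetSum _ fun i _ => (hi i).smul_const (P i)]
    simp only [integral_smul_const, hP]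
  · refine Eventually.of_forall fun x η hη => (norm_sum_le _ _).trans ?_
    rw [Finset.mul_sum, Finset.sum_mul]
    refine Finset.sum_le_sum fun i _ => ?_
    rw [norm_smul, Real.norm_eq_abs, abs_mul, abs_mul, abs_of_pos (Real.exp_pos _)]
    refine (mul_le_of_le_one_right (by positivity) (hP1 i)).trans ?_
    rw [mul_assoc, mul_assoc, mul_assoc, ← Real.exp_add]
    refine mul_le_mul_of_nonneg_left (mul_le_mul_of_nonneg_left (Real.exp_le_exp.2 ?_)
      (abs_nonneg _)) (abs_nonneg _)
    have h1 := dot_le_sumSq η x (half_pos hc)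
    have h2 : sumSq η / (4 * (c / 2)) ≤ R / (4 * (c / 2)) :=
      div_le_div_of_nonneg_right (le_of_lt hη) (by positivity)
    linarith
  · refine Eventually.of_forall fun x η _ => ?_
    have h1 : HasFDerivAt (fun η : Fin n → ℝ => dot η x) (∑ i, x i • P i) η :=
      HasFDerivAt.fun_sum fun i _ => (P i).hasFDerivAt.mul_const (x i)
    refine ((h1.const_sub (U x)).fun_neg.exp.const_mul (f x)).congr_fderiv ?_
    simp only [Finset.smul_sum, neg_neg, smul_smul]
    exact Finset.sum_congr rfl fun i _ => by ring_nf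

/-- Tilted integrals are smooth in the tilt. -/
lemma contDiff_tilt (hf : Poly f) :
    ContDiff ℝ ∞ (fun θ : Fin n → ℝ => ∫ x, f x * Real.exp (-(U x - dot θ x))) := by
  rw [contDiff_infty]
  intro k
  induction k generalizing f with
  | zero =>
    exact contDiff_zero.2 (continuous_iff_continuousAt.2 fun θ =>
      (hU.hasFDerivAt_tilt hf θ).continuousAt)
  | succ k ih =>
    push_cast
    refine contDiff_succ_iff_hasFDerivAt.2 ⟨_, ?_, hU.hasFDerivAt_tilt hf⟩
    exact ContDiff.sum fun i _ => (ih (hf.mul (Poly.coord i))).smul contDiff_const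

lemma contDiff_logZp : ContDiff ℝ ∞ (fun θ => Real.log (Zp (fun x => U x - dot θ x))) := by
  refine ContDiff.log ?_ fun θ => (hU.sub_dot θ).Zp_pos.ne'
  simpa [Zp] using hU.contDiff_tilt (Poly.const 1)

lemma contDiff_ex_tilt (hf : Poly f) :
    ContDiff ℝ ∞ (fun θ => ex (fun x => U x - dot θ x) f) :=
  (hU.contDiff_tilt hf).div (by simpa [Zp] using hU.contDiff_tilt (Poly.const 1)) fun θ =>
    (hU.sub_dot θ).Zp_pos.ne'

lemma pd_integral_tilt (hf : Poly f) (i : Fin n) (θ : Fin n → ℝ) :
    pd i (fun θ => ∫ x, f x * Real.exp (-(U x - dot θ x))) θ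
      = ∫ x, f x * x i * Real.exp (-(U x - dot θ x)) := by
  rw [pd, (hU.hasFDerivAt_tilt hf θ).fderiv]
  simp [Pi.single_apply]

/-- The derivative of the log-Laplace transform is the mean. -/
lemma pd_logZp (i : Fin n) (θ : Fin n → ℝ) :
    pd i (fun θ => Real.log (Zp (fun x => U x - dot θ x))) θ
      = mn (fun x => U x - dot θ x) i := by
  have h := hU.hasFDerivAt_tilt (Poly.const 1) θ
  simp only [one_mul] at h
  unfold pd
  rw [show (fun θ => Real.log (Zp (fun x => U x - dot θ x)))
    = fun θ => Real.log (∫ x, Real.exp (-(U x - dot θ x))) from rfl,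
    (h.log (hU.sub_dot θ).Zp_pos.ne').fderiv]
  simp [mn, ex, Zp, Pi.single_apply, div_eq_inv_mul]

/-- The derivative of a tilted average is a covariance. -/
lemma pd_ex_tilt (hf : Poly f) (i : Fin n) (θ : Fin n → ℝ) :
    pd i (fun θ => ex (fun x => U x - dot θ x) f) θ
      = cv2 (fun x => U x - dot θ x) f (fun x => x i) := by
  have h := hU.hasFDerivAt_tilt hf θ
  have h1 := hU.hasFDerivAt_tilt (Poly.const 1) θ
  simp only [one_mul] at h1
  have hz := (hU.sub_dot θ).Zp_pos.ne'
  have h2 : HasFDerivAt (fun θ => (∫ x, Real.exp (-(U x - dot θ x)))⁻¹) _ θ :=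
    (hasDerivAt_inv hz).comp_hasFDerivAt θ h1
  unfold pd
  rw [show (fun θ => ex (fun x => U x - dot θ x) f) = fun θ =>
    (∫ x, f x * Real.exp (-(U x - dot θ x))) * (∫ x, Real.exp (-(U x - dot θ x)))⁻¹ from rfl,
    (h.fun_mul h2).fderiv]
  simp only [cv2, ex, Zp] at hz ⊢
  simp [Pi.single_apply]
  field_simp
  ring

/-- The Hessian of the log-Laplace transform is the covariance. -/
lemma pd_pd_logZp (i j : Fin n) (θ : Fin n → ℝ) :
    pd i (pd j fun θ => Real.log (Zp (fun x => U x - dot θ x))) θ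
      = covm (fun x => U x - dot θ x) i j := by
  rw [show pd j (fun θ => Real.log (Zp (fun x => U x - dot θ x)))
    = fun θ => ex (fun x => U x - dot θ x) (fun x => x j) from funext (hU.pd_logZp j),
    hU.pd_ex_tilt (Poly.coord j) i θ, covm, cv2_comm]

/-- Integration by parts. -/
lemma ex_ibp (hUd : Differentiable ℝ U) (hf : Differentiable ℝ f) (i : Fin n) (hfp : Poly f)
    (hf' : Poly (pd i f)) (hU' : Poly (pd i U)) :
    ex U (pd i f) = ex U (fun x => f x * pd i U x) := by
  unfold ex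
  congr 1
  have e : ∀ x, fderiv ℝ (fun x => Real.exp (-U x)) x (Pi.single i 1)
      = -(pd i U x * Real.exp (-U x)) := fun x => by
    have := P245.pd_exp hUd.fun_neg i x
    rw [P245.pd_neg] at this
    simp only [pd] at this ⊢
    rw [this]; ring
  have h := integral_mul_fderiv_eq_neg_fderiv_mul_of_integrable
    (μ := (volume : Measure (Fin n → ℝ))) (f := f) (g := fun x => Real.exp (-U x))
    (v := Pi.single i 1) (hU.integrable hf')
    (by simp only [e, mul_neg, ← mul_assoc]; exact (hU.integrable (hfp.mul hU')).fun_neg)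
    (hU.integrable hfp) (fun x _ => hf x) (fun x _ => hUd.fun_neg.exp x)
  simp only [e, mul_neg, ← mul_assoc, integral_neg, neg_inj] at h
  exact h.symm

end Grow

end Vale.Agent.P254M
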