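import Vale.Agent.P254M.Score

/-!
Potentials with Hessian between two positive constants: quadratic bounds at any centre, critical
point, covariance bounds and moments of the position.
-/

namespace Vale.Agent.P254M

open MeasureTheory Set Filter Topology Finset Matrix
open Vale.Agent.P245 (pd dot sumSq sumSq_nonneg sq_le_sumSq continuous_sumSq dot_le_sumSq)
open scoped ContDiff

variable {n : ℕ} {U f : (Fin n → ℝ) → ℝ} {a b : ℝ}

lemma dotProduct_mulVec_hs (U : (Fin n → ℝ) → ℝ) (x v : Fin n → ℝ) :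
    v ⬝ᵥ (hs U x *ᵥ v) = ∑ i, ∑ j, v i * v j * pd i (pd j U) x := by
  simp only [dotProduct, Matrix.mulVec, hs, Finset.mul_sum]
  exact Finset.sum_congr rfl fun i _ => Finset.sum_congr rfl fun j _ => by ring

lemma pd_dot_left (v : Fin n → ℝ) (i : Fin n) (x : Fin n → ℝ) :
    pd i (fun y => dot v y) x = v i := by
  have h : HasFDerivAt (fun y : Fin n → ℝ => dot v y)
      (∑ j, v j • ContinuousLinearMap.proj (R := ℝ) (φ := fun _ : Fin n => ℝ) j) x :=
    HasFDerivAt.fun_sum fun j _ => ((ContinuousLinearMap.proj (R := ℝ)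
      (φ := fun _ : Fin n => ℝ) j).hasFDerivAt (x := x)).const_mul (v j)
  rw [pd, h.fderiv]
  simp [Pi.single_apply]

lemma differentiable_sumSq : Differentiable ℝ (sumSq : (Fin n → ℝ) → ℝ) := by
  unfold sumSq; fun_prop

lemma pd_sumSq (i : Fin n) (x : Fin n → ℝ) : pd i (sumSq : (Fin n → ℝ) → ℝ) x = 2 * x i := by
  show pd i (fun y => ∑ j, y j ^ 2) x = _
  simp only [pow_two]
  rw [P245.pd_sum _ fun j => (differentiable_apply j).fun_mul (differentiable_apply j)]
  simp [P245.pd_mul (differentiable_apply _) (differentiable_apply _), pd_proj,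
    Finset.sum_add_distrib]
  ring

lemma pd_comp_sub (hf : Differentiable ℝ f) (c : Fin n → ℝ) (i : Fin n) (x : Fin n → ℝ) :
    pd i (fun y => f (y - c)) x = pd i f (x - c) := by
  have h : HasFDerivAt (fun y => f (y - c))
      ((fderiv ℝ f (x - c)).comp (ContinuousLinearMap.id ℝ (Fin n → ℝ))) x :=
    (hf (x - c)).hasFDerivAt.comp x ((hasFDerivAt_id x).sub_const c)
  rw [pd, pd, h.fderiv]
  rfl

namespace Bd

variable (hU : Bd U a b)
include hU

lemma poly_pd (i : Fin n) : Poly (pd i U) := hU.poly_gr i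

lemma ex_pd (i : Fin n) : ex U (pd i U) = 0 := hU.ex_gr i

lemma ex_coord_mul_pd (i j : Fin n) :
    ex U (fun x => x j * pd i U x) = if i = j then 1 else 0 := hU.ex_coord_mul_gr j i

lemma ibp' (hf : ContDiff ℝ 1 f) (hm : Poly f) (i : Fin n) (hm' : Poly (pd i f)) :
    ex U (pd i f) = ex U fun x => f x * pd i U x := hU.ibp hf hm i hm'

lemma hasDerivAt_slope (x v : Fin n → ℝ) (t : ℝ) :
    HasDerivAt (fun t : ℝ => dot v (gr U (x + t • v))) (v ⬝ᵥ (hs U (x + t • v) *ᵥ v)) t := by
  have h : HasDerivAt (fun t : ℝ => dot v (gr U (x + t • v)))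
      (∑ j, v j * dot v (gr (pd j U) (x + t • v))) t :=
    HasDerivAt.fun_sum fun j _ => (hasDerivAt_comp_line (hU.diff_gr j) x v t).const_mul (v j)
  refine h.congr_deriv ?_
  rw [dotProduct_mulVec_hs, Finset.sum_comm]
  simp only [dot, gr, Finset.mul_sum]
  exact Finset.sum_congr rfl fun j _ => Finset.sum_congr rfl fun i _ => by ring

lemma monotone_gr (x v : Fin n → ℝ) :
    a * sumSq v ≤ dot v (gr U (x + v)) - dot v (gr U x) ∧
      dot v (gr U (x + v)) - dot v (gr U x) ≤ b * sumSq v := by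
  obtain ⟨c, -, hc⟩ := exists_hasDerivAt_eq_slope _ (fun t => v ⬝ᵥ (hs U (x + t • v) *ᵥ v))
    zero_lt_one (fun t _ => (hU.hasDerivAt_slope x v t).continuousAt.continuousWithinAt)
    fun t _ => hU.hasDerivAt_slope x v t
  simp only [sub_zero, div_one, one_smul, zero_smul, add_zero] at hc
  rw [← hc]
  exact ⟨hU.lower _ _, hU.upper _ _⟩

/-- Second order Taylor bounds. -/
lemma taylor (x v : Fin n → ℝ) :
    U x + dot v (gr U x) + a / 2 * sumSq v ≤ U (x + v) ∧
      U (x + v) ≤ U x + dot v (gr U x) + b / 2 * sumSq v := by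
  have key : ∀ r : ℝ, ∃ c ∈ Ioo (0:ℝ) 1, dot v (gr U (x + c • v)) - dot v (gr U x) - r * c * sumSq v
      = U (x + v) - U x - dot v (gr U x) - r / 2 * sumSq v := fun r => by
    have hd : ∀ t : ℝ,
        HasDerivAt (fun t : ℝ => U (x + t • v) - t * dot v (gr U x) - r / 2 * t ^ 2 * sumSq v)
          (dot v (gr U (x + t • v)) - dot v (gr U x) - r * t * sumSq v) t := fun t => by
      have := (hasDerivAt_comp_line hU.diff x v t).fun_sub ((hasDerivAt_id t).mul_const
        (dot v (gr U x))) |>.fun_sub (((hasDerivAt_pow 2 t).const_mul (r / 2)).mul_const (sumSq v))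
      simp only [id_eq] at this
      refine this.congr_deriv ?_
      simp only [dot, gr]
      push_cast
      ring
    obtain ⟨c, hc, e⟩ := exists_hasDerivAt_eq_slope _ _ zero_lt_one
      (fun t _ => (hd t).continuousAt.continuousWithinAt) fun t _ => hd t
    refine ⟨c, hc, e.trans ?_⟩
    simp
    ring
  have aux : ∀ c : ℝ, 0 < c → a * c * sumSq v ≤ dot v (gr U (x + c • v)) - dot v (gr U x) ∧
      dot v (gr U (x + c • v)) - dot v (gr U x) ≤ b * c * sumSq v := fun c hc => by
    have h := hU.monotone_gr x (c • v)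
    have e : ∀ w, dot (c • v) w = c * dot v w := fun w => by simp [dot, Finset.mul_sum, mul_assoc]
    have e2 : sumSq (c • v) = c ^ 2 * sumSq v := by simp [sumSq, Finset.mul_sum, mul_pow]
    rw [e, e, e2, ← mul_sub] at h
    exact ⟨le_of_mul_le_mul_left (le_trans (le_of_eq (by ring)) h.1) hc,
      le_of_mul_le_mul_left (h.2.trans (le_of_eq (by ring))) hc⟩
  obtain ⟨c, hc, e⟩ := key a
  obtain ⟨d, hd, e'⟩ := key b
  exact ⟨by linarith [(aux c hc.1).1], by linarith [(aux d hd.1).2]⟩

lemma poly : Poly U := by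
  have hd : Poly fun x => dot x (gr U 0) := (Poly.dot_left (gr U 0)).congr fun x => P245.dot_comm _ _
  refine (((Poly.const |U 0|).add hd.abs).add (Poly.sumSq'.const_mul b)).of_le
    hU.smooth.continuous fun x => ?_
  obtain ⟨h1, h2⟩ := hU.taylor 0 x
  rw [zero_add] at h1 h2
  refine le_trans ?_ (le_abs_self _)
  have := mul_nonneg hU.a_pos.le (sumSq_nonneg x)
  have := mul_nonneg hU.b_pos.le (sumSq_nonneg x)
  have h3 := le_abs_self (dot x (gr U 0))
  have h4 := neg_le_abs (dot x (gr U 0))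
  have h5 := le_abs_self (U 0)
  have h6 := neg_le_abs (U 0)
  exact abs_le.2 ⟨by linarith, by linarith⟩

/-- There is a critical point. -/
lemma exists_crit : ∃ x₀, gr U x₀ = 0 := by
  obtain ⟨c, C, hc, hl⟩ := hU.grow.lower
  have h : Tendsto U (cocompact (Fin n → ℝ)) atTop := by
    refine tendsto_atTop_mono (f := fun x : Fin n → ℝ => c * ‖x‖ + (-(c + C))) (fun x => ?_)
      (tendsto_atTop_add_const_right _ _
        (Tendsto.const_mul_atTop hc (tendsto_norm_cocompact_atTop (E := Fin n → ℝ))))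
    have h1 : ‖x‖ ≤ 1 + sumSq x :=
      (pi_norm_le_iff_of_nonneg (by linarith [sumSq_nonneg x])).2 fun i => by
        rw [Real.norm_eq_abs]
        nlinarith [sq_le_sumSq x i, sq_abs (x i), sq_nonneg (|x i| - 1)]
    nlinarith [hl x, mul_le_mul_of_nonneg_left h1 hc.le]
  obtain ⟨x₀, hx₀⟩ := hU.smooth.continuous.exists_forall_le h
  refine ⟨x₀, funext fun i => ?_⟩
  simp [gr, pd, IsLocalMin.fderiv_eq_zero (show IsLocalMin U x₀ from Eventually.of_forall hx₀)]

lemma sub_dot (θ : Fin n → ℝ) : Bd (fun x => U x - dot θ x) a b := by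
  have hd : Differentiable ℝ fun x : Fin n → ℝ => dot θ x := by unfold dot; fun_prop
  have e : ∀ x, hs (fun x => U x - dot θ x) x = hs U x := fun x => by
    ext i j
    have e1 : pd j (fun x => U x - dot θ x) = fun x => pd j U x - θ j := funext fun y => by
      rw [P245.pd_sub hU.diff hd, pd_dot_left]
    show pd i (pd j fun x => U x - dot θ x) x = pd i (pd j U) x
    rw [e1, P245.pd_sub (hU.diff_gr j) (differentiable_const _)]
    simp [pd]
  exact ⟨hU.smooth.sub (by unfold dot; fun_prop), hU.a_pos, hU.a_le,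
    fun x v => by rw [e]; exact hU.lower x v, fun x v => by rw [e]; exact hU.upper x v⟩

/-- The variance. -/
lemma ex_sumSq_le : a * ex U (fun x => sumSq (x - mn U)) ≤ n := by
  have hG := hU.grow
  set m := mn U with hm
  have hd : ∀ i, Poly fun x : Fin n → ℝ => x i - m i := fun i => (Poly.coord i).sub (Poly.const _)
  have e1 : ∀ i, ex U (fun x => (x i - m i) * (pd i U x - pd i U m)) = 1 := fun i => by
    have e : (fun x => (x i - m i) * (pd i U x - pd i U m))
        = fun x => x i * pd i U x - (m i * pd i U x + pd i U m * (x i - m i)) := by funext x; ring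
    rw [e, hG.ex_sub ((Poly.coord i).mul (hU.poly_pd i))
      (((hU.poly_pd i).const_mul _).add ((hd i).const_mul _)),
      hG.ex_add ((hU.poly_pd i).const_mul _) ((hd i).const_mul _), ex_const_mul, ex_const_mul,
      hU.ex_pd, hG.ex_sub (Poly.coord i) (Poly.const _), hG.ex_const, hU.ex_coord_mul_pd]
    simp [hm, mn]
  rw [← ex_const_mul]
  refine (hG.ex_mono ((Poly.sumSq'.comp_sub m).const_mul a) (Poly.sum Finset.univ fun i _ =>
    (hd i).mul ((hU.poly_pd i).sub (Poly.const (pd i U m)))) fun x => ?_).trans ?_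
  · have h := (hU.monotone_gr m (x - m)).1
    rw [add_sub_cancel] at h
    refine h.trans (le_of_eq ?_)
    simp only [dot, gr, Pi.sub_apply, ← Finset.sum_sub_distrib]
    exact Finset.sum_congr rfl fun i _ => by ring
  · rw [hG.ex_sum _ fun i _ => (hd i).mul ((hU.poly_pd i).sub (Poly.const _))]
    simp [e1]

/-- The fourth moment. -/
lemma ex_sumSq_sq_le : a ^ 2 * ex U (fun x => sumSq (x - mn U) ^ 2) ≤ 16 * (n * (n + 2)) := by
  have hG := hU.grow
  have ha := hU.a_pos
  obtain ⟨c, hc⟩ := hU.exists_crit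
  set r : (Fin n → ℝ) → ℝ := fun x => sumSq (x - c) with hr
  have hrp : Poly r := Poly.sumSq'.comp_sub c
  have hrd : Differentiable ℝ r := differentiable_sumSq.comp (differentiable_id.sub_const c)
  have hd : ∀ i, Poly fun x : Fin n → ℝ => x i - c i := fun i => (Poly.coord i).sub (Poly.const _)
  have hmono : ∀ x, a * r x ≤ ∑ i, (x i - c i) * pd i U x := fun x => by
    have h := (hU.monotone_gr c (x - c)).1
    rw [add_sub_cancel, hc] at h
    simp only [dot, gr, Pi.sub_apply, Pi.zero_apply, mul_zero, Finset.sum_const_zero, sub_zero] at h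
    exact h
  have hdr : ∀ i x, pd i r x = 2 * (x i - c i) := fun i x => by
    rw [hr, pd_comp_sub differentiable_sumSq, pd_sumSq]; rfl
  have h1 : a * ex U r ≤ n := by
    rw [← ex_const_mul]
    refine (hG.ex_mono (hrp.const_mul a) (Poly.sum Finset.univ fun i _ => (hd i).mul (hU.poly_pd i))
      hmono).trans ?_
    rw [hG.ex_sum _ fun i _ => (hd i).mul (hU.poly_pd i)]
    refine le_of_eq ?_
    have : ∀ i, ex U (fun x => (x i - c i) * pd i U x) = 1 := fun i => by
      simp only [sub_mul]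
      rw [hG.ex_sub ((Poly.coord i).mul (hU.poly_pd i)) ((hU.poly_pd i).const_mul _),
        ex_const_mul, hU.ex_pd, hU.ex_coord_mul_pd]
      simp
    simp [this]
  have h2 : a * ex U (fun x => r x ^ 2) ≤ ((n:ℝ) + 2) * ex U r := by
    have hcd : ∀ i, ContDiff ℝ 1 fun x : Fin n → ℝ => (x i - c i) * r x := fun i => by
      simp only [hr, sumSq, Pi.sub_apply]; fun_prop
    have hdd : ∀ i, Differentiable ℝ fun x : Fin n → ℝ => x i - c i :=
      fun i => (differentiable_apply i).sub_const _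
    have hdF : ∀ i, pd i (fun x => (x i - c i) * r x)
        = fun x => r x + 2 * (x i - c i) ^ 2 := fun i => funext fun x => by
      rw [P245.pd_mul (hdd i) hrd, P245.pd_sub (differentiable_apply i) (differentiable_const _),
        pd_proj, hdr]
      simp [pd]; ring
    have hdp : ∀ i, Poly fun x => r x + 2 * (x i - c i) ^ 2 :=
      fun i => hrp.add (((hd i).pow 2).const_mul 2)
    rw [← ex_const_mul, ← ex_const_mul]
    refine (hG.ex_mono ((hrp.pow 2).const_mul a)
      (Poly.sum Finset.univ fun i _ => ((hd i).mul hrp).mul (hU.poly_pd i)) fun x => ?_).trans ?_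
    · calc a * r x ^ 2 = r x * (a * r x) := by ring
        _ ≤ r x * ∑ i, (x i - c i) * pd i U x :=
            mul_le_mul_of_nonneg_left (hmono x) (sumSq_nonneg _)
        _ = _ := by
            rw [Finset.mul_sum]
            exact Finset.sum_congr rfl fun i _ => by ring
    · rw [hG.ex_sum _ fun i _ => ((hd i).mul hrp).mul (hU.poly_pd i),
        Finset.sum_congr rfl fun i _ => (hU.ibp' (hcd i) ((hd i).mul hrp) i
          (by rw [hdF]; exact hdp i)).symm]
      simp only [hdF]
      rw [← hG.ex_sum _ fun i _ => hdp i]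
      refine le_of_eq ?_
      congr 1; funext x
      simp [hr, sumSq, Finset.sum_add_distrib, ← Finset.mul_sum, add_mul]
  set w := sumSq (mn U - c) with hw
  have h3 : w ≤ ex U r := by
    rw [hr]
    simp only [hw, sumSq, Pi.sub_apply]
    rw [hG.ex_sum _ fun i _ => (hd i).pow 2]
    refine Finset.sum_le_sum fun i _ => le_trans (le_of_eq ?_) (hG.sq_ex_le (hd i))
    rw [hG.ex_sub (Poly.coord i) (Poly.const _), hG.ex_const]; rfl
  have h4 : ex U (fun x => sumSq (x - mn U) ^ 2) ≤ 8 * ex U (fun x => r x ^ 2) + 8 * w ^ 2 := by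
    rw [← ex_const_mul, ← hG.ex_const (8 * w ^ 2),
      ← hG.ex_add ((hrp.pow 2).const_mul 8) (Poly.const _)]
    refine hG.ex_mono ((Poly.sumSq'.comp_sub _).pow 2) (((hrp.pow 2).const_mul 8).add (Poly.const _))
      fun x => ?_
    have h5 : sumSq (x - mn U) ≤ 2 * r x + 2 * w := by
      simp only [hr, hw, sumSq, Pi.sub_apply, Finset.mul_sum, ← Finset.sum_add_distrib]
      exact Finset.sum_le_sum fun i _ => by nlinarith [sq_nonneg (x i - c i + (mn U i - c i))]
    nlinarith [pow_le_pow_left₀ (sumSq_nonneg _) h5 2, sq_nonneg (r x - w)]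
  have h6 : ex U r ^ 2 ≤ ex U (fun x => r x ^ 2) := hG.sq_ex_le hrp
  have h7 : a ^ 2 * ex U (fun x => r x ^ 2) ≤ (n:ℝ) * (n + 2) := by
    calc a ^ 2 * ex U (fun x => r x ^ 2) = a * (a * ex U (fun x => r x ^ 2)) := by ring
      _ ≤ a * (((n:ℝ) + 2) * ex U r) := mul_le_mul_of_nonneg_left h2 ha.le
      _ = ((n:ℝ) + 2) * (a * ex U r) := by ring
      _ ≤ ((n:ℝ) + 2) * n := mul_le_mul_of_nonneg_left h1 (by positivity)
      _ = _ := by ring
  have h8 : w ^ 2 ≤ ex U (fun x => r x ^ 2) :=
    (pow_le_pow_left₀ (sumSq_nonneg _) h3 2).trans h6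
  calc a ^ 2 * ex U (fun x => sumSq (x - mn U) ^ 2)
      ≤ a ^ 2 * (16 * ex U (fun x => r x ^ 2)) :=
        mul_le_mul_of_nonneg_left (by linarith) (sq_nonneg a)
    _ ≤ _ := by linarith

lemma cv2_dot (u : Fin n → ℝ) :
    cv2 U (fun x => dot u x) (fun x => dot u x) = u ⬝ᵥ (covm U *ᵥ u) := by
  have hG := hU.grow
  simp only [cv2, dot, dotProduct, mulVec, covm, Finset.mul_sum]
  have e : (fun x : Fin n → ℝ => ∑ j, (∑ i, u i * x i) * (u j * x j))
      = fun x => ∑ i, ∑ j, u i * u j * (x i * x j) := by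
    funext x
    simp only [Finset.sum_mul]
    rw [Finset.sum_comm]
    exact Finset.sum_congr rfl fun i _ => Finset.sum_congr rfl fun j _ => by ring
  have hp : ∀ i j : Fin n, Poly fun x : Fin n → ℝ => u i * u j * (x i * x j) := fun i j =>
    ((Poly.coord i).mul (Poly.coord j)).const_mul _
  rw [e, hG.ex_sum _ fun i _ => Poly.sum _ fun j _ => hp i j,
    hG.ex_sum _ fun i _ => (Poly.coord i).const_mul _]
  simp only [hG.ex_sum Finset.univ fun j _ => hp _ j, ex_const_mul, Finset.sum_mul,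
    ← Finset.sum_sub_distrib]
  refine Finset.sum_congr rfl fun i _ => ?_
  rw [Finset.mul_sum, ← Finset.sum_sub_distrib]
  exact Finset.sum_congr rfl fun j _ => by ring

/-- Cramér–Rao: the covariance is at least `1 / b`. -/
theorem covm_lower (u : Fin n → ℝ) : sumSq u / b ≤ u ⬝ᵥ (covm U *ᵥ u) := by
  have hb := hU.b_pos
  have h := hU.cr_quad ((1 / b) • u) u 0
  have e0 : (fun x => quadTest U 0 x ^ 2) = fun _ => (0:ℝ) := by funext x; simp [quadTest]
  rw [e0, hU.grow.ex_const] at h
  simp at h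
  have h1 : u ⬝ᵥ (mH U *ᵥ u) ≤ b * sumSq u := by
    have hp : ∀ i j, Poly fun x => u i * (hs U x i j * u j) := fun i j =>
      ((hU.poly_hs i j).mul_const _).const_mul _
    calc u ⬝ᵥ (mH U *ᵥ u) = ex U fun x => ∑ i, ∑ j, u i * (hs U x i j * u j) := by
          rw [hU.grow.ex_sum _ fun i _ => Poly.sum _ fun j _ => hp i j]
          simp only [hU.grow.ex_sum Finset.univ fun j _ => hp _ j, ex_const_mul, ex_mul_const,
            dotProduct, mulVec, mH, Finset.mul_sum]
      _ ≤ ex U fun _ => b * sumSq u := hU.grow.ex_mono (Poly.sum _ fun i _ => Poly.sum _ fun j _ =>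
          hp i j) (Poly.const _) fun x => by
            refine le_trans (le_of_eq ?_) (hU.upper x u)
            simp only [dotProduct, mulVec, Finset.mul_sum]
      _ = _ := hU.grow.ex_const _
  have e1 : u ⬝ᵥ u = sumSq u := Finset.sum_congr rfl fun i _ => (sq (u i)).symm
  simp [mulVec_smul, dotProduct_smul, e1] at h
  rw [div_le_iff₀ hb]
  have h2 : b⁻¹ * (b⁻¹ * (u ⬝ᵥ (mH U *ᵥ u))) ≤ b⁻¹ * sumSq u := by
    refine mul_le_mul_of_nonneg_left ?_ (inv_nonneg.2 hb.le)
    rw [inv_mul_le_iff₀ hb]; exact h1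
  have h3 : b⁻¹ * sumSq u ≤ u ⬝ᵥ (covm U *ᵥ u) := by linarith
  rw [inv_mul_le_iff₀ hb] at h3
  linarith

/-- Poincaré: the covariance is at most `1 / a`. -/
theorem covm_upper (u : Fin n → ℝ) : u ⬝ᵥ (covm U *ᵥ u) ≤ sumSq u / a := by
  have hc : ContDiff ℝ 1 fun x : Fin n → ℝ => dot u x := by unfold dot; fun_prop
  have e : ∀ i, pd i (fun x => dot u x) = fun _ => u i := fun i => funext (pd_dot_left u i)
  have h := hU.poincare hc (Poly.dot_left u) fun i => by rw [e i]; exact Poly.const _
  rw [hU.cv2_dot] at h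
  refine h.trans (le_of_eq ?_)
  have e2 : (fun x => sumSq (gr (fun x => dot u x) x)) = fun _ => sumSq u := by
    funext x; simp [sumSq, gr, e]
  rw [e2, hU.grow.ex_const]
  ring

end Bd

end Vale.Agent.P254M
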