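import Vale.Agent.P254M.Setup
import Vale.Agent.P254M.FrameMat

/-!
The pointwise inequality for the regularised moment map: statement.
-/

namespace Vale.Agent.P254M

open MeasureTheory Set Filter Topology Finset Matrix
open Vale.Agent.P245 hiding cv
open scoped ContDiff

namespace Setup

variable {n : ℕ} (P : Setup n)

/-- `G` averaged given `y`. -/
noncomputable def Gy (y : Fin n → ℝ) : Ten n :=
  fun i j l => ex (P.cx y) fun x => P.G x i j l

end Setup

/-- The pointwise inequality: the sharpened form of `Y ≤ (1 + 1/k) E[Yb | y]`, traced against `Y`,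
with the gains from both affine test fields and the curvature `diag s`. -/
def Pointwise : Prop :=
  ∀ (n : ℕ) (a b M : ℝ) (s : Fin n → ℝ), (∀ i, 0 ≤ s i) → ∃ K : ℝ, 0 ≤ K ∧
    ∀ P : Setup n, P.a = a → P.b = b →
      (∀ x v, ∑ i, s i * v i ^ 2 ≤ v ⬝ᵥ (hs P.U x *ᵥ v)) →
      ∀ W : Ten n, (∀ p q r, |W p q r| ≤ M) → ∀ y,
        ∑ i, ∑ l, P.Y y i l * P.Y y i l
          ≤ (1 + 1 / P.k) * ∑ i, ∑ l, P.Y y i l * ex (P.cx y) (fun x => P.Yb x i l)
            - 1 / P.k * ∑ i, ∑ l, P.Y y i l *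
                ex (P.cx y) (fun x => ∑ j, s j * (P.Yb x i j * P.Yb x j l))
            - 2 / P.k * gainFun (P.Y y) W (P.Gy y)
            + K / P.k * (Real.sqrt P.k * (ex (P.cx y) P.dx + P.dy y) + 1 / Real.sqrt P.k)

end Vale.Agent.P254M
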