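import Vale.Agent.P254M.Moments
import Vale.Agent.P254M.PointwiseDef

/-!
From the pointwise inequality to the sharp third-moment bound: integrate against the moment map
law and let the regularisation parameter tend to infinity.
-/

namespace Vale.Agent.P254M

open MeasureTheory Set Filter Topology Finset Matrix
open Vale.Agent.P245 (pd dot sumSq sumSq_nonneg sq_le_sumSq)
open scoped ContDiff

variable {n : ℕ}

lemma gainFun_eq (Y : Matrix (Fin n) (Fin n) ℝ) (W G : Ten n) :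
    gainFun Y W G = (∑ p, ∑ q, ∑ r, W p q r * G p q r)
      - (∑ p, ∑ q, ∑ r, ∑ t, W p q r * W p q t * Y t r) / 2 := by
  simp only [gainFun, pr, tc, s1, s2, s3, one_apply, ite_mul, one_mul, zero_mul, sum_ite_eq',
    Finset.mem_univ, if_true]
  simp only [mul_sum]
  congr 2
  exact sum_congr rfl fun p _ => sum_congr rfl fun q _ => sum_congr rfl fun r _ =>
    sum_congr rfl fun t _ => by ring

lemma gainFun_diag (e : Fin n → ℝ) (W G : Ten n) :
    gainFun (diagonal e) W G = (∑ p, ∑ q, ∑ r, W p q r * G p q r)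
      - (∑ p, ∑ q, ∑ r, W p q r ^ 2 * e r) / 2 := by
  rw [gainFun_eq]
  simp [diagonal_apply, sq]

namespace Setup

variable (P : Setup n)

/-- The average of `Yb s Yb` given `y`. -/
noncomputable def MS (s : Fin n → ℝ) (y : Fin n → ℝ) (i l : Fin n) : ℝ :=
  ex (P.cx y) fun x => ∑ j, s j * (P.Yb x i j * P.Yb x j l)

lemma poly_S (s : Fin n → ℝ) (i l : Fin n) :
    Poly fun x => ∑ j, s j * (P.Yb x i j * P.Yb x j l) :=
  Poly.sum _ fun j _ => ((P.poly_Yb i j).mul (P.poly_Yb j l)).const_mul _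

lemma poly_MS (s : Fin n → ℝ) (i l : Fin n) : Poly fun y => P.MS s y i l := by
  refine P.poly_ex_cx (P.poly_S s i l).1 (B := ∑ j, |s j| * (1 / P.a * (1 / P.a))) fun x => ?_
  refine (Finset.abs_sum_le_sum_abs _ _).trans (sum_le_sum fun j _ => ?_)
  rw [abs_mul, abs_mul]
  exact mul_le_mul_of_nonneg_left (mul_le_mul (P.abs_Yb_le x i j) (P.abs_Yb_le x j l) (abs_nonneg _)
    (by have := P.hU.a_pos; positivity)) (abs_nonneg _)

lemma poly_Gy (i j l : Fin n) : Poly fun y => P.Gy y i j l :=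
  P.poly_ex_cx (P.continuous_G i j l) fun x => P.abs_G_le x i j l

lemma poly_gain (W : Ten n) : Poly fun y => gainFun (P.Y y) W (P.Gy y) := by
  simp only [gainFun_eq]
  have h1 : Poly fun y => ∑ p, ∑ q, ∑ r, W p q r * P.Gy y p q r :=
    Poly.sum _ fun p _ => Poly.sum _ fun q _ => Poly.sum _ fun r _ => (P.poly_Gy p q r).const_mul _
  have h2 : Poly fun y => ∑ p, ∑ q, ∑ r, ∑ t, W p q r * W p q t * P.Y y t r :=
    Poly.sum _ fun p _ => Poly.sum _ fun q _ => Poly.sum _ fun r _ => Poly.sum _ fun t _ =>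
      (P.poly_Y t r).const_mul _
  exact (h1.sub (h2.mul_const (1 / 2))).congr fun y => by ring

lemma ex_gain (W : Ten n) :
    ex P.ψ (fun y => gainFun (P.Y y) W (P.Gy y)) = gainFun (mH P.ψ) W (skew P.ψ) := by
  simp only [gainFun_eq]
  have hG := P.grow_ψ
  have g1 : ∀ p q r, Poly fun y => W p q r * P.Gy y p q r := fun p q r =>
    (P.poly_Gy p q r).const_mul _
  have g2 : ∀ p q r t, Poly fun y => W p q r * W p q t * P.Y y t r := fun p q r t =>
    (P.poly_Y t r).const_mul _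
  have h1 : Poly fun y => ∑ p, ∑ q, ∑ r, W p q r * P.Gy y p q r :=
    Poly.sum _ fun p _ => Poly.sum _ fun q _ => Poly.sum _ fun r _ => g1 p q r
  have h2 : Poly fun y => ∑ p, ∑ q, ∑ r, ∑ t, W p q r * W p q t * P.Y y t r :=
    Poly.sum _ fun p _ => Poly.sum _ fun q _ => Poly.sum _ fun r _ => Poly.sum _ fun t _ => g2 p q r t
  rw [show (fun y => (∑ p, ∑ q, ∑ r, W p q r * P.Gy y p q r)
      - (∑ p, ∑ q, ∑ r, ∑ t, W p q r * W p q t * P.Y y t r) / 2)
    = fun y => (∑ p, ∑ q, ∑ r, W p q r * P.Gy y p q r)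
      - (1 / 2) * ∑ p, ∑ q, ∑ r, ∑ t, W p q r * W p q t * P.Y y t r from
    funext fun y => by ring, hG.ex_sub h1 (h2.const_mul _), ex_const_mul]
  have e1 : ex P.ψ (fun y => ∑ p, ∑ q, ∑ r, W p q r * P.Gy y p q r)
      = ∑ p, ∑ q, ∑ r, W p q r * skew P.ψ p q r := by
    rw [hG.ex_sum _ fun p _ => Poly.sum _ fun q _ => Poly.sum _ fun r _ => g1 p q r]
    refine sum_congr rfl fun p _ => ?_
    rw [hG.ex_sum _ fun q _ => Poly.sum _ fun r _ => g1 p q r]
    refine sum_congr rfl fun q _ => ?_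
    rw [hG.ex_sum _ fun r _ => g1 p q r]
    refine sum_congr rfl fun r _ => ?_
    rw [ex_const_mul, ← P.ex_G, P.ex_swap_left (P.poly_G p q r)]
    rfl
  have e2 : ex P.ψ (fun y => ∑ p, ∑ q, ∑ r, ∑ t, W p q r * W p q t * P.Y y t r)
      = ∑ p, ∑ q, ∑ r, ∑ t, W p q r * W p q t * mH P.ψ t r := by
    rw [hG.ex_sum _ fun p _ => Poly.sum _ fun q _ => Poly.sum _ fun r _ => Poly.sum _ fun t _ =>
      g2 p q r t]
    refine sum_congr rfl fun p _ => ?_
    rw [hG.ex_sum _ fun q _ => Poly.sum _ fun r _ => Poly.sum _ fun t _ => g2 p q r t]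
    refine sum_congr rfl fun q _ => ?_
    rw [hG.ex_sum _ fun r _ => Poly.sum _ fun t _ => g2 p q r t]
    refine sum_congr rfl fun r _ => ?_
    rw [hG.ex_sum _ fun t _ => g2 p q r t]
    exact sum_congr rfl fun t _ => by rw [ex_const_mul, P.mH_psi]
  rw [e1, e2]
  ring

lemma Yb_symm (x : Fin n → ℝ) (i j : Fin n) : P.Yb x i j = P.Yb x j i := by
  simp only [Yb, Y, hs_symm P.hψ.smooth]

lemma Yb_psd (x w : Fin n → ℝ) : 0 ≤ ∑ i, ∑ m, w i * w m * P.Yb x i m := by
  have hG := P.grow_cy x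
  have hp : ∀ i m, Poly fun y => w i * w m * P.Y y i m := fun i m => (P.poly_Y i m).const_mul _
  have e : ∑ i, ∑ m, w i * w m * P.Yb x i m
      = ex (P.cy x) fun y => ∑ i, ∑ m, w i * w m * P.Y y i m := by
    rw [hG.ex_sum _ fun i _ => Poly.sum _ fun m _ => hp i m]
    refine sum_congr rfl fun i _ => ?_
    rw [hG.ex_sum _ fun m _ => hp i m]
    exact sum_congr rfl fun m _ => (ex_const_mul _ _ _).symm
  rw [e]
  refine ex_nonneg _ fun y => ?_
  have h := P.hψ.lower y w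
  rw [dotProduct_mulVec_hs] at h
  exact le_trans (mul_nonneg P.hψ.a_pos.le (sumSq_nonneg w)) h

/-- Linearisation of the cubic term. -/
lemma cubic_ge (x : Fin n → ℝ) (j : Fin n) (t : ℝ) :
    2 * t * (∑ i, P.Yb x i j ^ 2) - t ^ 2 * P.Yb x j j
      ≤ ∑ i, ∑ m, P.Yb x i m * (P.Yb x i j * P.Yb x j m) := by
  have h := P.Yb_psd x fun i => P.Yb x i j - if i = j then t else 0
  simp only [sub_mul, mul_sub, sum_sub_distrib, ite_mul, mul_ite, zero_mul, mul_zero,
    sum_ite_eq', Finset.mem_univ, if_true, sum_ite_irrel, Finset.sum_const_zero] at h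
  have e1 : ∑ i, ∑ m, P.Yb x i j * P.Yb x m j * P.Yb x i m
      = ∑ i, ∑ m, P.Yb x i m * (P.Yb x i j * P.Yb x j m) :=
    sum_congr rfl fun i _ => sum_congr rfl fun m _ => by rw [P.Yb_symm x m j]; ring
  have e2 : ∑ m, t * P.Yb x m j * P.Yb x j m = t * ∑ i, P.Yb x i j ^ 2 := by
    rw [mul_sum]; exact sum_congr rfl fun m _ => by rw [P.Yb_symm x j m]; ring
  have e3 : ∑ i, P.Yb x i j * t * P.Yb x i j = t * ∑ i, P.Yb x i j ^ 2 := by
    rw [mul_sum]; exact sum_congr rfl fun m _ => by ring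
  linarith

/-- The integrated pointwise inequality. -/
lemma main (s l : Fin n → ℝ) (hs : ∀ i, 0 ≤ s i) (W : Ten n) (K : ℝ)
    (hP : ∀ y, ∑ i, ∑ l, P.Y y i l * P.Y y i l
        ≤ (1 + 1 / P.k) * ∑ i, ∑ l, P.Y y i l * ex (P.cx y) (fun x => P.Yb x i l)
          - 1 / P.k * ∑ i, ∑ l, P.Y y i l *
              ex (P.cx y) (fun x => ∑ j, s j * (P.Yb x i j * P.Yb x j l))
          - 2 / P.k * gainFun (P.Y y) W (P.Gy y)
          + K / P.k * (Real.sqrt P.k * (ex (P.cx y) P.dx + P.dy y) + 1 / Real.sqrt P.k)) :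
    P.k * P.Dv + 2 * gainFun (mH P.ψ) W (skew P.ψ)
        + ∑ j, s j * (2 * l j * (∑ i, ex P.U fun x => P.Yb x i j ^ 2) - l j ^ 2 * mH P.ψ j j)
      ≤ (∑ i, ∑ j, ex P.U fun x => P.Yb x i j ^ 2)
        + K * (2 * Real.sqrt P.k * P.Dv + 1 / Real.sqrt P.k) := by
  have hk := P.k_pos
  have hG := P.grow_ψ
  set A := fun y => ∑ i, ∑ l, P.Y y i l * P.Y y i l with hA
  set B := fun y => ∑ i, ∑ l, P.Y y i l * ex (P.cx y) (fun x => P.Yb x i l) with hB
  set S := fun y => ∑ i, ∑ l, P.Y y i l * P.MS s y i l with hS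
  set Q := fun y => gainFun (P.Y y) W (P.Gy y) with hQ
  set E := fun y => ex (P.cx y) P.dx + P.dy y with hE
  have pA : Poly A := Poly.sum _ fun i _ => Poly.sum _ fun l _ => (P.poly_Y i l).mul (P.poly_Y i l)
  have pB : Poly B := Poly.sum _ fun i _ => Poly.sum _ fun l _ => (P.poly_Y i l).mul (P.poly_MY i l)
  have pS : Poly S := Poly.sum _ fun i _ => Poly.sum _ fun l _ => (P.poly_Y i l).mul (P.poly_MS s i l)
  have pQ : Poly Q := P.poly_gain W
  have pE : Poly E := P.poly_Mdx.add P.poly_dy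
  have h0 : ex P.ψ (fun y => P.k * A y)
      ≤ ex P.ψ fun y => (P.k + 1) * B y - S y - 2 * Q y
        + K * (Real.sqrt P.k * E y + 1 / Real.sqrt P.k) := by
    refine hG.ex_mono (pA.const_mul _) ((((pB.const_mul _).sub pS).sub (pQ.const_mul _)).add
      (((pE.const_mul _).add (Poly.const _)).const_mul K)) fun y => ?_
    refine (mul_le_mul_of_nonneg_left (hP y) hk.le).trans (le_of_eq ?_)
    simp only [B, S, Q, E, MS]
    field_simp
  rw [ex_const_mul, hG.ex_add (((pB.const_mul _).sub pS).sub (pQ.const_mul _))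
      (((pE.const_mul _).add (Poly.const _)).const_mul K),
    hG.ex_sub ((pB.const_mul _).sub pS) (pQ.const_mul _), hG.ex_sub (pB.const_mul _) pS,
    ex_const_mul, ex_const_mul, ex_const_mul, hG.ex_add (pE.const_mul _) (Poly.const _),
    ex_const_mul, hG.ex_const] at h0
  have vA : ex P.ψ A = P.Dv + ∑ i, ∑ j, ex P.U fun x => P.Yb x i j ^ 2 := by
    simp only [Dv, Dij, hA, sum_sub_distrib, sub_add_cancel]
    rw [hG.ex_sum _ fun i _ => Poly.sum _ fun l _ => (P.poly_Y i l).mul (P.poly_Y i l)]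
    refine sum_congr rfl fun i _ => ?_
    rw [hG.ex_sum _ fun l _ => (P.poly_Y i l).mul (P.poly_Y i l)]
    simp only [sq]
  have vB : ex P.ψ B = ∑ i, ∑ j, ex P.U fun x => P.Yb x i j ^ 2 := by
    simp only [hB]
    rw [hG.ex_sum _ fun i _ => Poly.sum _ fun l _ => (P.poly_Y i l).mul (P.poly_MY i l)]
    refine sum_congr rfl fun i _ => ?_
    rw [hG.ex_sum _ fun l _ => (P.poly_Y i l).mul (P.poly_MY i l)]
    exact sum_congr rfl fun j _ => P.ex_Y_mul_MY i j
  have vE : ex P.ψ E = 2 * P.Dv := by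
    rw [hE, hG.ex_add P.poly_Mdx P.poly_dy, P.ex_Mdx, P.ex_dy]; ring
  have pT : ∀ i m, Poly fun x => P.Yb x i m * ∑ j, s j * (P.Yb x i j * P.Yb x j m) := fun i m =>
    (P.poly_Yb i m).mul (P.poly_S s i m)
  have vS : ex P.ψ S
      = ex P.U fun x => ∑ i, ∑ m, P.Yb x i m * ∑ j, s j * (P.Yb x i j * P.Yb x j m) := by
    simp only [hS]
    rw [hG.ex_sum _ fun i _ => Poly.sum _ fun l _ => (P.poly_Y i l).mul (P.poly_MS s i l),
      P.grow_U.ex_sum _ fun i _ => Poly.sum _ fun m _ => pT i m]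
    refine sum_congr rfl fun i _ => ?_
    rw [hG.ex_sum _ fun l _ => (P.poly_Y i l).mul (P.poly_MS s i l),
      P.grow_U.ex_sum _ fun m _ => pT i m]
    refine sum_congr rfl fun m _ => ?_
    show ex P.ψ (fun y => P.Y y i m * ex (P.cx y) fun x => _) = _
    rw [← P.swap (P.poly_S s i m) (P.poly_Y i m)]
    congr 1; funext x
    show _ * P.Yb x i m = _
    ring
  have hcube : (∑ j, s j * (2 * l j * (∑ i, ex P.U fun x => P.Yb x i j ^ 2) - l j ^ 2 * mH P.ψ j j))
      ≤ ex P.ψ S := by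
    rw [vS]
    have q1 : ∀ j, Poly fun x => ∑ i, P.Yb x i j ^ 2 := fun j =>
      Poly.sum _ fun i _ => (P.poly_Yb i j).pow 2
    have q2 : ∀ j, Poly fun x => s j * (2 * l j * (∑ i, P.Yb x i j ^ 2) - l j ^ 2 * P.Yb x j j) :=
      fun j => (((q1 j).const_mul _).sub ((P.poly_Yb j j).const_mul _)).const_mul _
    refine le_trans (le_of_eq ?_) (P.grow_U.ex_mono (Poly.sum Finset.univ fun j _ => q2 j)
      (Poly.sum Finset.univ fun i _ => Poly.sum Finset.univ fun m _ => pT i m) fun x => ?_)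
    · rw [P.grow_U.ex_sum _ fun j _ => q2 j]
      refine sum_congr rfl fun j _ => ?_
      rw [ex_const_mul, P.grow_U.ex_sub ((q1 j).const_mul _) ((P.poly_Yb j j).const_mul _),
        ex_const_mul, ex_const_mul, P.grow_U.ex_sum _ fun i _ => (P.poly_Yb i j).pow 2, P.ex_Yb]
    · refine (sum_le_sum fun j _ => mul_le_mul_of_nonneg_left (P.cubic_ge x j (l j)) (hs j)).trans
        (le_of_eq ?_)
      simp only [mul_sum]
      rw [sum_comm]
      refine sum_congr rfl fun i _ => ?_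
      rw [sum_comm]
      exact sum_congr rfl fun m _ => sum_congr rfl fun j _ => by ring
  have vQ : ex P.ψ Q = gainFun (mH P.ψ) W (skew P.ψ) := P.ex_gain W
  rw [vA, vB, vE, vQ] at h0
  linarith

lemma sum_Yb_sq_le :
    ∑ i, ∑ j, (ex P.U fun x => P.Yb x i j ^ 2) ≤ (n : ℝ) ^ 2 / P.a ^ 2 := by
  refine (sum_le_sum fun i _ => sum_le_sum fun j _ => (P.grow_U.ex_mono ((P.poly_Yb i j).pow 2)
    (Poly.const _) fun x => P.Yb_sq_le x i j).trans (le_of_eq (P.grow_U.ex_const _))).trans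
    (le_of_eq ?_)
  simp; ring

/-- The inequality at a fixed parameter, in terms of moments of the moment map potential. -/
lemma final (s l e : Fin n → ℝ) (hs : ∀ i, 0 ≤ s i) (hl : ∀ i, 0 ≤ l i)
    (hd : mH P.ψ = diagonal e) (he : ∀ i, 0 < e i) (W : Ten n) (K : ℝ)
    (hP : ∀ y, ∑ i, ∑ l, P.Y y i l * P.Y y i l
        ≤ (1 + 1 / P.k) * ∑ i, ∑ l, P.Y y i l * ex (P.cx y) (fun x => P.Yb x i l)
          - 1 / P.k * ∑ i, ∑ l, P.Y y i l *
              ex (P.cx y) (fun x => ∑ j, s j * (P.Yb x i j * P.Yb x j l))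
          - 2 / P.k * gainFun (P.Y y) W (P.Gy y)
          + K / P.k * (Real.sqrt P.k * (ex (P.cx y) P.dx + P.dy y) + 1 / Real.sqrt P.k)) :
    2 * ((∑ p, ∑ q, ∑ r, W p q r * skew P.ψ p q r) - (∑ p, ∑ q, ∑ r, W p q r ^ 2 * e r) / 2)
        + ∑ j, s j * (2 * l j * (e j ^ 2 + (∑ i, ∑ p, skew P.ψ p i j ^ 2 / e p) - P.Dv)
            - l j ^ 2 * e j)
      ≤ (∑ i, e i ^ 2) + P.Dv + K * (2 * Real.sqrt P.k * P.Dv + 1 / Real.sqrt P.k) := by
  have h := P.main s l hs W K hP
  rw [hd, gainFun_diag] at h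
  simp only [diagonal_apply_eq] at h
  set B := fun i j => ex P.U fun x => P.Yb x i j ^ 2 with hB
  set A := fun i j => ex P.ψ fun y => P.Y y i j ^ 2 with hA
  have hDA : ∀ i j, P.Dij i j = A i j - B i j := fun i j => rfl
  have hsum : ∀ j, (∑ i, mH P.ψ i j ^ 2) = e j ^ 2 := fun j => by simp [hd, diagonal_apply]
  have h1 : ∑ i, ∑ j, B i j ≤ (∑ i, e i ^ 2) + (P.k + 1) * P.Dv := by
    have e1 : ∑ i, ∑ j, mH P.ψ i j ^ 2 = ∑ j, e j ^ 2 := by
      rw [sum_comm]; exact sum_congr rfl fun j _ => hsum j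
    have h0 : ∑ i, ∑ j, (A i j - mH P.ψ i j ^ 2) ≤ ∑ i, ∑ j, (P.k + 2) * P.Dij i j :=
      sum_le_sum fun i _ => sum_le_sum fun j _ => P.var_Y_le i j
    simp only [sum_sub_distrib, ← mul_sum, e1] at h0
    have e2 : P.Dv = (∑ i, ∑ j, A i j) - ∑ i, ∑ j, B i j := by
      simp only [Dv, hDA, sum_sub_distrib]
    rw [show ∑ i, ∑ j, P.Dij i j = P.Dv from rfl] at h0
    linarith
  have h2 : ∀ j, e j ^ 2 + (∑ i, ∑ p, skew P.ψ p i j ^ 2 / e p) - P.Dv ≤ ∑ i, B i j := by
    intro j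
    have hcol : ∑ i, P.Dij i j ≤ P.Dv := sum_le_sum fun i _ =>
      single_le_sum (f := fun j => P.Dij i j) (fun _ _ => P.Dij_nonneg _ _) (Finset.mem_univ j)
    have hb : ∑ i, (mH P.ψ i j ^ 2 + ∑ p, skew P.ψ p i j ^ 2 / e p) ≤ ∑ i, A i j :=
      sum_le_sum fun i _ => P.bessel hd he i j
    simp only [sum_add_distrib, hsum] at hb
    simp only [hDA, sum_sub_distrib] at hcol
    linarith
  have h3 : ∑ j, s j * (2 * l j * (e j ^ 2 + (∑ i, ∑ p, skew P.ψ p i j ^ 2 / e p) - P.Dv)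
      - l j ^ 2 * e j) ≤ ∑ j, s j * (2 * l j * (∑ i, B i j) - l j ^ 2 * e j) :=
    sum_le_sum fun j _ => mul_le_mul_of_nonneg_left (sub_le_sub_right
      (mul_le_mul_of_nonneg_left (h2 j) (by have := hl j; positivity)) _) (hs j)
  linarith

end Setup

lemma Bd.add_const {U : (Fin n → ℝ) → ℝ} {a b : ℝ} (h : Bd U a b) (r : ℝ) :
    Bd (fun x => U x + r) a b := by
  have e : ∀ x, hs (fun x => U x + r) x = hs U x := fun x => by
    ext i j
    show pd i (pd j fun x => U x + r) x = pd i (pd j U) x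
    congr 1; funext y; simp [pd, fderiv_add_const]
  exact ⟨h.smooth.add contDiff_const, h.a_pos, h.a_le, fun x v => by rw [e]; exact h.lower x v,
    fun x v => by rw [e]; exact h.upper x v⟩

lemma hs_add_const {U : (Fin n → ℝ) → ℝ} (r : ℝ) (x : Fin n → ℝ) :
    hs (fun x => U x + r) x = hs U x := by
  ext i j
  show pd i (pd j fun x => U x + r) x = pd i (pd j U) x
  congr 1; funext y; simp [pd, fderiv_add_const]

/-- The sharp third-moment bound, from existence and the pointwise inequality. -/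
theorem skewMoment_of (h1 : Existence) (h2 : Pointwise) : SkewMoment := by
  intro n U₀ a b c s l hU₀ hm₀ hc₀ hc hs0 hl hcurv₀
  set r := Real.log (Zp U₀) with hr
  set U := fun x => U₀ x + r with hUdef
  have hU : Bd U a b := hU₀.add_const r
  have hmass : Zp U = 1 := by
    rw [hUdef, Zp_add_const, Real.exp_neg, hr, Real.exp_log hU₀.grow.Zp_pos,
      inv_mul_cancel₀ hU₀.grow.Zp_pos.ne']
  have hmn : mn U = mn U₀ := funext fun i => ex_add_const U₀ _ r
  have hm : mn U = 0 := hmn.trans hm₀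
  have hcov : covm U = diagonal c := by
    rw [← hc₀]; funext i j
    simp only [covm, cv2, hUdef, ex_add_const]
  have htens : tens U₀ = tens U := by
    funext i j k
    simp only [tens, hmn]
    exact (ex_add_const U₀ _ r).symm
  have hcurv : ∀ x v, ∑ i, s i * v i ^ 2 ≤ v ⬝ᵥ (hs U x *ᵥ v) := fun x v => by
    rw [hUdef, hs_add_const]; exact hcurv₀ x v
  rw [htens]
  set T := tens U with hTdef
  -- the test tensor
  set W : Ten n := fun p q r => T p q r / (2 * c r) with hW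
  set M := ∑ p, ∑ q, ∑ r, |W p q r| with hM
  have hM' : ∀ p q r, |W p q r| ≤ M := fun p q r =>
    (single_le_sum (f := fun r => |W p q r|) (fun _ _ => abs_nonneg _) (Finset.mem_univ r)).trans
      ((single_le_sum (f := fun q => ∑ r, |W p q r|) (fun _ _ => sum_nonneg fun _ _ => abs_nonneg _)
        (Finset.mem_univ q)).trans
        (single_le_sum (f := fun p => ∑ q, ∑ r, |W p q r|)
          (fun _ _ => sum_nonneg fun _ _ => sum_nonneg fun _ _ => abs_nonneg _) (Finset.mem_univ p)))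
  obtain ⟨K₀, hK₀, hP₀⟩ := h2 n a b 0 0 fun _ => le_rfl
  obtain ⟨K, hK, hP⟩ := h2 n a b M s hs0
  -- the couplings
  set k : ℕ → ℝ := fun m => (m : ℝ) + 1 with hkdef
  have hk1 : ∀ m, 1 ≤ k m := fun m => by simp [hkdef]
  have hk0 : ∀ m, 0 < k m := fun m => zero_lt_one.trans_le (hk1 m)
  have hex : ∀ m, ∃ ψ, Bd ψ (k m / ((k m + 1) * b)) (k m / ((k m + 1) * a)) ∧ Balanced (k m) U ψ :=
    fun m => h1 n U a b (k m) hU hmass hm (hk0 m)
  choose ψ hψ hbal using hex
  set P : ℕ → Setup n := fun m => ⟨U, ψ m, a, b, k m, hU, hk1 m, hψ m, hmass, hm, hbal m⟩ with hPdef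
  set q := fun m => k m / (k m + 1) with hq
  set e := fun m i => q m * c i with he
  have he0 : ∀ m i, 0 < e m i := fun m i =>
    mul_pos (div_pos (hk0 m) (by linarith [hk0 m])) (hc i)
  have hd : ∀ m, mH (ψ m) = diagonal (e m) := by
    intro m; funext i j
    have h : covm U i j = (1 / k m + 1) * mH (ψ m) i j := (P m).covm_eq i j
    rw [hcov] at h
    have := (hk0 m).ne'
    have h' : (1 / k m + 1) ≠ 0 := by have := hk0 m; positivity
    have hk2 : k m + 1 ≠ 0 := by linarith [hk0 m]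
    simp only [diagonal_apply] at h ⊢
    split_ifs at h ⊢ with hij
    · simp only [he, hq]; rw [h]; field_simp; ring
    · exact (mul_eq_zero.1 h.symm).resolve_left h'
  set D := fun m => (P m).Dv with hD
  set L := fun m => 2 * ((∑ p, ∑ q, ∑ r, W p q r * skew (ψ m) p q r)
        - (∑ p, ∑ q, ∑ r, W p q r ^ 2 * e m r) / 2)
        + ∑ j, s j * (2 * l j * (e m j ^ 2 + (∑ i, ∑ p, skew (ψ m) p i j ^ 2 / e m p) - D m)
            - l j ^ 2 * e m j) with hL
  set R := fun m => (∑ i, e m i ^ 2) + D m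
    + K * (2 * Real.sqrt (k m) * D m + 1 / Real.sqrt (k m)) with hR
  have key : ∀ m, L m ≤ R m := fun m =>
    (P m).final s l (e m) hs0 hl (hd m) (he0 m) W K
      (hP (P m) rfl rfl hcurv W hM')
  -- limits
  have hkt : Tendsto k atTop atTop :=
    tendsto_atTop_add_const_right _ _ tendsto_natCast_atTop_atTop
  have hst : Tendsto (fun m => Real.sqrt (k m)) atTop atTop := Real.tendsto_sqrt_atTop.comp hkt
  have hsi : Tendsto (fun m => 1 / Real.sqrt (k m)) atTop (𝓝 0) := by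
    simp only [one_div]; exact tendsto_inv_atTop_zero.comp hst
  have hki : Tendsto (fun m => 1 / k m) atTop (𝓝 0) := by
    simp only [one_div]; exact tendsto_inv_atTop_zero.comp hkt
  have hqt : Tendsto q atTop (𝓝 1) := by
    have : q = fun m => 1 - (k m + 1)⁻¹ := by
      funext m; have := hk0 m; simp only [hq]; field_simp; ring
    rw [this]
    simpa using tendsto_const_nhds.sub
      (tendsto_inv_atTop_zero.comp (tendsto_atTop_add_const_right _ (1:ℝ) hkt))
  have het : ∀ i, Tendsto (fun m => e m i) atTop (𝓝 (c i)) := fun i => by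
    simpa [he] using hqt.mul_const (c i)
  have hTt : ∀ p q r, Tendsto (fun m => skew (ψ m) p q r) atTop (𝓝 (T p q r / 2)) := by
    intro p q r
    have h0 : Tendsto (fun m => 2 * skew (ψ m) p q r - T p q r) atTop (𝓝 0) :=
      squeeze_zero_norm (fun m => (P m).skew_near p q r)
        (by simpa [div_eq_mul_inv] using hki.const_mul (Setup.skewC n a))
    have := (h0.add_const (T p q r)).div_const 2
    simpa using this
  set C₀ := (n : ℝ) ^ 2 / a ^ 2 + K₀ with hC₀
  have hDb : ∀ᶠ m in atTop, Real.sqrt (k m) * D m ≤ 2 * C₀ / Real.sqrt (k m) := by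
    filter_upwards [hst.eventually_ge_atTop (4 * K₀)] with m hm4
    have h := (P m).main 0 0 (fun _ => le_rfl) 0 K₀ (hP₀ (P m) rfl rfl
      (fun x v => by
        simp only [Pi.zero_apply, zero_mul, Finset.sum_const_zero]
        exact le_trans (mul_nonneg hU.a_pos.le (sumSq_nonneg v)) (hU.lower x v))
      0 fun _ _ _ => by simp)
    simp only [gainFun_eq, Pi.zero_apply, zero_mul, Finset.sum_const_zero, zero_div, sub_zero,
      mul_zero, add_zero] at h
    have hB : ∑ i, ∑ j, (ex (P m).U fun x => (P m).Yb x i j ^ 2) ≤ (n : ℝ) ^ 2 / a ^ 2 :=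
      (P m).sum_Yb_sq_le
    have hD0 : 0 ≤ D m := (P m).Dv_nonneg
    set σ := Real.sqrt (k m) with hσ
    have hσ2 : σ * σ = k m := Real.mul_self_sqrt (hk0 m).le
    have hσ1 : 1 ≤ σ := Real.one_le_sqrt.2 (hk1 m)
    have hinv : 1 / σ ≤ 1 := (div_le_one (by linarith)).2 hσ1
    have h' : k m * D m ≤ (n : ℝ) ^ 2 / a ^ 2 + K₀ * (2 * σ * D m + 1 / σ) := by
      simp only [hσ, hD]; linarith
    have h3 : K₀ * (1 / σ) ≤ K₀ * 1 := mul_le_mul_of_nonneg_left hinv hK₀
    have h4 : 4 * K₀ * (σ * D m) ≤ σ * (σ * D m) :=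
      mul_le_mul_of_nonneg_right hm4 (mul_nonneg (by linarith) hD0)
    rw [le_div_iff₀ (by linarith)]
    rw [← mul_assoc σ σ, hσ2] at h4
    nlinarith
  have hsD : Tendsto (fun m => Real.sqrt (k m) * D m) atTop (𝓝 0) := by
    refine squeeze_zero' (Eventually.of_forall fun m =>
      mul_nonneg (Real.sqrt_nonneg _) (P m).Dv_nonneg) hDb ?_
    simpa [div_eq_mul_inv] using hsi.const_mul (2 * C₀)
  have hDt : Tendsto D atTop (𝓝 0) :=
    squeeze_zero (fun m => (P m).Dv_nonneg) (fun m => le_mul_of_one_le_left (P m).Dv_nonneg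
      (Real.one_le_sqrt.2 (hk1 m))) hsD
  have hLt : Tendsto L atTop (𝓝 (2 * ((∑ p, ∑ q, ∑ r, W p q r * (T p q r / 2))
        - (∑ p, ∑ q, ∑ r, W p q r ^ 2 * c r) / 2)
        + ∑ j, s j * (2 * l j * (c j ^ 2 + (∑ i, ∑ p, (T p i j / 2) ^ 2 / c p) - 0)
            - l j ^ 2 * c j))) := by
    refine (((tendsto_finsetSum _ fun p _ => tendsto_finsetSum _ fun q _ =>
      tendsto_finsetSum _ fun r _ => (hTt p q r).const_mul _).sub
      ((tendsto_finsetSum _ fun p _ => tendsto_finsetSum _ fun q _ =>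
      tendsto_finsetSum _ fun r _ => (het r).const_mul _).div_const 2)).const_mul 2).add
      (tendsto_finsetSum _ fun j _ => Tendsto.const_mul _ (((((het j).pow 2).add
        (tendsto_finsetSum _ fun i _ => tendsto_finsetSum _ fun p _ =>
          ((hTt p i j).pow 2).div (het p) (hc p).ne')).sub hDt).const_mul _ |>.sub
        ((het j).const_mul _)))
  have hRt : Tendsto R atTop (𝓝 ((∑ i, c i ^ 2) + 0 + K * (2 * 0 + 0))) := by
    refine ((tendsto_finsetSum _ fun i _ => (het i).pow 2).add hDt).add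
      (Tendsto.const_mul K (Tendsto.add ?_ hsi))
    simpa [mul_assoc] using hsD.const_mul 2
  have hlim := le_of_tendsto_of_tendsto hLt hRt (Eventually.of_forall key)
  simp only [mul_zero, add_zero, sub_zero] at hlim
  have hsym : ∀ p i j, T p i j = T j i p := fun p i j => by
    simp only [hTdef, tens]; congr 1; funext x; ring
  refine le_trans (le_of_eq ?_) hlim
  have e1 : 2 * ((∑ p, ∑ q, ∑ r, W p q r * (T p q r / 2))
      - (∑ p, ∑ q, ∑ r, W p q r ^ 2 * c r) / 2) = ∑ p, ∑ q, ∑ r, T p q r ^ 2 / (4 * c r) := by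
    simp only [mul_sub, mul_sum, sum_div, ← sum_sub_distrib]
    refine sum_congr rfl fun p _ => sum_congr rfl fun q _ => sum_congr rfl fun r _ => ?_
    have := (hc r).ne'
    simp only [hW]; field_simp; ring
  rw [e1]
  have e2 : ∀ i, ∑ j, ∑ k, (1 + 2 * s i * l i) * (T i j k ^ 2 / (4 * c k))
      = (∑ j, ∑ k, T i j k ^ 2 / (4 * c k))
        + s i * (2 * l i * ∑ j, ∑ p, (T p j i / 2) ^ 2 / c p) := by
    intro i
    simp only [mul_sum, ← sum_add_distrib]
    refine sum_congr rfl fun j _ => sum_congr rfl fun p _ => ?_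
    rw [hsym p j i]; ring
  simp only [e2, sum_add_distrib, add_assoc]
  congr 1
  rw [← sum_add_distrib]
  exact sum_congr rfl fun i _ => by ring

end Vale.Agent.P254M
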