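import Vale.Agent.P254M.Swap

/-!
Second and third moments of the regularised coupling, and two variance bounds.
-/

namespace Vale.Agent.P254M

open MeasureTheory Set Filter Topology Finset Matrix
open Vale.Agent.P245 (pd dot sumSq sumSq_nonneg sq_le_sumSq contDiff_pd hasCompactSupport_pd Smo)
open scoped ContDiff

variable {n : ℕ} {U f g : (Fin n → ℝ) → ℝ} {a b : ℝ}

/-- The variance of a difference. -/
lemma Grow.cv2_sub_sub (h : Grow U) (hf : Poly f) (hg : Poly g) :
    cv2 U (fun x => f x - g x) (fun x => f x - g x)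
      = cv2 U f f - 2 * cv2 U f g + cv2 U g g := by
  have e : (fun x => (f x - g x) * (f x - g x))
      = fun x => f x * f x - 2 * (f x * g x) + g x * g x := by funext x; ring
  simp only [cv2, e]
  rw [h.ex_add ((hf.mul hf).sub ((hf.mul hg).const_mul 2)) (hg.mul hg),
    h.ex_sub (hf.mul hf) ((hf.mul hg).const_mul 2), ex_const_mul, h.ex_sub hf hg]
  ring

lemma Grow.cv2_dot_right (h : Grow U) (hf : Poly f) (u : Fin n → ℝ) :
    cv2 U f (fun x => dot u x) = ∑ l, u l * cv2 U f (fun x => x l) := by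
  simp only [cv2, dot, Finset.mul_sum]
  have hp : ∀ l, Poly fun x => f x * (u l * x l) := fun l => hf.mul ((Poly.coord l).const_mul _)
  rw [h.ex_sum _ fun l _ => hp l, h.ex_sum _ fun l _ => (Poly.coord l).const_mul (u l),
    Finset.mul_sum, ← Finset.sum_sub_distrib]
  refine Finset.sum_congr rfl fun l _ => ?_
  rw [ex_const_mul U (fun x => x l), show (fun x : Fin n → ℝ => f x * (u l * x l))
    = fun x => u l * (f x * x l) from funext fun x => by ring, ex_const_mul]
  ring

/-- The Brascamp–Lieb inequality with a scalar dual bound. -/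
theorem Bd.bl_scalar (h : Bd U a b) {R : (Fin n → ℝ) → ℝ} (hf : ContDiff ℝ 1 f) (hm : Poly f)
    (hdf : ∀ i, Poly (pd i f)) (hR : Poly R)
    (hR' : ∀ x u, 2 * (gr f x ⬝ᵥ u) - u ⬝ᵥ (hs U x *ᵥ u) ≤ R x) :
    cv2 U f f ≤ ex U R := by
  set S := h.smo
  set m := ex U f with hmdef
  set f0 := fun x => f x - m with hf0
  have hm0 : Poly f0 := hm.sub_const m
  have hL : MemLp f0 2 S.μ :=
    (memLp_two_iff_integrable_sq hm0.1.aestronglyMeasurable).2 (h.integrable_smo (hm0.pow 2))
  have h00 : ∫ x, f0 x ∂S.μ = 0 := by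
    rw [h.integral_smo, hf0, h.grow.ex_sub hm (Poly.const m), h.grow.ex_const, hmdef, sub_self]
  have hvar : cv2 U f f = ex U fun x => f0 x ^ 2 := by
    rw [h.grow.cv2_eq_centred hm hm]
    congr 1; funext x; simp only [hf0, hmdef]; ring
  refine le_of_forall_pos_le_add fun ε hε => ?_
  obtain ⟨u, hu, hclose⟩ := S.exists_gen_near hL h00 hε
  rw [h.integral_smo] at hclose
  have hmc : ∀ {F : (Fin n → ℝ) → ℝ}, Continuous F → HasCompactSupport F → Poly F := by
    intro F hF hFc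
    obtain ⟨C, hC⟩ := hF.bounded_above_of_compact_support hFc
    exact Poly.bdd hF fun x => by simpa using hC x
  have m1 : ∀ i, Poly (pd i u) := fun i =>
    hmc (contDiff_pd hu.1 i).continuous (hasCompactSupport_pd hu.2 i)
  have m2 : ∀ i j, Poly (pd j (pd i u)) := fun i j =>
    hmc (contDiff_pd (contDiff_pd hu.1 i) j).continuous (hasCompactSupport_pd (hu.pd i).2 j)
  have mG : Poly (S.gen u) := hmc (S.contDiff_gen hu).continuous (S.hasCompactSupport_gen hu)
  have mH : Poly fun x => gr u x ⬝ᵥ (hs U x *ᵥ gr u x) := poly_dot m1 (poly_mulVec h.poly_hs m1)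
  have mS : Poly fun x => ∑ i, ∑ j, pd j (pd i u) x ^ 2 :=
    Poly.sum _ fun i _ => Poly.sum _ fun j _ => (m2 i j).pow 2
  have mF : Poly fun x => gr f x ⬝ᵥ gr u x := Poly.sum _ fun i _ => (hdf i).mul (m1 i)
  have e1 : ex U (fun x => f0 x * S.gen u x) = -ex U fun x => gr f x ⬝ᵥ gr u x := by
    rw [← h.integral_smo, S.gen_ibp (hf.sub contDiff_const) hu]
    simp only [dotProduct, gr]
    rw [h.grow.ex_sum _ fun i _ => (hdf i).mul (m1 i)]
    congr 1; refine sum_congr rfl fun i _ => ?_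
    rw [h.integral_smo]
    congr 1; funext x
    simp [pd, fderiv_sub_const]
  have e3 : ex U (fun x => f0 x ^ 2) = 2 * ex U (fun x => f0 x * S.gen u x)
      - ex U (fun x => S.gen u x ^ 2) + ex U fun x => (f0 x - S.gen u x) ^ 2 := by
    rw [← ex_const_mul, ← h.grow.ex_sub ((hm0.mul mG).const_mul 2) (mG.pow 2),
      ← h.grow.ex_add (((hm0.mul mG).const_mul 2).sub (mG.pow 2)) ((hm0.sub mG).pow 2)]
    congr 1; funext x; ring
  have k1 : ex U (fun x => -2 * (gr f x ⬝ᵥ gr u x) - gr u x ⬝ᵥ (hs U x *ᵥ gr u x)) ≤ ex U R := by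
    refine h.grow.ex_mono ((mF.const_mul _).sub mH) hR fun x => ?_
    have := hR' x (-gr u x)
    simp only [dotProduct_neg, neg_dotProduct, mulVec_neg, neg_neg] at this
    linarith
  rw [h.grow.ex_sub (mF.const_mul _) mH, ex_const_mul] at k1
  have k2 : 0 ≤ ex U fun x => ∑ i, ∑ j, pd j (pd i u) x ^ 2 :=
    ex_nonneg U fun x => sum_nonneg fun i _ => sum_nonneg fun j _ => sq_nonneg _
  rw [hvar, e3, e1, h.bochner_eq hu, h.grow.ex_add mS mH]
  linarith

namespace Setup

variable (P : Setup n)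

lemma grow_U : Grow P.U := P.hU.grow

lemma grow_ψ : Grow P.ψ := P.hψ.grow

lemma ex_swap_left (hf : Poly f) : ex P.U f = ex P.ψ fun y => ex (P.cx y) f := by
  have h := P.swap hf (Poly.const (1:ℝ))
  simp only [(P.grow_cy _).ex_const, mul_one, one_mul] at h
  exact h

lemma ex_swap_right (hg : Poly g) : ex P.U (fun x => ex (P.cy x) g) = ex P.ψ g := by
  have h := P.swap (Poly.const (1:ℝ)) hg
  simp only [(P.grow_cx _).ex_const, mul_one, one_mul] at h
  exact h

lemma mH_psi (i j : Fin n) : ex P.ψ (fun y => P.Y y i j) = mH P.ψ i j := rfl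

lemma ex_Yb (i j : Fin n) : ex P.U (fun x => P.Yb x i j) = mH P.ψ i j :=
  P.ex_swap_right (P.poly_Y i j)

lemma poly_MY (i j : Fin n) : Poly fun y => ex (P.cx y) fun x => P.Yb x i j :=
  P.poly_ex_cx (P.continuous_Yb i j) fun x => P.abs_Yb_le x i j

lemma ex_Y_mul_MY (i j : Fin n) :
    ex P.ψ (fun y => P.Y y i j * ex (P.cx y) fun x => P.Yb x i j)
      = ex P.U fun x => P.Yb x i j ^ 2 := by
  rw [← P.swap (P.poly_Yb i j) (P.poly_Y i j)]
  congr 1; funext x
  exact (sq _).symm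

lemma Yb_sq_le (x : Fin n → ℝ) (i j : Fin n) : P.Yb x i j ^ 2 ≤ (1 / P.a) ^ 2 := by
  rw [← sq_abs]; exact pow_le_pow_left₀ (abs_nonneg _) (P.abs_Yb_le x i j) 2

lemma poly_MY2 (i j : Fin n) : Poly fun y => ex (P.cx y) fun x => P.Yb x i j ^ 2 :=
  P.poly_ex_cx ((P.continuous_Yb i j).pow 2) (B := (1 / P.a) ^ 2) fun x => by
    rw [abs_of_nonneg (sq_nonneg _)]; exact P.Yb_sq_le x i j

/-- The gap between the second moments of `Y` and of its average given `x`. -/
noncomputable def Dij (i j : Fin n) : ℝ :=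
  ex P.ψ (fun y => P.Y y i j ^ 2) - ex P.U fun x => P.Yb x i j ^ 2

/-- The total fluctuation, entrywise. -/
noncomputable def Dv : ℝ := ∑ i, ∑ j, P.Dij i j

lemma Dij_eq (i j : Fin n) :
    P.Dij i j = ex P.U fun x => ex (P.cy x) fun y => (P.Y y i j - P.Yb x i j) ^ 2 := by
  simp only [P.ex_dx_term, Dij]
  have hp : Poly fun x => ex (P.cy x) fun y => P.Y y i j ^ 2 := by
    refine Poly.bdd (P.contDiff_ex_cy ((P.poly_Y i j).pow 2)).continuous (B := (1 / P.a) ^ 2)
      fun x => ?_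
    refine ((P.grow_cy x).abs_ex_le ((P.poly_Y i j).pow 2) (Poly.const _) fun y => ?_).trans
      (le_of_eq ((P.grow_cy x).ex_const _))
    rw [abs_pow]; exact pow_le_pow_left₀ (abs_nonneg _) (P.abs_Y_le y i j) 2
  rw [P.grow_U.ex_sub hp ((P.poly_Yb i j).pow 2), P.ex_swap_right ((P.poly_Y i j).pow 2)]

lemma Dij_nonneg (i j : Fin n) : 0 ≤ P.Dij i j := by
  rw [Dij_eq]; exact ex_nonneg _ fun x => ex_nonneg _ fun y => sq_nonneg _

lemma Dv_nonneg : 0 ≤ P.Dv := sum_nonneg fun i _ => sum_nonneg fun j _ => P.Dij_nonneg i j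

lemma ex_dx : ex P.U P.dx = P.Dv := by
  simp only [Dv, Dij_eq]
  have hp : ∀ i j, Poly fun x => ex (P.cy x) fun y => (P.Y y i j - P.Yb x i j) ^ 2 := fun i j => by
    refine P.poly_dx.of_le ?_ fun x => ?_
    · simp only [P.ex_dx_term]
      exact (P.contDiff_ex_cy ((P.poly_Y i j).pow 2)).continuous.sub ((P.continuous_Yb i j).pow 2)
    · rw [abs_of_nonneg (ex_nonneg _ fun y => sq_nonneg _), abs_of_nonneg (P.dx_nonneg x)]
      exact (single_le_sum (f := fun j => ex (P.cy x) fun y => (P.Y y i j - P.Yb x i j) ^ 2)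
        (fun _ _ => ex_nonneg _ fun _ => sq_nonneg _) (mem_univ j)).trans
        (single_le_sum (f := fun i => ∑ j, ex (P.cy x) fun y => (P.Y y i j - P.Yb x i j) ^ 2)
          (fun _ _ => sum_nonneg fun _ _ => ex_nonneg _ fun _ => sq_nonneg _) (mem_univ i))
  unfold dx
  rw [P.grow_U.ex_sum _ fun i _ => Poly.sum _ fun j _ => hp i j]
  exact sum_congr rfl fun i _ => P.grow_U.ex_sum _ fun j _ => hp i j

lemma abs_dx_le (x : Fin n → ℝ) : |P.dx x| ≤ ∑ _i : Fin n, ∑ _j : Fin n, (1 / P.a) ^ 2 := by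
  rw [abs_of_nonneg (P.dx_nonneg x), dx]
  refine sum_le_sum fun i _ => sum_le_sum fun j _ => ?_
  rw [ex_dx_term]
  refine (sub_le_self _ (sq_nonneg _)).trans ?_
  refine ((P.grow_cy x).ex_mono ((P.poly_Y i j).pow 2) (Poly.const _) fun y => ?_).trans
    (le_of_eq ((P.grow_cy x).ex_const _))
  rw [← sq_abs]
  exact pow_le_pow_left₀ (abs_nonneg _) (P.abs_Y_le y i j) 2

lemma poly_Mdx : Poly fun y => ex (P.cx y) P.dx := P.poly_ex_cx P.poly_dx.1 P.abs_dx_le

lemma ex_Mdx : ex P.ψ (fun y => ex (P.cx y) P.dx) = P.Dv := by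
  rw [← P.ex_swap_left P.poly_dx, P.ex_dx]

lemma dy_eq (y : Fin n → ℝ) : P.dy y = ∑ i, ∑ j, (P.Y y i j ^ 2
    - 2 * (P.Y y i j * ex (P.cx y) fun x => P.Yb x i j) + ex (P.cx y) fun x => P.Yb x i j ^ 2) := by
  refine sum_congr rfl fun i _ => sum_congr rfl fun j _ => ?_
  have hG := P.grow_cx y
  rw [show (fun x => (P.Y y i j - P.Yb x i j) ^ 2) = fun x =>
      P.Y y i j ^ 2 - 2 * P.Y y i j * P.Yb x i j + P.Yb x i j ^ 2 from funext fun x => by ring,
    hG.ex_add ((Poly.const _).sub ((P.poly_Yb i j).const_mul _)) ((P.poly_Yb i j).pow 2),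
    hG.ex_sub (Poly.const _) ((P.poly_Yb i j).const_mul _), ex_const_mul, hG.ex_const]
  ring

lemma ex_dy : ex P.ψ P.dy = P.Dv := by
  have hG := P.grow_ψ
  have h0 : ∀ i j, Poly fun y => P.Y y i j ^ 2 := fun i j => (P.poly_Y i j).pow 2
  have h1 : ∀ i j, Poly fun y => P.Y y i j * ex (P.cx y) fun x => P.Yb x i j :=
    fun i j => (P.poly_Y i j).mul (P.poly_MY i j)
  have h2 : ∀ i j, Poly fun y => P.Y y i j ^ 2
    - 2 * (P.Y y i j * ex (P.cx y) fun x => P.Yb x i j) + ex (P.cx y) fun x => P.Yb x i j ^ 2 :=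
    fun i j => ((h0 i j).sub ((h1 i j).const_mul 2)).add (P.poly_MY2 i j)
  rw [show P.dy = _ from funext P.dy_eq, hG.ex_sum _ fun i _ => Poly.sum _ fun j _ => h2 i j, Dv]
  refine sum_congr rfl fun i _ => ?_
  rw [hG.ex_sum _ fun j _ => h2 i j]
  refine sum_congr rfl fun j _ => ?_
  rw [hG.ex_add ((h0 i j).sub ((h1 i j).const_mul 2)) (P.poly_MY2 i j),
    hG.ex_sub (h0 i j) ((h1 i j).const_mul 2), ex_const_mul, P.ex_Y_mul_MY,
    ← P.ex_swap_left ((P.poly_Yb i j).pow 2), Dij]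
  ring

lemma pd_MY (i j l : Fin n) (y : Fin n → ℝ) :
    pd l (fun y => ex (P.cx y) fun x => P.Yb x i j) y
      = P.k * cv2 (P.cx y) (fun x => P.Yb x i j) fun x => x l :=
  P.pd_ex_cx (P.poly_Yb i j) l y

lemma poly_pd_MY (i j l : Fin n) : Poly (pd l fun y => ex (P.cx y) fun x => P.Yb x i j) := by
  refine Poly.bdd (((P.contDiff_ex_cx (P.poly_Yb i j)).continuous_fderiv (by simp)).clm_apply
    continuous_const) (B := (P.k * (1 / P.a) ^ 2 + 1 / P.a) / 2) fun y => ?_
  have hG := P.grow_cx y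
  have hk := P.k_pos
  have hf := P.poly_Yb i j
  have hg : Poly fun x : Fin n → ℝ => x l := Poly.coord l
  set F := fun x => P.Yb x i j - ex (P.cx y) fun x => P.Yb x i j
  set G := fun x : Fin n → ℝ => x l - ex (P.cx y) fun x => x l
  have hF : Poly F := hf.sub_const _
  have hG' : Poly G := hg.sub_const _
  rw [pd_MY, abs_mul, abs_of_pos hk, hG.cv2_eq_centred hf hg]
  have h1 : |ex (P.cx y) fun x => F x * G x| ≤ ex (P.cx y) fun x => 1 / 2 * (F x * F x + G x * G x) :=
    hG.abs_ex_le (hF.mul hG') (((hF.mul hF).add (hG'.mul hG')).const_mul _) fun x =>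
      abs_le.2 ⟨by nlinarith [sq_nonneg (F x + G x)], by nlinarith [sq_nonneg (F x - G x)]⟩
  rw [ex_const_mul, hG.ex_add (hF.mul hF) (hG'.mul hG'), ← hG.cv2_eq_centred hf hf,
    ← hG.cv2_eq_centred hg hg] at h1
  have h2 : cv2 (P.cx y) (fun x => P.Yb x i j) (fun x => P.Yb x i j) ≤ (1 / P.a) ^ 2 := by
    refine (sub_le_self _ (mul_self_nonneg _)).trans ?_
    refine (hG.ex_mono (hf.mul hf) (Poly.const _) fun x => ?_).trans (le_of_eq (hG.ex_const _))
    rw [← sq]; exact P.Yb_sq_le x i j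
  have h3 : P.k * cv2 (P.cx y) (fun x : Fin n → ℝ => x l) (fun x => x l) ≤ 1 / P.a := by
    refine le_trans (le_of_eq ?_) ((le_abs_self _).trans (P.abs_Y_le y l l))
    exact (P.Y_eq y l l).symm
  calc P.k * |ex (P.cx y) fun x => F x * G x|
      ≤ P.k * (1 / 2 * ((1 / P.a) ^ 2
          + cv2 (P.cx y) (fun x : Fin n → ℝ => x l) (fun x => x l))) :=
        mul_le_mul_of_nonneg_left (h1.trans (by linarith)) hk.le
    _ ≤ _ := by linarith

/-- The variance of `Y` is controlled by the fluctuation. -/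
lemma var_Y_le (i j : Fin n) :
    ex P.ψ (fun y => P.Y y i j ^ 2) - mH P.ψ i j ^ 2 ≤ (P.k + 2) * P.Dij i j := by
  have hG := P.grow_ψ
  have hk := P.k_pos
  set f := fun y => ex (P.cx y) fun x => P.Yb x i j with hfdef
  have hf : Poly f := P.poly_MY i j
  have hY := P.poly_Y i j
  have hM : ex P.ψ f = mH P.ψ i j := by
    rw [hfdef, ← P.ex_swap_left (P.poly_Yb i j), P.ex_Yb]
  have hB : ex P.ψ (fun y => P.Y y i j * f y) = ex P.U fun x => P.Yb x i j ^ 2 := P.ex_Y_mul_MY i j
  set R := fun y => P.k * cv2 (P.cx y) (fun x => P.Yb x i j) (fun x => P.Yb x i j) with hRdef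
  have hR : Poly R := by
    refine (((P.poly_MY2 i j).sub (hf.pow 2)).const_mul P.k).congr fun y => ?_
    simp only [hRdef, hfdef, cv2, sq]
  have hR' : ∀ y u, 2 * (gr f y ⬝ᵥ u) - u ⬝ᵥ (hs P.ψ y *ᵥ u) ≤ R y := by
    intro y u
    have h := (P.grow_cx y).cv2_self_nonneg ((P.poly_Yb i j).sub (Poly.dot_left u))
    rw [(P.grow_cx y).cv2_sub_sub (P.poly_Yb i j) (Poly.dot_left u),
      (P.grow_cx y).cv2_dot_right (P.poly_Yb i j), (P.bd_cx y).cv2_dot] at h
    have e1 : gr f y ⬝ᵥ u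
        = P.k * ∑ l, u l * cv2 (P.cx y) (fun x => P.Yb x i j) (fun x => x l) := by
      simp only [dotProduct, gr, hfdef, P.pd_MY, mul_sum]
      exact sum_congr rfl fun l _ => by ring
    have e2 : u ⬝ᵥ (hs P.ψ y *ᵥ u) = P.k * (u ⬝ᵥ (covm (P.cx y) *ᵥ u)) := by
      have : hs P.ψ y = P.k • covm (P.cx y) := by
        ext p q; exact P.Y_eq y p q
      rw [this, smul_mulVec, dotProduct_smul, smul_eq_mul]
    rw [e1, e2, hRdef]
    linarith [mul_nonneg hk.le h]
  have hv := P.hψ.bl_scalar ((P.contDiff_ex_cx (P.poly_Yb i j)).of_le (by simp)) hf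
    (P.poly_pd_MY i j) hR hR'
  have eR : ex P.ψ R
      = P.k * (ex P.U (fun x => P.Yb x i j ^ 2) - ex P.ψ fun y => f y ^ 2) := by
    rw [P.ex_swap_left ((P.poly_Yb i j).pow 2), ← hG.ex_sub (P.poly_MY2 i j) (hf.pow 2),
      ← ex_const_mul]
    congr 1; funext y
    simp only [hRdef, hfdef, cv2, sq]
  have eV : cv2 P.ψ f f = ex P.ψ (fun y => f y ^ 2) - mH P.ψ i j ^ 2 := by
    simp only [cv2, hM, sq]
  have h0 : 0 ≤ ex P.ψ (fun y => P.Y y i j ^ 2) - 2 * ex P.U (fun x => P.Yb x i j ^ 2)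
      + ex P.ψ fun y => f y ^ 2 := by
    rw [← hB, ← ex_const_mul, ← hG.ex_sub (hY.pow 2) ((hY.mul hf).const_mul 2),
      ← hG.ex_add ((hY.pow 2).sub ((hY.mul hf).const_mul 2)) (hf.pow 2)]
    exact ex_nonneg _ fun y => by nlinarith [sq_nonneg (P.Y y i j - f y)]
  rw [eV, eR] at hv
  have hD : ex P.U (fun x => P.Yb x i j ^ 2) - ex P.ψ (fun y => f y ^ 2) ≤ P.Dij i j := by
    simp only [Dij]; linarith
  have := mul_le_mul_of_nonneg_left hD hk.le
  simp only [Dij] at *
  linarith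

/-- Bessel's inequality in the gradient of the moment map potential. -/
lemma bessel {e : Fin n → ℝ} (hd : mH P.ψ = diagonal e) (he : ∀ i, 0 < e i) (i j : Fin n) :
    mH P.ψ i j ^ 2 + ∑ p, skew P.ψ p i j ^ 2 / e p ≤ ex P.ψ fun y => P.Y y i j ^ 2 := by
  have hG := P.grow_ψ
  set α := fun p => skew P.ψ p i j / e p with hα
  have hY := P.poly_Y i j
  have hF : Poly fun y => ∑ p, α p * gr P.ψ y p :=
    Poly.sum _ fun p _ => (P.hψ.poly_gr p).const_mul _
  have h := hG.cv2_self_nonneg (hY.sub hF)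
  rw [hG.cv2_sub_sub hY hF] at h
  have eF : ex P.ψ (fun y => ∑ p, α p * gr P.ψ y p) = 0 := by
    rw [hG.ex_sum _ fun p _ => (P.hψ.poly_gr p).const_mul _]
    simp [ex_const_mul, P.hψ.ex_gr]
  have eQ : ∀ p, α p * skew P.ψ p i j = skew P.ψ p i j ^ 2 / e p := fun p => by
    simp only [hα]; ring
  have e1 : cv2 P.ψ (fun y => P.Y y i j) (fun y => ∑ p, α p * gr P.ψ y p)
      = ∑ p, skew P.ψ p i j ^ 2 / e p := by
    simp only [cv2, eF, mul_zero, sub_zero, mul_sum]
    rw [hG.ex_sum _ fun p _ => hY.mul ((P.hψ.poly_gr p).const_mul _)]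
    refine sum_congr rfl fun p _ => ?_
    rw [← eQ, ← P.hψ.ex_gr_mul_hs, ← ex_const_mul]
    congr 1; funext y
    simp only [Y]; ring
  have e2 : cv2 P.ψ (fun y => ∑ p, α p * gr P.ψ y p) (fun y => ∑ p, α p * gr P.ψ y p)
      = ∑ p, skew P.ψ p i j ^ 2 / e p := by
    simp only [cv2, eF, mul_zero, sub_zero, sum_mul, mul_sum]
    have hp : ∀ p q, Poly fun y => α p * gr P.ψ y p * (α q * gr P.ψ y q) := fun p q =>
      ((P.hψ.poly_gr p).const_mul _).mul ((P.hψ.poly_gr q).const_mul _)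
    rw [hG.ex_sum _ fun p _ => Poly.sum _ fun q _ => hp q p]
    refine sum_congr rfl fun p _ => ?_
    rw [hG.ex_sum _ fun q _ => hp q p]
    have : ∀ q, ex P.ψ (fun y => α q * gr P.ψ y q * (α p * gr P.ψ y p))
        = α p * α q * diagonal e p q := fun q => by
      rw [← hd, ← P.hψ.ex_gr_mul_gr, ← ex_const_mul]
      congr 1; funext y; ring
    refine (sum_congr rfl fun q _ => this q).trans ?_
    simp only [diagonal_apply, mul_ite, mul_zero, sum_ite_eq, Finset.mem_univ, if_true, hα]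
    have := (he p).ne'
    field_simp
  have e3 : cv2 P.ψ (fun y => P.Y y i j) (fun y => P.Y y i j)
      = ex P.ψ (fun y => P.Y y i j ^ 2) - mH P.ψ i j ^ 2 := by
    simp only [cv2, P.mH_psi, sq]
  rw [e1, e2, e3] at h
  linarith

/-- The law of total covariance. -/
lemma covm_eq (i j : Fin n) : covm P.U i j = (1 / P.k + 1) * mH P.ψ i j := by
  have hc : ∀ i, ex P.U (fun x : Fin n → ℝ => x i) = 0 := fun i => congrFun P.cent i
  simp only [covm, cv2, hc, mul_zero, sub_zero]
  rw [P.ex_swap_left ((Poly.coord i).mul (Poly.coord j))]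
  have e : (fun y => ex (P.cx y) fun x => x i * x j)
      = fun y => 1 / P.k * P.Y y i j + gr P.ψ y i * gr P.ψ y j := by
    funext y
    have := P.k_pos.ne'
    simp only [P.gr_psi, P.Y_eq, covm, cv2, mn]
    field_simp
    ring
  rw [e, P.grow_ψ.ex_add ((P.poly_Y i j).const_mul _) ((P.hψ.poly_gr i).mul (P.hψ.poly_gr j)),
    ex_const_mul, P.hψ.ex_gr_mul_gr, P.mH_psi]
  ring

/-- The averaged tensor is the skewness of the moment map potential. -/
lemma ex_G (i j l : Fin n) : ex P.U (fun x => P.G x i j l) = skew P.ψ i j l := by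
  have h1 := (P.hψ.poly_gr i).mul (P.poly_Y j l)
  have h2 := (Poly.coord i).mul (P.poly_Yb j l)
  have e2 : ex P.U (fun x => x i * P.Yb x j l) = ex P.ψ fun y => gr P.ψ y i * P.Y y j l := by
    show ex P.U (fun x => x i * ex (P.cy x) fun y => P.Y y j l) = _
    rw [P.swap (Poly.coord i) (P.poly_Y j l)]
    congr 1; funext y
    rw [P.gr_psi, mn, mul_comm]
  have hp : Poly fun x => ex (P.cy x) fun y => gr P.ψ y i * P.Y y j l :=
    (((P.poly_G i j l).add (h2.const_mul P.k)).const_mul (P.k + 1)⁻¹).congr fun x => by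
      have := P.k1_pos.ne'
      rw [P.G_eq]; field_simp; ring
  rw [show (fun x => P.G x i j l) = fun x => (P.k + 1) * (ex (P.cy x) fun y => gr P.ψ y i * P.Y y j l)
      - P.k * (x i * P.Yb x j l) from funext fun x => by rw [P.G_eq]; ring,
    P.grow_U.ex_sub (hp.const_mul _) (h2.const_mul _), ex_const_mul, ex_const_mul,
    P.ex_swap_right h1, e2, ← P.hψ.ex_gr_mul_hs]
  simp only [Y]
  ring

/-- The error constant in the comparison of the third moments. -/
noncomputable def skewC (n : ℕ) (a : ℝ) : ℝ :=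
  3 * ((1 / a + 1) / (2 * a)) + ((n : ℝ) / a + 16 * (n * (n + 2)) / a ^ 2) / 2

lemma abs_third_le (y : Fin n → ℝ) (i j l : Fin n) :
    |ex (P.cx y) fun x => (x i - gr P.ψ y i) * (x j - gr P.ψ y j) * (x l - gr P.ψ y l)|
      ≤ ((n : ℝ) / P.a + 16 * (n * (n + 2)) / P.a ^ 2) / 2 / P.k := by
  have hB := P.bd_cx y
  have hG := hB.grow
  have hk := P.k_pos
  have ha := P.hU.a_pos
  have hg : (fun p => gr P.ψ y p) = mn (P.cx y) := funext fun p => P.gr_psi y p
  have hq : Poly fun x => sumSq (x - mn (P.cx y)) := Poly.sumSq'.comp_sub _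
  have hd : ∀ p, Poly fun x : Fin n → ℝ => x p - mn (P.cx y) p := fun p => (Poly.coord p).sub_const _
  simp only [P.gr_psi]
  refine (hG.abs_ex_le (((hd i).mul (hd j)).mul (hd l))
    (g := fun x => 1 / 2 * (sumSq (x - mn (P.cx y)) + sumSq (x - mn (P.cx y)) ^ 2))
    ((hq.add (hq.pow 2)).const_mul _) fun x => ?_).trans ?_
  · set z := x - mn (P.cx y) with hz
    have e : ∀ p, x p - mn (P.cx y) p = z p := fun p => rfl
    simp only [e, abs_mul]
    have s := sumSq_nonneg z
    have h1 : |z i| * |z j| ≤ sumSq z := by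
      nlinarith [sq_le_sumSq z i, sq_le_sumSq z j, sq_abs (z i), sq_abs (z j),
        sq_nonneg (|z i| - |z j|)]
    have h2 : |z l| ≤ (1 + sumSq z) / 2 := by
      nlinarith [sq_le_sumSq z l, sq_abs (z l), sq_nonneg (|z l| - 1)]
    calc |z i| * |z j| * |z l| ≤ sumSq z * ((1 + sumSq z) / 2) :=
          mul_le_mul h1 h2 (abs_nonneg _) s
      _ = _ := by ring
  · rw [ex_const_mul, hG.ex_add hq (hq.pow 2)]
    have hA : 0 < (P.k + 1) * P.a := mul_pos P.k1_pos ha
    have h1 : ex (P.cx y) (fun x => sumSq (x - mn (P.cx y))) ≤ (n : ℝ) / P.a / P.k := by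
      have := hB.ex_sumSq_le
      rw [div_div, le_div_iff₀ (by positivity)]
      have h0 := hG.ex_mono (Poly.const 0) hq fun x => sumSq_nonneg _
      rw [hG.ex_const] at h0
      nlinarith [mul_nonneg ha.le h0]
    have h2 : ex (P.cx y) (fun x => sumSq (x - mn (P.cx y)) ^ 2)
        ≤ 16 * (n * (n + 2)) / P.a ^ 2 / P.k := by
      have := hB.ex_sumSq_sq_le
      rw [div_div, le_div_iff₀ (by positivity)]
      have h0 := ex_nonneg (P.cx y) (f := fun x => sumSq (x - mn (P.cx y)) ^ 2) fun x => sq_nonneg _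
      nlinarith [mul_nonneg (mul_nonneg (sq_nonneg P.a) h0)
        (by nlinarith [P.k_one] : 0 ≤ (P.k + 1) ^ 2 - P.k)]
    have e : ((n : ℝ) / P.a + 16 * (n * (n + 2)) / P.a ^ 2) / 2 / P.k
        = 1 / 2 * ((n : ℝ) / P.a / P.k + 16 * (n * (n + 2)) / P.a ^ 2 / P.k) := by ring
    rw [e]
    linarith

/-- The skewness of the moment map potential is near half the third moment. -/
lemma skew_near (i j l : Fin n) :
    |2 * skew P.ψ i j l - tens P.U i j l| ≤ skewC n P.a / P.k := by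
  have hG := P.grow_ψ
  have hk := P.k_pos
  have ha := P.hU.a_pos
  set g := gr P.ψ with hgdef
  set r := fun y => ex (P.cx y) fun x => (x i - g y i) * (x j - g y j) * (x l - g y l) with hrdef
  set q := fun y => 1 / P.k * (g y i * P.Y y j l + g y j * P.Y y i l + g y l * P.Y y i j) + r y
    with hqdef
  have hexp : ∀ y, ex (P.cx y) (fun x => x i * x j * x l) = g y i * g y j * g y l + q y := by
    intro y
    have hG := P.grow_cx y
    have hc : ∀ p, Poly fun x : Fin n → ℝ => x p := fun p => Poly.coord p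
    have hp := ((hc i).mul (hc j)).mul (hc l)
    have e : (fun x : Fin n → ℝ => (x i - g y i) * (x j - g y j) * (x l - g y l)) = fun x => x i * x j * x l
        - (g y i * (x j * x l) + g y j * (x i * x l) + g y l * (x i * x j))
        + (g y i * g y j * x l + g y i * g y l * x j + g y j * g y l * x i)
        - g y i * g y j * g y l := by funext x; ring
    have hs2 := ((((hc j).mul (hc l)).const_mul (g y i)).add
      (((hc i).mul (hc l)).const_mul (g y j))).add (((hc i).mul (hc j)).const_mul (g y l))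
    have hs1 := (((hc l).const_mul (g y i * g y j)).add ((hc j).const_mul (g y i * g y l))).add
      ((hc i).const_mul (g y j * g y l))
    simp only [hqdef, hrdef, e]
    rw [hG.ex_sub ((hp.sub hs2).add hs1) (Poly.const _), hG.ex_add (hp.sub hs2) hs1,
      hG.ex_sub hp hs2,
      hG.ex_add ((((hc j).mul (hc l)).const_mul (g y i)).add
        (((hc i).mul (hc l)).const_mul (g y j))) (((hc i).mul (hc j)).const_mul (g y l)),
      hG.ex_add (((hc j).mul (hc l)).const_mul (g y i)) (((hc i).mul (hc l)).const_mul (g y j)),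
      hG.ex_add (((hc l).const_mul (g y i * g y j)).add ((hc j).const_mul (g y i * g y l)))
        ((hc i).const_mul (g y j * g y l)),
      hG.ex_add ((hc l).const_mul (g y i * g y j)) ((hc j).const_mul (g y i * g y l)),
      hG.ex_const]
    simp only [ex_const_mul, hgdef, P.gr_psi, P.Y_eq, covm, cv2, mn]
    field_simp
    ring
  have hgp : ∀ p, Poly fun y => g y p := P.hψ.poly_gr
  have hxxx : Poly fun x : Fin n → ℝ => x i * x j * x l :=
    ((Poly.coord i).mul (Poly.coord j)).mul (Poly.coord l)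
  have hlin : Poly fun y => 1 / P.k * (g y i * P.Y y j l + g y j * P.Y y i l + g y l * P.Y y i j) :=
    ((((hgp i).mul (P.poly_Y j l)).add ((hgp j).mul (P.poly_Y i l))).add
      ((hgp l).mul (P.poly_Y i j))).const_mul _
  have hgc := (((hgp i).mul (hgp j)).mul (hgp l))
  have hr : Poly r := by
    refine Poly.bdd ?_ (fun y => P.abs_third_le y i j l)
    have : r = fun y => ex (P.cx y) (fun x => x i * x j * x l) - g y i * g y j * g y l
        - 1 / P.k * (g y i * P.Y y j l + g y j * P.Y y i l + g y l * P.Y y i j) := by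
      funext y; simp only [hexp, hqdef]; ring
    show Continuous r
    rw [this]
    exact (((P.contDiff_ex_cx hxxx).continuous.sub hgc.1).sub hlin.1)
  have hq : Poly q := hlin.add hr
  have et : tens P.U i j l = 2 * skew P.ψ i j l + ex P.ψ q := by
    simp only [tens, show mn P.U = 0 from P.cent, Pi.zero_apply, sub_zero]
    rw [P.ex_swap_left hxxx, funext hexp, hG.ex_add hgc hq, skew, mul_div_cancel₀ _ two_ne_zero]
  rw [et, sub_add_cancel_left, abs_neg]
  set c := ((n : ℝ) / P.a + 16 * (n * (n + 2)) / P.a ^ 2) / 2 / P.k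
  set bd := fun y => 1 / P.k * (1 / (2 * P.a)) * ((g y i ^ 2 + 1) + (g y j ^ 2 + 1) + (g y l ^ 2 + 1))
    + c with hbd
  have hsq := fun p => ((hgp p).pow 2).add (Poly.const (1:ℝ))
  have hbp : Poly bd := ((((hsq i).add (hsq j)).add (hsq l)).const_mul _).add (Poly.const c)
  refine (hG.abs_ex_le hq hbp fun y => ?_).trans ?_
  · have h1 : ∀ p s t, |g y p * P.Y y s t| ≤ 1 / (2 * P.a) * (g y p ^ 2 + 1) := fun p s t => by
      rw [abs_mul, show 1 / (2 * P.a) * (g y p ^ 2 + 1) = (g y p ^ 2 + 1) / 2 * (1 / P.a) by ring]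
      exact mul_le_mul (by nlinarith [sq_nonneg (|g y p| - 1), sq_abs (g y p)]) (P.abs_Y_le y s t)
        (abs_nonneg _) (by positivity)
    simp only [hqdef, hbd]
    refine (abs_add_le _ _).trans (add_le_add ?_ (P.abs_third_le y i j l))
    rw [abs_mul, abs_of_pos (one_div_pos.2 hk), mul_assoc (1 / P.k)]
    refine mul_le_mul_of_nonneg_left ?_ (one_div_pos.2 hk).le
    refine (abs_add_three _ _ _).trans ?_
    linarith [h1 i j l, h1 j i l, h1 l i j]
  · have hm : ∀ p, ex P.ψ (fun y => g y p ^ 2 + 1) ≤ 1 / P.a + 1 := fun p => by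
      rw [hG.ex_add ((hgp p).pow 2) (Poly.const 1), hG.ex_const]
      simp only [sq, hgdef, P.hψ.ex_gr_mul_gr]
      rw [← P.mH_psi]
      refine add_le_add ?_ le_rfl
      exact ((hG.ex_mono (P.poly_Y p p) (Poly.const _) fun y =>
        (le_abs_self _).trans (P.abs_Y_le y p p))).trans (le_of_eq (hG.ex_const _))
    rw [hbd, hG.ex_add ((((hsq i).add (hsq j)).add (hsq l)).const_mul _) (Poly.const c),
      ex_const_mul, hG.ex_add ((hsq i).add (hsq j)) (hsq l), hG.ex_add (hsq i) (hsq j),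
      hG.ex_const]
    have hm3 := mul_le_mul_of_nonneg_left (add_le_add (add_le_add (hm i) (hm j)) (hm l))
      (by positivity : 0 ≤ 1 / P.k * (1 / (2 * P.a)))
    refine (add_le_add hm3 le_rfl).trans (le_of_eq ?_)
    simp only [skewC, c]
    ring

end Setup

end Vale.Agent.P254M
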