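import Vale.Agent.P254M.Fibre
import Vale.Agent.P254M.PointwiseDef

/-!
Auxiliary algebra for the pointwise inequality.
-/

namespace Vale.Agent.P254M

open Finset Matrix
open Vale.Agent.P245 (sumSq sumSq_nonneg sq_le_sumSq)

variable {n : ℕ}

lemma two_mul_abs_le (a b t : ℝ) (ht : 0 < t) : 2 * |a * b| ≤ a ^ 2 / t + t * b ^ 2 := by
  have e : a ^ 2 / t + t * b ^ 2 - 2 * |a * b| = (|a| - t * |b|) ^ 2 / t := by
    rw [abs_mul, ← sq_abs a, ← sq_abs b]; field_simp; ring
  linarith [div_nonneg (sq_nonneg (|a| - t * |b|)) ht.le]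

/-- All entries are bounded by `B`. -/
def EB (A : Matrix (Fin n) (Fin n) ℝ) (B : ℝ) : Prop := ∀ i j, |A i j| ≤ B

namespace EB

variable {A C : Matrix (Fin n) (Fin n) ℝ} {B D : ℝ}

lemma mono (h : EB A B) (hBD : B ≤ D) : EB A D := fun i j => (h i j).trans hBD

lemma add (h : EB A B) (h' : EB C D) : EB (A + C) (B + D) := fun i j =>
  (abs_add_le _ _).trans (add_le_add (h i j) (h' i j))

lemma neg (h : EB A B) : EB (-A) B := fun i j => by simpa using h i j

lemma sub (h : EB A B) (h' : EB C D) : EB (A - C) (B + D) := by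
  simpa [sub_eq_add_neg] using h.add h'.neg

lemma smul (r : ℝ) (h : EB A B) : EB (r • A) (|r| * B) := fun i j => by
  simpa [abs_mul] using mul_le_mul_of_nonneg_left (h i j) (abs_nonneg r)

lemma transpose (h : EB A B) : EB Aᵀ B := fun i j => h j i

lemma mul (h : EB A B) (h' : EB C D) : EB (A * C) (n * (B * D)) := fun i j => by
  rw [mul_apply]
  refine (abs_sum_le_sum_abs _ _).trans
    ((sum_le_sum fun l _ => (?_ : _ ≤ B * D)).trans (le_of_eq (by simp)))
  rw [abs_mul]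
  exact mul_le_mul (h i l) (h' l j) (abs_nonneg _) ((abs_nonneg _).trans (h i l))

lemma abs_sum_mul_le (h : EB A B) (h' : EB C D) :
    |∑ i, ∑ j, A i j * C i j| ≤ (n : ℝ) ^ 2 * (B * D) := by
  refine (abs_sum_le_sum_abs _ _).trans
    ((sum_le_sum fun i _ => (?_ : _ ≤ (n : ℝ) * (B * D))).trans (le_of_eq (by simp; ring)))
  refine (abs_sum_le_sum_abs _ _).trans
    ((sum_le_sum fun j _ => (?_ : _ ≤ B * D)).trans (le_of_eq (by simp)))
  rw [abs_mul]
  exact mul_le_mul (h i j) (h' i j) (abs_nonneg _) ((abs_nonneg _).trans (h i j))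

end EB

lemma tc_apply (A B C : Matrix (Fin n) (Fin n) ℝ) (T : Ten n) (a b c : Fin n) :
    tc A B C T a b c = ∑ p, A p a * ∑ q, B q b * ∑ r, C r c * T p q r := rfl

lemma abs_pr_le {S T : Ten n} {B D : ℝ} (hS : ∀ p q r, |S p q r| ≤ B) (hT : ∀ p q r, |T p q r| ≤ D) :
    |pr S T| ≤ (n : ℝ) ^ 3 * (B * D) := by
  refine (abs_sum_le_sum_abs _ _).trans
    ((sum_le_sum fun p _ => (?_ : _ ≤ (n : ℝ) ^ 2 * (B * D))).trans (le_of_eq (by simp; ring)))
  refine (abs_sum_le_sum_abs _ _).trans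
    ((sum_le_sum fun q _ => (?_ : _ ≤ (n : ℝ) * (B * D))).trans (le_of_eq (by simp; ring)))
  refine (abs_sum_le_sum_abs _ _).trans
    ((sum_le_sum fun r _ => (?_ : _ ≤ B * D)).trans (le_of_eq (by simp)))
  rw [abs_mul]
  exact mul_le_mul (hS p q r) (hT p q r) (abs_nonneg _) ((abs_nonneg _).trans (hS p q r))

lemma abs_tc_entry_le {A B C : Matrix (Fin n) (Fin n) ℝ} {α β γ M : ℝ} (hA : EB A α) (hB : EB B β)
    (hC : EB C γ) {T : Ten n} (hT : ∀ p q r, |T p q r| ≤ M) (a b c : Fin n) :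
    |tc A B C T a b c| ≤ (n : ℝ) ^ 3 * (α * β * γ * M) := by
  have step : ∀ {g f : Fin n → ℝ} {X Y : ℝ}, (∀ p, |g p| ≤ X) → (∀ p, |f p| ≤ Y) →
      |∑ p, g p * f p| ≤ n * (X * Y) := by
    intro g f X Y hg hf
    refine (abs_sum_le_sum_abs _ _).trans
      ((sum_le_sum fun p _ => (?_ : _ ≤ X * Y)).trans (le_of_eq (by simp)))
    rw [abs_mul]
    exact mul_le_mul (hg p) (hf p) (abs_nonneg _) ((abs_nonneg _).trans (hg p))
  rw [tc_apply]
  refine (step (fun p => hA p a) fun p => step (fun q => hB q b) fun q =>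
    step (fun r => hC r c) fun r => hT p q r).trans (le_of_eq ?_)
  ring

/-- Monotonicity of the cost in its first matrix. -/
lemma pr_mono {B C M M' : Matrix (Fin n) (Fin n) ℝ} {α β γ δ : ℝ} (hB : Between B α β)
    (hC : Between C γ δ) (hM : ∀ u, u ⬝ᵥ (M *ᵥ u) ≤ u ⬝ᵥ (M' *ᵥ u)) (E : Ten n) :
    pr E (tc M B C E) ≤ pr E (tc M' B C E) := by
  obtain ⟨O, e, -, -, rfl, he, -⟩ := hB.diag
  obtain ⟨O', f, -, -, rfl, hf, -⟩ := hC.diag
  set E' := s2 O (s3 O' E)
  have key : ∀ X : Matrix (Fin n) (Fin n) ℝ,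
      pr E (tc X (O * diagonal e * Oᵀ) (O' * diagonal f * O'ᵀ) E)
        = ∑ b, ∑ c, e b * f c * ((fun p => E' p b c) ⬝ᵥ (Xᵀ *ᵥ fun p => E' p b c)) := by
    intro X
    have h1 : tc X (O * diagonal e * Oᵀ) (O' * diagonal f * O'ᵀ) E
        = tc 1 Oᵀ O'ᵀ (tc X (diagonal e) (diagonal f) (tc 1 O O' E)) := by
      rw [tc_tc, tc_tc]; simp only [Matrix.one_mul, Matrix.mul_one, Matrix.mul_assoc]
    rw [h1, pr_comm, tc_adj]
    simp only [transpose_one, transpose_transpose]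
    have h2 : tc 1 O O' E = E' := by
      funext a b c; simp [tc, s1, one_apply, E']
    have h3 : tc X (diagonal e) (diagonal f) E'
        = fun a b c => ∑ p, X p a * (e b * (f c * E' p b c)) := by
      funext a b c; simp [tc, s1, s2, s3, diagonal_apply]
    rw [h2, h3]
    simp only [pr, dotProduct, mulVec, transpose_apply, mul_sum, sum_mul]
    rw [sum_comm]
    refine sum_congr rfl fun b _ => ?_
    rw [sum_comm]
    exact sum_congr rfl fun c _ => sum_congr rfl fun a _ => sum_congr rfl fun p _ => by ring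
  rw [key, key]
  refine sum_le_sum fun b _ => sum_le_sum fun c _ => mul_le_mul_of_nonneg_left ?_
    (mul_nonneg (hB.pos.le.trans (he b)) (hC.pos.le.trans (hf c)))
  have e0 : ∀ X : Matrix (Fin n) (Fin n) ℝ, ∀ u, u ⬝ᵥ (Xᵀ *ᵥ u) = u ⬝ᵥ (X *ᵥ u) := fun X u => by
    rw [dotProduct_mulVec, ← mulVec_transpose, transpose_transpose, dotProduct_comm]
  rw [e0, e0]
  exact hM _

namespace Setup

variable (P : Setup n)

lemma between_Y (y : Fin n → ℝ) : Between (P.Y y) (1 / (2 * P.b)) (1 / P.a) := by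
  have hb := P.hU.b_pos
  have ha := P.hU.a_pos
  refine ⟨Matrix.ext fun i j => hs_symm P.hψ.smooth y j i, by positivity, fun v => ?_, fun v => ?_⟩
  · refine le_trans (mul_le_mul_of_nonneg_right ?_ (sumSq_nonneg v)) (P.hψ.lower y v)
    rw [div_le_div_iff₀ (by positivity) (mul_pos P.k1_pos hb)]
    nlinarith [P.k_one]
  · refine (P.hψ.upper y v).trans (mul_le_mul_of_nonneg_right ?_ (sumSq_nonneg v))
    rw [div_le_div_iff₀ (mul_pos P.k1_pos ha) ha]
    nlinarith [P.k_pos]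

lemma eb_Y (y : Fin n → ℝ) : EB (P.Y y) (1 / P.a) := P.abs_Y_le y

lemma eb_Yb (x : Fin n → ℝ) : EB (P.Yb x) (1 / P.a) := P.abs_Yb_le x

/-- The averaged third derivative is controlled by the fluctuation of the Hessian. -/
lemma abs_G_le_dx (x : Fin n → ℝ) (i j l : Fin n) :
    |P.G x i j l| ≤ Real.sqrt (1 / P.a) * Real.sqrt (P.k * P.dx x) := by
  have hB := P.bd_cy x
  have hk := P.k_pos
  have ha := P.hU.a_pos
  have e : P.G x i j l = ex (P.cy x) fun y => gr (P.cy x) y i * (P.Y y j l - P.Yb x j l) := by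
    simp only [mul_sub]
    rw [hB.grow.ex_sub ((hB.poly_gr i).mul (P.poly_Y j l)) ((hB.poly_gr i).mul (Poly.const _)),
      ex_mul_const, hB.ex_gr, zero_mul, sub_zero, G, ← hB.ex_gr_mul_hs]
    simp only [P.hs_cy]
    rw [show (fun y => gr (P.cy x) y i * ((P.k + 1) * P.Y y j l))
      = fun y => (P.k + 1) * (gr (P.cy x) y i * P.Y y j l) from funext fun y => by ring,
      ex_const_mul, mul_div_cancel_left₀ _ P.k1_pos.ne']
  rw [e]
  refine (hB.grow.abs_ex_mul_le (hB.poly_gr i) ((P.poly_Y j l).sub (Poly.const _))).trans ?_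
  calc Real.sqrt (ex (P.cy x) fun y => gr (P.cy x) y i ^ 2)
        * Real.sqrt (ex (P.cy x) fun y => (P.Y y j l - P.Yb x j l) ^ 2)
      ≤ Real.sqrt (P.k / P.a) * Real.sqrt (P.dx x) := by
        refine mul_le_mul (Real.sqrt_le_sqrt ?_) (Real.sqrt_le_sqrt ?_) (Real.sqrt_nonneg _)
          (Real.sqrt_nonneg _)
        · simp only [sq, hB.ex_gr_mul_gr]
          exact (le_abs_self _).trans (hB.abs_mH_le i i)
        · refine le_trans ?_ (single_le_sum (f := fun j => ∑ l, ex (P.cy x) fun y =>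
            (P.Y y j l - P.Yb x j l) ^ 2) (fun _ _ => sum_nonneg fun _ _ => ex_nonneg _ fun _ => sq_nonneg _)
            (mem_univ j))
          exact single_le_sum (f := fun l => ex (P.cy x) fun y => (P.Y y j l - P.Yb x j l) ^ 2)
            (fun _ _ => ex_nonneg _ fun _ => sq_nonneg _) (mem_univ l)
    _ = _ := by
        rw [← Real.sqrt_mul (by positivity), ← Real.sqrt_mul (by positivity)]
        congr 1; ring

lemma G_sym (x : Fin n → ℝ) : Sym3 (P.G x) :=
  ⟨fun a b c => by simp only [G, Bd.skew_sym.1 a b c],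
   fun a b c => by simp only [G, Bd.skew_sym.2 a b c]⟩

end Setup

end Vale.Agent.P254M
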