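import Vale.Agent.P254M.PointAux

/-!
The law of `x` given `y`: the bound for its mean Hessian and the cross term with the averaged
Hessian of the potential, both up to the fluctuation of that Hessian.
-/

namespace Vale.Agent.P254M

open MeasureTheory Set Filter Topology Finset Matrix
open Vale.Agent.P245 (pd sumSq sumSq_nonneg pd_sum pd_sub pd_const_mul)

variable {n : ℕ} {U f g : (Fin n → ℝ) → ℝ}

lemma Grow.abs_cv2_le (h : Grow U) (hf : Poly f) (hg : Poly g) {t : ℝ} (ht : 0 < t) :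
    |cv2 U f g| ≤ (t * cv2 U f f + cv2 U g g / t) / 2 := by
  have hf' := hf.sub_const (ex U f)
  have hg' := hg.sub_const (ex U g)
  rw [h.cv2_eq_centred hf hg, h.cv2_eq_centred hf hf, h.cv2_eq_centred hg hg]
  refine (h.abs_ex_le (hf'.mul hg')
    ((((hf'.mul hf').const_mul t).add ((hg'.mul hg').mul_const t⁻¹)).mul_const 2⁻¹) fun x => ?_).trans
    (le_of_eq ?_)
  · have := two_mul_abs_le (f x - ex U f) (g x - ex U g) t⁻¹ (inv_pos.2 ht)
    rw [sq, sq, div_inv_eq_mul] at this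
    linarith
  · rw [ex_mul_const, h.ex_add ((hf'.mul hf').const_mul t) ((hg'.mul hg').mul_const t⁻¹), ex_const_mul,
      ex_mul_const, ← div_eq_mul_inv, ← div_eq_mul_inv]

namespace Bd

variable {a b : ℝ} (h : Bd U a b)
include h

/-- The covariance of a linear observable and a linear function of the score. -/
lemma cv2_dot_score (w u : Fin n → ℝ) :
    cv2 U (fun x => w ⬝ᵥ x) (fun x => u ⬝ᵥ gr U x) = w ⬝ᵥ u := by
  have hp : ∀ i j, Poly fun x => w i * u j * (x i * gr U x j) := fun i j =>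
    ((Poly.coord i).mul (h.poly_gr j)).const_mul _
  have e : (fun x => (w ⬝ᵥ x) * (u ⬝ᵥ gr U x))
      = fun x => ∑ i, ∑ j, w i * u j * (x i * gr U x j) := by
    funext x; simp only [dotProduct, sum_mul_sum]
    exact sum_congr rfl fun i _ => sum_congr rfl fun j _ => by ring
  have z : ex U (fun x => u ⬝ᵥ gr U x) = 0 := by
    simp only [dotProduct]
    rw [h.grow.ex_sum _ fun j _ => (h.poly_gr j).const_mul (u j)]
    simp [ex_const_mul, h.ex_gr]
  rw [cv2, z, mul_zero, sub_zero, e, h.grow.ex_sum _ fun i _ => Poly.sum _ fun j _ => hp i j]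
  refine sum_congr rfl fun i _ => ?_
  rw [h.grow.ex_sum _ fun j _ => hp i j]
  simp [ex_const_mul, h.ex_coord_mul_gr]

/-- The variance of a linear function of the score. -/
lemma cv2_score (u : Fin n → ℝ) :
    cv2 U (fun x => u ⬝ᵥ gr U x) (fun x => u ⬝ᵥ gr U x) = u ⬝ᵥ (mH U *ᵥ u) := by
  have hp : ∀ i j, Poly fun x => u i * u j * (gr U x i * gr U x j) := fun i j =>
    ((h.poly_gr i).mul (h.poly_gr j)).const_mul _
  have e : (fun x => (u ⬝ᵥ gr U x) * (u ⬝ᵥ gr U x))
      = fun x => ∑ i, ∑ j, u i * u j * (gr U x i * gr U x j) := by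
    funext x; simp only [dotProduct, sum_mul_sum]
    exact sum_congr rfl fun i _ => sum_congr rfl fun j _ => by ring
  have z : ex U (fun x => u ⬝ᵥ gr U x) = 0 := by
    simp only [dotProduct]
    rw [h.grow.ex_sum _ fun j _ => (h.poly_gr j).const_mul (u j)]
    simp [ex_const_mul, h.ex_gr]
  rw [cv2, z, mul_zero, sub_zero, e, h.grow.ex_sum _ fun i _ => Poly.sum _ fun j _ => hp i j]
  simp only [dotProduct, mulVec, mul_sum]
  refine sum_congr rfl fun i _ => ?_
  rw [h.grow.ex_sum _ fun j _ => hp i j]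
  exact sum_congr rfl fun j _ => by rw [ex_const_mul, h.ex_gr_mul_gr]; ring

end Bd

namespace Setup

variable (P : Setup n)

/-- The error at `y`. -/
noncomputable def Err (y : Fin n → ℝ) : ℝ :=
  Real.sqrt P.k * (ex (P.cx y) P.dx + P.dy y) + 1 / Real.sqrt P.k

/-- The squared distance between `Y y` and its average given `x`. -/
noncomputable def sqDist (y x : Fin n → ℝ) : ℝ := ∑ i, ∑ j, (P.Y y i j - P.Yb x i j) ^ 2

lemma poly_sqDist (y : Fin n → ℝ) : Poly (P.sqDist y) :=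
  Poly.sum _ fun i _ => Poly.sum _ fun j _ => ((Poly.const _).sub (P.poly_Yb i j)).pow 2

lemma ex_sqDist (y : Fin n → ℝ) : ex (P.cx y) (P.sqDist y) = P.dy y := by
  have hG := (P.bd_cx y).grow
  have hp : ∀ i j, Poly fun x => (P.Y y i j - P.Yb x i j) ^ 2 := fun i j =>
    ((Poly.const _).sub (P.poly_Yb i j)).pow 2
  unfold sqDist dy
  rw [hG.ex_sum _ fun i _ => Poly.sum _ fun j _ => hp i j]
  exact sum_congr rfl fun i _ => hG.ex_sum _ fun j _ => hp i j

lemma sqrt_k : 1 ≤ Real.sqrt P.k ∧ Real.sqrt P.k * Real.sqrt P.k = P.k ∧ Real.sqrt P.k ≤ P.k := by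
  have h1 : 1 ≤ Real.sqrt P.k := Real.one_le_sqrt.2 P.k_one
  have h2 := Real.mul_self_sqrt P.k_pos.le
  exact ⟨h1, h2, by nlinarith⟩

lemma ex_err (y : Fin n → ℝ) :
    ex (P.cx y) (fun x => Real.sqrt P.k * (P.dx x + P.sqDist y x) + 1 / Real.sqrt P.k) = P.Err y := by
  have hG := (P.bd_cx y).grow
  rw [hG.ex_add ((P.poly_dx.add (P.poly_sqDist y)).const_mul _) (Poly.const _), ex_const_mul,
    hG.ex_add P.poly_dx (P.poly_sqDist y), P.ex_sqDist, hG.ex_const, Err]

/-- Given `x`, the mean squared distance of `Y` to `Y y`. -/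
lemma ex_sq_sub_Y (y x : Fin n → ℝ) :
    ex (P.cy x) (fun z => ∑ i, ∑ j, (P.Y y i j - P.Y z i j) ^ 2) = P.dx x + P.sqDist y x := by
  have hG := (P.bd_cy x).grow
  have hp : ∀ i j, Poly fun z => (P.Y y i j - P.Y z i j) ^ 2 := fun i j =>
    ((Poly.const _).sub (P.poly_Y i j)).pow 2
  rw [hG.ex_sum _ fun i _ => Poly.sum _ fun j _ => hp i j]
  simp only [dx, sqDist, ← sum_add_distrib]
  refine sum_congr rfl fun i _ => ?_
  rw [hG.ex_sum _ fun j _ => hp i j]
  refine sum_congr rfl fun j _ => ?_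
  rw [show (fun z => (P.Y y i j - P.Y z i j) ^ 2) = fun z =>
      (P.Y z i j - P.Yb x i j) ^ 2
        + ((P.Y y i j - P.Yb x i j) ^ 2 - 2 * (P.Y y i j - P.Yb x i j) * (P.Y z i j - P.Yb x i j)) from
      funext fun z => by ring,
    hG.ex_add (((P.poly_Y i j).sub_const _).pow 2)
      ((Poly.const _).sub (((P.poly_Y i j).sub_const _).const_mul _)),
    hG.ex_sub (Poly.const _) (((P.poly_Y i j).sub_const _).const_mul _), ex_const_mul,
    hG.ex_sub (P.poly_Y i j) (Poly.const _), hG.ex_const, hG.ex_const]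
  simp [Yb]

lemma cv2_Y_le_dx (x : Fin n → ℝ) (i j : Fin n) :
    cv2 (P.cy x) (fun z => P.Y z i j) (fun z => P.Y z i j) ≤ P.dx x := by
  rw [(P.bd_cy x).grow.cv2_eq_centred (P.poly_Y i j) (P.poly_Y i j)]
  simp only [← sq]
  refine le_trans ?_ (single_le_sum (f := fun i => ∑ j, ex (P.cy x) fun z => (P.Y z i j - P.Yb x i j) ^ 2)
    (fun _ _ => sum_nonneg fun _ _ => ex_nonneg _ fun _ => sq_nonneg _) (mem_univ i))
  exact single_le_sum (f := fun j => ex (P.cy x) fun z => (P.Y z i j - P.Yb x i j) ^ 2)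
    (fun _ _ => ex_nonneg _ fun _ => sq_nonneg _) (mem_univ j)

lemma Y_symm (y : Fin n → ℝ) (i j : Fin n) : P.Y y i j = P.Y y j i := hs_symm P.hψ.smooth y i j

/-- The bound at fixed `x`. -/
lemma covm_cy_le (y x u : Fin n → ℝ) :
    P.k ^ 2 * ((P.Y y *ᵥ u) ⬝ᵥ (covm (P.cy x) *ᵥ (P.Y y *ᵥ u)))
      ≤ P.k ^ 2 / (P.k + 1) * (2 * (u ⬝ᵥ (P.Y y *ᵥ u)) - u ⬝ᵥ (P.Yb x *ᵥ u))
        + P.b * P.k * sumSq u * (P.dx x + P.sqDist y x) := by
  have hB := P.bd_cy x
  have hk := P.k_pos
  have hk1 := P.k1_pos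
  set w := P.Y y *ᵥ u with hw
  set F := fun z : Fin n → ℝ => w ⬝ᵥ z with hF
  set H := fun z => u ⬝ᵥ gr (P.cy x) z with hH
  have mF : Poly F := Poly.sum _ fun i _ => (Poly.coord i).const_mul (w i)
  have mH' : Poly H := Poly.sum _ fun i _ => (hB.poly_gr i).const_mul (u i)
  have dF : ∀ l, Differentiable ℝ fun z : Fin n → ℝ => w l * z l :=
    fun l => (differentiable_apply l).const_mul _
  have dH : ∀ l, Differentiable ℝ fun z => u l * gr (P.cy x) z l :=
    fun l => (hB.diff_gr' l).const_mul _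
  have e : ∀ j z, pd j (fun z => (P.k + 1) * F z - H z) z
      = (P.k + 1) * ∑ i, (P.Y y j i - P.Y z j i) * u i := by
    intro j z
    simp only [hF, hH, dotProduct]
    rw [pd_sub ((Differentiable.fun_sum fun l _ => dF l).const_mul _)
      (Differentiable.fun_sum fun l _ => dH l), pd_const_mul (Differentiable.fun_sum fun l _ => dF l),
      pd_sum _ dF, pd_sum _ dH]
    simp only [pd_const_mul (differentiable_apply _), pd_proj, pd_const_mul (hB.diff_gr' _),
      Bd.pd_gr, P.hs_cy]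
    simp [hw, mulVec, dotProduct, mul_sum, sub_mul, mul_sub, sum_sub_distrib]
    exact sum_congr rfl fun i _ => by ring
  have hp : Poly fun z => (P.k + 1) * F z - H z := (mF.const_mul _).sub mH'
  have hcd : ContDiff ℝ 1 fun z => (P.k + 1) * F z - H z := by
    simp only [hF, hH, dotProduct]
    exact (contDiff_const.mul (ContDiff.sum fun l _ => contDiff_const.mul (contDiff_apply ℝ ℝ l))).sub
      (ContDiff.sum fun l _ => contDiff_const.mul (hB.cd_gr l))
  have hpd : ∀ j, Poly (pd j fun z => (P.k + 1) * F z - H z) := fun j => by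
    rw [funext (e j)]
    exact (Poly.sum _ fun i _ => ((Poly.const _).sub (P.poly_Y j i)).mul_const _).const_mul _
  have h := hB.poincare hcd hp hpd
  have lhs : cv2 (P.cy x) (fun z => (P.k + 1) * F z - H z) (fun z => (P.k + 1) * F z - H z)
      = (P.k + 1) ^ 2 * (w ⬝ᵥ (covm (P.cy x) *ᵥ w)) - 2 * (P.k + 1) * (u ⬝ᵥ w)
        + (P.k + 1) * (u ⬝ᵥ (P.Yb x *ᵥ u)) := by
    have hG := hB.grow
    have e1 : cv2 (P.cy x) F F = w ⬝ᵥ (covm (P.cy x) *ᵥ w) := hB.cv2_dot w
    have e2 : cv2 (P.cy x) F H = u ⬝ᵥ w := by rw [hF, hH, hB.cv2_dot_score, dotProduct_comm]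
    have e3 : cv2 (P.cy x) H H = (P.k + 1) * (u ⬝ᵥ (P.Yb x *ᵥ u)) := by
      rw [hH, hB.cv2_score]
      simp only [dotProduct, mulVec, P.Yb_eq, mul_sum]
      exact sum_congr rfl fun i _ => sum_congr rfl fun j _ => by field_simp
    rw [← e1, ← e2, ← e3]
    simp only [cv2]
    rw [show (fun z => ((P.k + 1) * F z - H z) * ((P.k + 1) * F z - H z)) = fun z =>
        (P.k + 1) ^ 2 * (F z * F z) - 2 * (P.k + 1) * (F z * H z) + H z * H z from funext fun z => by ring,
      hG.ex_add (((mF.mul mF).const_mul _).sub ((mF.mul mH').const_mul _)) (mH'.mul mH'),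
      hG.ex_sub ((mF.mul mF).const_mul _) ((mF.mul mH').const_mul _), ex_const_mul, ex_const_mul,
      hG.ex_sub (mF.const_mul _) mH', ex_const_mul]
    ring
  have rhs : 1 / (P.k / P.b) * ex (P.cy x) (fun z => sumSq (gr (fun z => (P.k + 1) * F z - H z) z))
      ≤ P.b / P.k * ((P.k + 1) ^ 2 * (sumSq u * (P.dx x + P.sqDist y x))) := by
    rw [one_div_div, ← P.ex_sq_sub_Y, ← ex_const_mul _ _ (sumSq u), ← ex_const_mul _ _ ((P.k + 1) ^ 2)]
    refine mul_le_mul_of_nonneg_left (hB.grow.ex_mono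
      (Poly.sum _ fun j _ => (hpd j).pow 2)
      (((Poly.sum _ fun i _ => Poly.sum _ fun j _ => ((Poly.const _).sub (P.poly_Y i j)).pow 2).const_mul
        _).const_mul _) fun z => ?_) (div_pos P.hU.b_pos hk).le
    simp only [sumSq, gr, e, mul_pow, ← mul_sum]
    refine mul_le_mul_of_nonneg_left ?_ (sq_nonneg _)
    rw [mul_sum]
    refine sum_le_sum fun j _ => ?_
    rw [mul_comm]
    exact sum_mul_sq_le_sq_mul_sq univ _ u
  rw [lhs] at h
  have h2 := mul_le_mul_of_nonneg_left (h.trans rhs) (show 0 ≤ P.k ^ 2 / (P.k + 1) ^ 2 by positivity)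
  refine le_of_sub_nonneg ((sub_nonneg.2 h2).trans (le_of_eq ?_))
  field_simp
  ring

/-- The mean Hessian of the law of `x` given `y`, tested on `Y`. -/
theorem exists_mH_cx_le (n : ℕ) (a b : ℝ) : ∃ K : ℝ, 0 ≤ K ∧ ∀ P : Setup n, P.a = a → P.b = b →
    ∀ y u, (P.Y y *ᵥ u) ⬝ᵥ (mH (P.cx y) *ᵥ (P.Y y *ᵥ u))
      ≤ P.k * (u ⬝ᵥ (P.Y y *ᵥ u)) + K * sumSq u * P.k * P.Err y := by
  refine ⟨|b| * ((n : ℝ) * n * (1 / a) ^ 2) + ((n : ℝ) * n + 1) + |b|,
    by have := mul_nonneg (abs_nonneg b) (show 0 ≤ (n : ℝ) * n * (1 / a) ^ 2 by positivity); positivity,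
    fun P ha hb y u => ?_⟩
  subst ha hb
  rw [abs_of_pos P.hU.b_pos]
  have hG := (P.bd_cx y).grow
  have hk := P.k_pos
  have hb := P.hU.b_pos
  obtain ⟨hs1, hs2, hs3⟩ := P.sqrt_k
  have hu := sumSq_nonneg u
  set w := P.Y y *ᵥ u with hw
  set q := u ⬝ᵥ (P.Y y *ᵥ u) with hq
  have hq0 : 0 ≤ q := (mul_nonneg P.hψ.a_pos.le hu).trans (P.hψ.lower y u)
  have hsum : sumSq w ≤ (n : ℝ) * n * (1 / P.a) ^ 2 * sumSq u := by
    have h1 : sumSq w ≤ (∑ i, ∑ j, P.Y y i j ^ 2) * sumSq u := by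
      rw [sum_mul]
      exact sum_le_sum fun i _ => sum_mul_sq_le_sq_mul_sq univ _ u
    refine h1.trans (mul_le_mul_of_nonneg_right ?_ hu)
    refine (sum_le_sum fun i _ => sum_le_sum fun j _ => (?_ : _ ≤ (1 / P.a) ^ 2)).trans
      (le_of_eq (by simp; ring))
    rw [← sq_abs]
    exact pow_le_pow_left₀ (abs_nonneg _) (P.abs_Y_le y i j) 2
  set R := fun x => P.b * sumSq w + P.k * q + P.k * (sumSq u
    * ((P.b + 1) * (Real.sqrt P.k * (P.dx x + P.sqDist y x) + 1 / Real.sqrt P.k)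
      + (n : ℝ) * n * (1 / Real.sqrt P.k))) with hR
  have key : ∀ x, w ⬝ᵥ (hs (P.cx y) x *ᵥ w) ≤ R x := by
    intro x
    have e : w ⬝ᵥ (hs (P.cx y) x *ᵥ w)
        = w ⬝ᵥ (hs P.U x *ᵥ w) + P.k ^ 2 * (w ⬝ᵥ (covm (P.cy x) *ᵥ w)) := by
      simp only [dotProduct, mulVec, P.hs_cx, mul_sum, ← sum_add_distrib]
      exact sum_congr rfl fun i _ => sum_congr rfl fun j _ => by ring
    rw [e]
    refine (add_le_add (P.hU.upper x w) (P.covm_cy_le y x u)).trans ?_
    have hd0 : 0 ≤ P.sqDist y x := sum_nonneg fun _ _ => sum_nonneg fun _ _ => sq_nonneg _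
    have hx0 := P.dx_nonneg x
    set d := u ⬝ᵥ (P.Yb x *ᵥ u)
    have hdiff : |q - d| ≤ sumSq u * ((n : ℝ) * n * (1 / Real.sqrt P.k) + Real.sqrt P.k * P.sqDist y x) := by
      have e2 : q - d = ∑ i, ∑ j, u i * u j * (P.Y y i j - P.Yb x i j) := by
        simp only [q, d, dotProduct, mulVec, mul_sum, ← sum_sub_distrib]
        exact sum_congr rfl fun i _ => sum_congr rfl fun j _ => by ring
      rw [e2]
      have e3 : (n : ℝ) * n * (1 / Real.sqrt P.k) + Real.sqrt P.k * P.sqDist y x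
          = ∑ i : Fin n, ∑ j : Fin n,
            (1 / Real.sqrt P.k + Real.sqrt P.k * (P.Y y i j - P.Yb x i j) ^ 2) := by
        simp [sqDist, sum_add_distrib, mul_sum, mul_assoc]
      rw [e3, mul_sum]
      refine (abs_sum_le_sum_abs _ _).trans (sum_le_sum fun i _ => ?_)
      rw [mul_sum]
      refine (abs_sum_le_sum_abs _ _).trans (sum_le_sum fun j _ => ?_)
      rw [abs_mul]
      refine mul_le_mul ?_ ?_ (abs_nonneg _) hu
      · rw [abs_mul]
        nlinarith [P245.sq_le_sumSq u i, P245.sq_le_sumSq u j, sq_abs (u i), sq_abs (u j),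
          sq_nonneg (|u i| - |u j|)]
      · have := two_mul_abs_le 1 (P.Y y i j - P.Yb x i j) (Real.sqrt P.k) (by linarith)
        rw [one_mul, one_pow] at this
        have := abs_nonneg (P.Y y i j - P.Yb x i j)
        linarith
    set c := P.k ^ 2 / (P.k + 1)
    have hc0 : 0 ≤ c := by positivity
    have hc : c ≤ P.k := (div_le_iff₀ P.k1_pos).2 (by nlinarith)
    have t1 : c * (2 * q - d) ≤ P.k * q + P.k * |q - d| := by
      rw [show 2 * q - d = q + (q - d) by ring, mul_add]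
      exact add_le_add (mul_le_mul_of_nonneg_right hc hq0)
        ((mul_le_mul_of_nonneg_left (le_abs_self _) hc0).trans
          (mul_le_mul_of_nonneg_right hc (abs_nonneg _)))
    have t2 := mul_le_mul_of_nonneg_left hdiff hk.le
    have t3 : P.b * P.k * sumSq u * (P.dx x + P.sqDist y x)
        ≤ P.b * P.k * sumSq u * (Real.sqrt P.k * (P.dx x + P.sqDist y x)) :=
      mul_le_mul_of_nonneg_left (le_mul_of_one_le_left (by linarith) hs1) (by positivity)
    have t4 : 0 ≤ P.k * sumSq u * (Real.sqrt P.k * P.dx x) := by positivity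
    have t5 : 0 ≤ P.k * sumSq u * ((P.b + 1) * (1 / Real.sqrt P.k)) := by positivity
    simp only [hR]
    linarith
  have hB := P.bd_cx y
  have e4 : w ⬝ᵥ (mH (P.cx y) *ᵥ w) = ex (P.cx y) fun x => w ⬝ᵥ (hs (P.cx y) x *ᵥ w) := by
    have hp : ∀ i j, Poly fun x => w i * (hs (P.cx y) x i j * w j) := fun i j =>
      ((hB.poly_hs i j).mul_const _).const_mul _
    simp only [dotProduct, mulVec, mul_sum, mH]
    rw [hG.ex_sum _ fun i _ => Poly.sum _ fun j _ => hp i j]
    refine sum_congr rfl fun i _ => ?_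
    rw [hG.ex_sum _ fun j _ => hp i j]
    simp only [ex_const_mul, ex_mul_const]
  have m1 : Poly fun x => w ⬝ᵥ (hs (P.cx y) x *ᵥ w) := by
    simp only [dotProduct, mulVec]
    exact Poly.sum _ fun i _ =>
      (Poly.sum _ fun j _ => (hB.poly_hs i j).mul_const (w j)).const_mul (w i)
  have m2 : Poly fun x => Real.sqrt P.k * (P.dx x + P.sqDist y x) + 1 / Real.sqrt P.k :=
    ((P.poly_dx.add (P.poly_sqDist y)).const_mul _).add (Poly.const _)
  have m3 := (((m2.const_mul (P.b + 1)).add (Poly.const ((n : ℝ) * n * (1 / Real.sqrt P.k)))).const_mul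
    (sumSq u)).const_mul P.k
  have m4 : Poly R := (Poly.const _).add m3
  rw [e4]
  refine (hG.ex_mono m1 m4 key).trans ?_
  rw [hR, hG.ex_add (Poly.const _) m3, hG.ex_const, ex_const_mul, ex_const_mul,
    hG.ex_add (m2.const_mul _) (Poly.const _), hG.ex_const, ex_const_mul, P.ex_err]
  have hE : 1 / Real.sqrt P.k ≤ P.Err y := by
    refine le_trans (le_of_eq (hG.ex_const _).symm)
      ((hG.ex_mono (Poly.const _) m2 fun x => ?_).trans (le_of_eq (P.ex_err y)))
    have := P.dx_nonneg x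
    have : 0 ≤ P.sqDist y x := sum_nonneg fun _ _ => sum_nonneg fun _ _ => sq_nonneg _
    have : 0 ≤ Real.sqrt P.k * (P.dx x + P.sqDist y x) := by positivity
    linarith
  have hkE : 1 ≤ P.k * P.Err y := by
    refine le_trans ?_ (mul_le_mul_of_nonneg_left hE hk.le)
    rw [mul_one_div, le_div_iff₀ (by linarith), one_mul]
    exact hs3
  have t1 : P.b * sumSq w ≤ P.b * ((n : ℝ) * n * (1 / P.a) ^ 2 * sumSq u) * (P.k * P.Err y) :=
    (mul_le_mul_of_nonneg_left hsum hb.le).trans (le_mul_of_one_le_right (by positivity) hkE)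
  have t2 := mul_le_mul_of_nonneg_left hE
    (show 0 ≤ P.k * sumSq u * ((n : ℝ) * n) by positivity)
  linarith

/-- The cross term at fixed `x`. -/
lemma cross_le (y x : Fin n → ℝ) (p i q : Fin n) :
    |P.k * cv2 (P.cy x) (fun z => P.Y z i q) (fun z => (fun j => P.Y y p j) ⬝ᵥ z) - P.G x p i q|
      ≤ (1 / P.a + 2 + 2 * P.b)
          * (Real.sqrt P.k * (P.dx x + P.sqDist y x) + 1 / Real.sqrt P.k) := by
  have hB := P.bd_cy x
  have hG := hB.grow
  have hk := P.k_pos
  have hk1 := P.k1_pos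
  have ha := P.hU.a_pos
  have hb := P.hU.b_pos
  obtain ⟨hs1, hs2, hs3⟩ := P.sqrt_k
  set S := Real.sqrt P.k
  have hS0 : 0 < S := by linarith
  set L := fun z : Fin n → ℝ => (fun j => P.Y y p j) ⬝ᵥ z with hL
  set Kp := fun j => (P.k + 1) * P.Y y p j with hK
  set r := fun z : Fin n → ℝ => Kp ⬝ᵥ z - gr (P.cy x) z p with hr
  have mL : Poly L := Poly.sum _ fun j _ => (Poly.coord j).const_mul _
  have mr : Poly r := (Poly.sum _ fun j _ => (Poly.coord j).const_mul (Kp j)).sub (hB.poly_gr p)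
  have mY := P.poly_Y i q
  have eG : cv2 (P.cy x) (fun z => P.Y z i q) (fun z => gr (P.cy x) z p) = P.G x p i q := by
    rw [cv2, hB.ex_gr, mul_zero, sub_zero, G, ← hB.ex_gr_mul_hs, eq_div_iff hk1.ne', ← ex_mul_const]
    congr 1; funext z; rw [P.hs_cy]; ring
  have esplit : (P.k + 1) * cv2 (P.cy x) (fun z => P.Y z i q) L
      = P.G x p i q + cv2 (P.cy x) (fun z => P.Y z i q) r := by
    have er : r = fun z => (P.k + 1) * L z - gr (P.cy x) z p := by
      funext z; simp [hr, hK, hL, dotProduct, mul_sum, mul_assoc]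
    rw [← eG, er]
    simp only [cv2, mul_sub]
    rw [show (fun z => P.Y z i q * ((P.k + 1) * L z) - P.Y z i q * gr (P.cy x) z p)
        = fun z => (P.k + 1) * (P.Y z i q * L z) - P.Y z i q * gr (P.cy x) z p from
        funext fun z => by ring,
      hG.ex_sub ((mY.mul mL).const_mul _) (mY.mul (hB.poly_gr p)),
      hG.ex_sub (mL.const_mul _) (hB.poly_gr p), ex_const_mul, ex_const_mul]
    ring
  have hvr : cv2 (P.cy x) r r ≤ 4 * P.b * P.k * (P.dx x + P.sqDist y x) := by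
    refine (hB.var_residual_le Kp p).trans ?_
    rw [one_div_div, ← P.ex_sq_sub_Y, ← ex_const_mul, ← ex_const_mul]
    refine hG.ex_mono ((Poly.sum _ fun j _ => ((Poly.const _).sub (hB.poly_hs j p)).pow 2).const_mul _)
      ((Poly.sum _ fun i _ => Poly.sum _ fun j _ => ((Poly.const _).sub (P.poly_Y i j)).pow 2).const_mul _)
      fun z => ?_
    simp only [hK, P.hs_cy, ← mul_sub, mul_pow, ← mul_sum, ← mul_assoc]
    refine mul_le_mul ?_ ?_ (sum_nonneg fun _ _ => sq_nonneg _) (by positivity)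
    · rw [div_mul_eq_mul_div, div_le_iff₀ hk]
      have : (P.k + 1) ^ 2 ≤ 4 * P.k ^ 2 := by nlinarith [P.k_one]
      calc P.b * (P.k + 1) ^ 2 ≤ P.b * (4 * P.k ^ 2) := mul_le_mul_of_nonneg_left this hb.le
        _ = _ := by ring
    · simp only [P.Y_symm z _ p]
      exact single_le_sum (f := fun i => ∑ j, (P.Y y i j - P.Y z i j) ^ 2)
        (fun _ _ => sum_nonneg fun _ _ => sq_nonneg _) (mem_univ p)
  set C := cv2 (P.cy x) (fun z => P.Y z i q) r
  set G0 := P.G x p i q
  set D := P.dx x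
  set T := P.sqDist y x
  have hD : 0 ≤ D := P.dx_nonneg x
  have hT : 0 ≤ T := sum_nonneg fun _ _ => sum_nonneg fun _ _ => sq_nonneg _
  have hC : |C| ≤ (S * D + 4 * P.b * S * (D + T)) / 2 := by
    refine (hG.abs_cv2_le mY mr hS0).trans (div_le_div_of_nonneg_right (add_le_add
      (mul_le_mul_of_nonneg_left (P.cv2_Y_le_dx x i q) hS0.le)
      ((div_le_div_of_nonneg_right hvr hS0.le).trans (le_of_eq ?_))) zero_le_two)
    rw [div_eq_iff hS0.ne', ← hs2]; ring
  have hg : |G0| / (P.k + 1) ≤ 1 / P.a * (1 / S) + S * D := by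
    rw [div_le_iff₀ hk1]
    refine (P.abs_G_le_dx x p i q).trans ?_
    have h1 : Real.sqrt (1 / P.a) * Real.sqrt (P.k * D) ≤ (1 / P.a + P.k * D) := by
      have := sq_nonneg (Real.sqrt (1 / P.a) - Real.sqrt (P.k * D))
      have := Real.mul_self_sqrt (show 0 ≤ 1 / P.a by positivity)
      have := Real.mul_self_sqrt (show 0 ≤ P.k * D by positivity)
      nlinarith [Real.sqrt_nonneg (1 / P.a), Real.sqrt_nonneg (P.k * D)]
    refine h1.trans ?_
    rw [add_mul, mul_assoc]
    refine add_le_add (le_mul_of_one_le_right (by positivity) ?_) ?_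
    · rw [one_div_mul_eq_div, one_le_div hS0]; linarith
    · calc P.k * D ≤ (S * (P.k + 1)) * D :=
            mul_le_mul_of_nonneg_right (by nlinarith) hD
        _ = _ := by ring
  have e : P.k * cv2 (P.cy x) (fun z => P.Y z i q) L - G0 = P.k / (P.k + 1) * C - G0 / (P.k + 1) := by
    have : cv2 (P.cy x) (fun z => P.Y z i q) L = (G0 + C) / (P.k + 1) := by
      rw [eq_div_iff hk1.ne', mul_comm]; exact esplit
    rw [this]; field_simp; ring
  rw [e]
  refine (abs_sub _ _).trans ?_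
  rw [abs_mul, abs_div G0, abs_of_pos hk1, abs_of_pos (div_pos hk hk1)]
  have h2 : P.k / (P.k + 1) * |C| ≤ |C| :=
    mul_le_of_le_one_left (abs_nonneg _) ((div_le_one hk1).2 (by linarith))
  have t1 : 0 ≤ 1 / P.a * (S * (D + T)) := by positivity
  have t2 : 0 ≤ (1 + 2 * P.b) * (1 / S) := by positivity
  have t3 : 0 ≤ S * T := by positivity
  have t4 : 0 ≤ S * D := by positivity
  have t5 : 0 ≤ 1 / S := by positivity
  linarith

/-- The cross term between the score given `y` and the averaged Hessian. -/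
theorem exists_cross (n : ℕ) (a b : ℝ) : ∃ K : ℝ, 0 ≤ K ∧ ∀ P : Setup n, P.a = a → P.b = b →
    ∀ y p i q, |(∑ p', P.Y y p p' * ex (P.cx y) (fun x => gr (P.cx y) x p' * P.Yb x i q))
        - ex (P.cx y) (fun x => P.G x p i q)| ≤ K * P.Err y := by
  refine ⟨|1 / a| + 2 + 2 * |b|, by positivity, fun P ha hb y p i q => ?_⟩
  subst ha hb
  rw [abs_of_pos P.hU.b_pos, abs_of_pos (one_div_pos.2 P.hU.a_pos)]
  have hB := P.bd_cx y
  have hG := hB.grow
  have hp : ∀ p', Poly fun x => P.Y y p p' * pd p' (fun x => P.Yb x i q) x := fun p' =>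
    (P.poly_pd_Yb p' i q).const_mul _
  have e1 : ∀ p', ex (P.cx y) (fun x => gr (P.cx y) x p' * P.Yb x i q)
      = ex (P.cx y) (pd p' fun x => P.Yb x i q) := fun p' => by
    rw [hB.ibp (P.contDiff_Yb i q) (P.poly_Yb i q) p' (P.poly_pd_Yb p' i q)]
    congr 1; funext x; ring
  have e2 : (fun x => ∑ p', P.Y y p p' * pd p' (fun x => P.Yb x i q) x)
      = fun x => P.k * cv2 (P.cy x) (fun z => P.Y z i q) fun z => (fun j => P.Y y p j) ⬝ᵥ z := by
    funext x
    have hG' := (P.bd_cy x).grow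
    have m : ∀ j, Poly fun z => P.Y z i q * (P.Y y p j * z j) := fun j =>
      (P.poly_Y i q).mul ((Poly.coord j).const_mul _)
    simp only [P.pd_Yb, cv2, dotProduct, mul_sum]
    rw [hG'.ex_sum _ fun j _ => m j, hG'.ex_sum _ fun j _ => (Poly.coord j).const_mul _, mul_sum,
      ← sum_sub_distrib, mul_sum]
    refine sum_congr rfl fun j _ => ?_
    rw [show (fun z => P.Y z i q * (P.Y y p j * z j)) = fun z => P.Y y p j * (P.Y z i q * z j) from
      funext fun z => by ring, ex_const_mul, ex_const_mul]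
    ring
  have e3 : ∑ p', P.Y y p p' * ex (P.cx y) (fun x => gr (P.cx y) x p' * P.Yb x i q)
      = ex (P.cx y) fun x => ∑ p', P.Y y p p' * pd p' (fun x => P.Yb x i q) x := by
    rw [hG.ex_sum _ fun p' _ => hp p']
    simp only [e1, ex_const_mul]
  have hm : Poly fun x => ∑ p', P.Y y p p' * pd p' (fun x => P.Yb x i q) x :=
    Poly.sum _ fun p' _ => hp p'
  rw [e3, ← hG.ex_sub hm (P.poly_G p i q)]
  refine (hG.abs_ex_le (hm.sub (P.poly_G p i q))
    ((((P.poly_dx.add (P.poly_sqDist y)).const_mul _).add (Poly.const _)).const_mul _) fun x => ?_).trans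
    (le_of_eq (by rw [ex_const_mul, P.ex_err]))
  rw [congrFun e2 x]
  exact P.cross_le y x p i q

end Setup

end Vale.Agent.P254M
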