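import Vale.Agent.P254M.Expand
import Vale.Agent.P254M.XAux

/-!
The pointwise inequality for the regularised moment map.
-/

namespace Vale.Agent.P254M

open MeasureTheory Set Filter Topology Finset Matrix
open Vale.Agent.P245 (sumSq sumSq_nonneg sq_le_sumSq)

variable {n : ℕ}

lemma Grow.ex_wsum {U : (Fin n → ℝ) → ℝ} (h : Grow U) (Y : Matrix (Fin n) (Fin n) ℝ)
    {A : (Fin n → ℝ) → Matrix (Fin n) (Fin n) ℝ} (hA : ∀ i j, Poly fun x => A x i j) :
    ex U (fun x => wsum Y (A x)) = wsum Y fun i j => ex U fun x => A x i j := by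
  simp only [wsum]
  rw [h.ex_sum (F := fun i x => ∑ l, Y i l * A x i l) _ fun i _ =>
    Poly.sum _ fun l _ => (hA i l).const_mul _]
  refine sum_congr rfl fun i _ => ?_
  rw [h.ex_sum (F := fun l x => Y i l * A x i l) _ fun l _ => (hA i l).const_mul _]
  simp only [ex_const_mul]

lemma poly_wsum (Y : Matrix (Fin n) (Fin n) ℝ) {A : (Fin n → ℝ) → Matrix (Fin n) (Fin n) ℝ}
    (hA : ∀ i j, Poly fun x => A x i j) : Poly fun x => wsum Y (A x) :=
  Poly.sum (F := fun i x => ∑ l, Y i l * A x i l) _ fun i _ =>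
    Poly.sum _ fun l _ => (hA i l).const_mul _

lemma poly_tc (A B C : Matrix (Fin n) (Fin n) ℝ) {T : (Fin n → ℝ) → Ten n}
    (hT : ∀ p q r, Poly fun x => T x p q r) (a b c : Fin n) :
    Poly fun x => tc A B C (T x) a b c := by
  simp only [tc_apply]
  exact Poly.sum _ fun p _ => (Poly.sum _ fun q _ => (Poly.sum _ fun r _ =>
    (hT p q r).const_mul (C r c)).const_mul (B q b)).const_mul (A p a)

lemma Grow.ex_pr_tc {U : (Fin n → ℝ) → ℝ} (h : Grow U) (S : Ten n)
    (A B C : Matrix (Fin n) (Fin n) ℝ) {T : (Fin n → ℝ) → Ten n}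
    (hT : ∀ p q r, Poly fun x => T x p q r) :
    ex U (fun x => pr S (tc A B C (T x))) = pr S (tc A B C fun p q r => ex U fun x => T x p q r) := by
  have hp := poly_tc A B C hT
  simp only [pr]
  rw [h.ex_sum (F := fun a x => ∑ b, ∑ c, S a b c * tc A B C (T x) a b c) _ fun a _ =>
    Poly.sum _ fun b _ => Poly.sum _ fun c _ => (hp a b c).const_mul _]
  refine sum_congr rfl fun a _ => ?_
  rw [h.ex_sum (F := fun b x => ∑ c, S a b c * tc A B C (T x) a b c) _ fun b _ =>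
    Poly.sum _ fun c _ => (hp a b c).const_mul _]
  refine sum_congr rfl fun b _ => ?_
  rw [h.ex_sum (F := fun c x => S a b c * tc A B C (T x) a b c) _ fun c _ => (hp a b c).const_mul _]
  refine sum_congr rfl fun c _ => ?_
  rw [ex_const_mul]
  congr 1
  simp only [tc_apply]
  rw [h.ex_sum _ fun p _ => (Poly.sum _ fun q _ => (Poly.sum _ fun r _ =>
    (hT p q r).const_mul (C r c)).const_mul (B q b)).const_mul (A p a)]
  refine sum_congr rfl fun p _ => ?_
  rw [ex_const_mul, h.ex_sum _ fun q _ => (Poly.sum _ fun r _ =>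
    (hT p q r).const_mul (C r c)).const_mul (B q b)]
  congr 1
  refine sum_congr rfl fun q _ => ?_
  rw [ex_const_mul, h.ex_sum _ fun r _ => (hT p q r).const_mul (C r c)]
  simp only [ex_const_mul]

lemma sum_four' (f : Fin n → Fin n → Fin n → Fin n → ℝ) :
    ∑ a, ∑ b, ∑ c, ∑ d, f a b c d = ∑ d, ∑ c, ∑ b, ∑ a, f a b c d :=
  calc ∑ a, ∑ b, ∑ c, ∑ d, f a b c d = ∑ c, ∑ d, ∑ a, ∑ b, f a b c d := sum_four f
    _ = ∑ d, ∑ c, ∑ a, ∑ b, f a b c d := sum_comm
    _ = _ := sum_congr rfl fun _ _ => sum_congr rfl fun _ _ => sum_comm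

lemma tc_add₁ (A A' B C : Matrix (Fin n) (Fin n) ℝ) (T : Ten n) :
    tc (A + A') B C T = fun a b c => tc A B C T a b c + tc A' B C T a b c := by
  funext a b c
  simp only [tc_apply, Matrix.add_apply, add_mul, sum_add_distrib]

lemma pr_tc_smul₁ (r : ℝ) (A B C : Matrix (Fin n) (Fin n) ℝ) (S T : Ten n) :
    pr S (tc (r • A) B C T) = r * pr S (tc A B C T) := by
  simp only [pr, tc_apply, Matrix.smul_apply, smul_eq_mul, mul_sum]
  exact sum_congr rfl fun a _ => sum_congr rfl fun b _ => sum_congr rfl fun c _ =>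
    sum_congr rfl fun p _ => sum_congr rfl fun q _ => sum_congr rfl fun r' _ => by ring

namespace Setup

variable (P : Setup n)

/-- The error, averaged given `y`. -/
lemma ex_er_le (y : Fin n → ℝ) :
    ex (P.cx y) (P.er y) ≤ (1 + 4 * ((n : ℝ) + 2) * n * P.b ^ 2 + 2 * n * P.b) * P.Err y := by
  have hB := P.bd_cx y
  have hG := hB.grow
  have hk := P.k_pos
  set t := Real.sqrt P.k with ht
  have ht0 : 0 < t := Real.sqrt_pos.2 hk
  have m0 : Poly fun x => t * (P.dx x + P.sqDist y x) + 1 / t :=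
    ((P.poly_dx.add (P.poly_sqDist y)).const_mul t).add (Poly.const _)
  have m1 : Poly fun x => 1 / (P.k ^ 2 * t) * sumSq (gr (P.cx y) x) ^ 2 :=
    (hB.poly_sumSq_gr.pow 2).const_mul _
  have m2 : Poly fun x => 1 / (P.k * t) * sumSq (gr (P.cx y) x) := hB.poly_sumSq_gr.const_mul _
  have e : P.er y = fun x => (t * (P.dx x + P.sqDist y x) + 1 / t)
      + 1 / (P.k ^ 2 * t) * sumSq (gr (P.cx y) x) ^ 2 + 1 / (P.k * t) * sumSq (gr (P.cx y) x) := by
    funext x
    simp only [er, ← ht]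
    rw [show P.sd y x = P.sqDist y x from rfl]
    field_simp; ring
  rw [e, hG.ex_add (m0.add m1) m2, hG.ex_add m0 m1, ex_const_mul, ex_const_mul, P.ex_err]
  have hb := P.hU.b_pos
  have hkb : (P.k + 1) * P.b ≤ 2 * P.k * P.b := by nlinarith [P.k_one]
  have h1 : 1 / (P.k ^ 2 * t) * ex (P.cx y) (fun x => sumSq (gr (P.cx y) x) ^ 2)
      ≤ 4 * ((n : ℝ) + 2) * n * P.b ^ 2 * (1 / t) := by
    calc 1 / (P.k ^ 2 * t) * ex (P.cx y) (fun x => sumSq (gr (P.cx y) x) ^ 2)
        ≤ 1 / (P.k ^ 2 * t) * (((n : ℝ) + 2) * n * (2 * P.k * P.b) ^ 2) := by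
          refine mul_le_mul_of_nonneg_left (hB.ex_sumSq_gr_sq.trans ?_) (by positivity)
          refine mul_le_mul_of_nonneg_left (pow_le_pow_left₀ ?_ hkb 2) (by positivity)
          have := P.k1_pos; positivity
      _ = _ := by field_simp; ring
  have h2 : 1 / (P.k * t) * ex (P.cx y) (fun x => sumSq (gr (P.cx y) x))
      ≤ 2 * (n : ℝ) * P.b * (1 / t) := by
    calc 1 / (P.k * t) * ex (P.cx y) (fun x => sumSq (gr (P.cx y) x))
        ≤ 1 / (P.k * t) * ((n : ℝ) * (2 * P.k * P.b)) := by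
          refine mul_le_mul_of_nonneg_left (hB.ex_sumSq_gr.trans ?_) (by positivity)
          exact mul_le_mul_of_nonneg_left hkb (Nat.cast_nonneg n)
      _ = _ := by field_simp
  have h3 : 1 / t ≤ P.Err y := by
    have : 0 ≤ t * (ex (P.cx y) P.dx + P.dy y) :=
      mul_nonneg ht0.le (add_nonneg (ex_nonneg _ P.dx_nonneg) (P.dy_nonneg y))
    simp only [Err, ← ht]; linarith
  have h4 := mul_le_mul_of_nonneg_left h3
    (show 0 ≤ 4 * ((n : ℝ) + 2) * n * P.b ^ 2 + 2 * n * P.b by positivity)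
  linarith

lemma poly_sd (y : Fin n → ℝ) : Poly (P.sd y) := P.poly_sqDist y

lemma poly_er (y : Fin n → ℝ) : Poly (P.er y) :=
  ((((P.poly_dx.add (P.poly_sd y)).const_mul (Real.sqrt P.k)).add (Poly.const (1 / Real.sqrt P.k))).add
    ((((((P.bd_cx y).poly_sumSq_gr).pow 2).const_mul (1 / P.k ^ 2)).add
      (((P.bd_cx y).poly_sumSq_gr).const_mul (1 / P.k))).const_mul (1 / Real.sqrt P.k))).congr fun x => by
    simp only [er]; ring

lemma Gy_sym (y : Fin n → ℝ) : Sym3 (P.Gy y) :=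
  ⟨fun a b c => by simp only [Gy, (P.G_sym _).1 a b c],
   fun a b c => by simp only [Gy, (P.G_sym _).2 a b c]⟩

/-- The cross term, averaged. -/
lemma ex_cross_ge {Kx : ℝ} (hKx : ∀ y p i q, |(∑ p', P.Y y p p' *
    ex (P.cx y) (fun x => gr (P.cx y) x p' * P.Yb x i q))
      - ex (P.cx y) (fun x => P.G x p i q)| ≤ Kx * P.Err y)
    {Ke : ℝ} (E : Ten n) (hE : ∀ p q i, |E p q i| ≤ Ke) (y : Fin n → ℝ) :
    pr E (tc 1 1 (P.Y y) (P.Gy y)) - (n : ℝ) ^ 4 * (|1 / P.a| * (|Ke| * (Kx * P.Err y)))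
      ≤ ex (P.cx y) fun x => wsum (P.Y y) (P.Yb x * P.Sm E y x) := by
  have hB := P.bd_cx y
  have hG := hB.grow
  have hm : ∀ i j, Poly fun x => (P.Yb x * P.Sm E y x) i j :=
    poly_mat_mul P.poly_Yb (P.poly_Sm E y)
  set X := fun p i q => ∑ p', P.Y y p p' * ex (P.cx y) (fun x => gr (P.cx y) x p' * P.Yb x i q)
  have hent : ∀ i l, ex (P.cx y) (fun x => (P.Yb x * P.Sm E y x) i l)
      = ∑ q, ∑ p, E p q l * X p i q := by
    intro i l
    have mt : ∀ q p', Poly fun x => (∑ p, E p q l * P.Y y p p') * (gr (P.cx y) x p' * P.Yb x i q) :=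
      fun q p' => ((hB.poly_gr p').mul (P.poly_Yb i q)).const_mul _
    have e : (fun x => (P.Yb x * P.Sm E y x) i l)
        = fun x => ∑ q, ∑ p', (∑ p, E p q l * P.Y y p p') * (gr (P.cx y) x p' * P.Yb x i q) := by
      funext x
      simp only [mul_apply, Sm, mul_sum]
      exact sum_congr rfl fun q _ => sum_congr rfl fun p' _ => by rw [sum_mul, sum_mul, mul_sum]; exact sum_congr rfl fun p _ => by ring
    rw [e, hG.ex_sum _ fun q _ => Poly.sum _ fun p' _ => mt q p']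
    refine sum_congr rfl fun q _ => ?_
    rw [hG.ex_sum _ fun p' _ => mt q p']
    simp only [ex_const_mul, X]
    simp only [sum_mul, mul_sum]
    rw [sum_comm]
    exact sum_congr rfl fun p _ => sum_congr rfl fun p' _ => by ring
  rw [hG.ex_wsum _ hm]
  have e1 : pr E (tc 1 1 (P.Y y) (P.Gy y))
      = ∑ i, ∑ l, ∑ q, ∑ p, P.Y y i l * (E p q l * P.Gy y p i q) := by
    calc pr E (tc 1 1 (P.Y y) (P.Gy y)) = ∑ p, ∑ q, ∑ l, ∑ i, E p q l * (P.Y y i l * P.Gy y p q i) := by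
          simp [pr, tc_apply, Matrix.one_apply, mul_sum]
      _ = _ := by
          rw [sum_four, sum_comm]
          refine sum_congr rfl fun i _ => sum_congr rfl fun l _ => ?_
          rw [sum_comm]
          exact sum_congr rfl fun q _ => sum_congr rfl fun p _ => by
            rw [(P.Gy_sym y).2 p q i]; ring
  have e2 : wsum (P.Y y) (fun i l => ex (P.cx y) fun x => (P.Yb x * P.Sm E y x) i l)
      = ∑ i, ∑ l, ∑ q, ∑ p, P.Y y i l * (E p q l * X p i q) := by
    simp only [wsum, hent, mul_sum]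
  have h : ∀ i l q p, P.Y y i l * (E p q l * P.Gy y p i q) - |1 / P.a| * (|Ke| * (Kx * P.Err y))
      ≤ P.Y y i l * (E p q l * X p i q) := by
    intro i l q p
    have h1 : |P.Y y i l * (E p q l * (X p i q - P.Gy y p i q))|
        ≤ |1 / P.a| * (|Ke| * (Kx * P.Err y)) := by
      rw [abs_mul, abs_mul]
      exact mul_le_mul ((P.abs_Y_le y i l).trans (le_abs_self _))
        (mul_le_mul ((hE p q l).trans (le_abs_self _)) (hKx y p i q) (abs_nonneg _) (abs_nonneg _))
        (mul_nonneg (abs_nonneg _) (abs_nonneg _)) (abs_nonneg _)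
    have := (abs_le.1 h1).1
    linarith
  rw [e1, e2]
  refine le_trans (le_of_eq ?_) (sum_le_sum fun i _ => sum_le_sum fun l _ =>
    sum_le_sum fun q _ => sum_le_sum fun p _ => h i l q p)
  simp [sum_sub_distrib]; ring

/-- The cost term, averaged. -/
lemma ex_cost_le {Km : ℝ} (hKm : ∀ y u, (P.Y y *ᵥ u) ⬝ᵥ (mH (P.cx y) *ᵥ (P.Y y *ᵥ u))
      ≤ P.k * (u ⬝ᵥ (P.Y y *ᵥ u)) + Km * sumSq u * P.k * P.Err y) (E : Ten n) (y : Fin n → ℝ) :
    ex (P.cx y) (fun x => wsum (P.Y y) ((P.Sm E y x)ᵀ * P.Y y * P.Sm E y x))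
      ≤ P.k * pr E (tc (P.Y y) (P.Y y) (P.Y y) E)
        + Km * P.k * P.Err y * pr E (tc 1 (P.Y y) (P.Y y) E) := by
  have hB := P.bd_cx y
  have hG := hB.grow
  set Y0 := P.Y y
  have hs' : ∀ i l, Y0 i l = Y0 l i := fun i l => P.Y_symm y i l
  have hent : ex (P.cx y) (fun x => wsum Y0 ((P.Sm E y x)ᵀ * Y0 * P.Sm E y x))
      = pr E (tc (Y0 * mH (P.cx y) * Y0) Y0 Y0 E) := by
    set F := fun p' r' : Fin n => ∑ i, ∑ l, ∑ q, ∑ r, Y0 i l *
      ((∑ p, E p q i * Y0 p p') * Y0 q r * (∑ p, E p r l * Y0 p r'))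
    have e : ∀ x, wsum Y0 ((P.Sm E y x)ᵀ * Y0 * P.Sm E y x)
        = ∑ p', ∑ r', F p' r' * (gr (P.cx y) x p' * gr (P.cx y) x r') := by
      intro x
      calc wsum Y0 ((P.Sm E y x)ᵀ * Y0 * P.Sm E y x)
          = ∑ i, ∑ l, ∑ r, ∑ q, Y0 i l * (P.Sm E y x q i * Y0 q r * P.Sm E y x r l) := by
            simp only [wsum, mul_apply, transpose_apply, sum_mul, mul_sum]
        _ = ∑ i, ∑ l, ∑ q, ∑ r, ∑ p', ∑ r', Y0 i l * ((∑ p, E p q i * Y0 p p') * Y0 q r
              * (∑ p, E p r l * Y0 p r')) * (gr (P.cx y) x p' * gr (P.cx y) x r') := by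
            refine sum_congr rfl fun i _ => sum_congr rfl fun l _ => ?_
            rw [sum_comm]
            refine sum_congr rfl fun q _ => sum_congr rfl fun r _ => ?_
            show Y0 i l * ((∑ p', (∑ p, E p q i * Y0 p p') * gr (P.cx y) x p') * Y0 q r
              * ∑ r', (∑ p, E p r l * Y0 p r') * gr (P.cx y) x r') = _
            rw [sum_mul (a := Y0 q r), sum_mul_sum, mul_sum]
            refine sum_congr rfl fun p' _ => ?_
            rw [mul_sum]
            exact sum_congr rfl fun r' _ => by ring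
        _ = _ := by
            simp only [F, sum_mul]
            rw [show ∀ G : Fin n → Fin n → Fin n → Fin n → Fin n → Fin n → ℝ,
              ∑ i, ∑ l, ∑ q, ∑ r, ∑ p', ∑ r', G i l q r p' r' = ∑ i, ∑ l, ∑ p', ∑ r', ∑ q, ∑ r, G i l q r p' r'
              from fun G => sum_congr rfl fun i _ => sum_congr rfl fun l _ => sum_four (G i l)]
            rw [sum_four]
    have mt : ∀ p' r', Poly fun x => F p' r' * (gr (P.cx y) x p' * gr (P.cx y) x r') :=
      fun p' r' => ((hB.poly_gr p').mul (hB.poly_gr r')).const_mul _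
    simp only [e]
    rw [hG.ex_sum _ fun p' _ => Poly.sum _ fun r' _ => mt p' r']
    rw [sum_congr rfl fun p' _ => hG.ex_sum _ fun r' _ => mt p' r']
    simp only [ex_const_mul, hB.ex_gr_mul_gr]
    generalize mH (P.cx y) = K
    calc ∑ p', ∑ r', F p' r' * K p' r'
        = ∑ i, ∑ l, ∑ q, ∑ r, ∑ p', ∑ r', Y0 i l * ((∑ p, E p q i * Y0 p p') * Y0 q r
            * (∑ p, E p r l * Y0 p r')) * K p' r' := by
          refine Eq.trans (sum_congr rfl fun p' _ => sum_congr rfl fun r' _ => ?_)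
            ((sum_four _).trans (sum_congr rfl fun i _ => sum_congr rfl fun l _ => sum_four _))
          simp only [F]
          rw [sum_mul]
          refine sum_congr rfl fun i _ => ?_
          rw [sum_mul]
          refine sum_congr rfl fun l _ => ?_
          rw [sum_mul]
          refine sum_congr rfl fun q _ => ?_
          rw [sum_mul]
      _ = ∑ i, ∑ l, ∑ q, ∑ r, ∑ p, ∑ p2, E p2 r l * (Y0 i l * Y0 q r * (Y0 * K * Y0) p p2 * E p q i) := by
          refine sum_congr rfl fun i _ => sum_congr rfl fun l _ => sum_congr rfl fun q _ =>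
            sum_congr rfl fun r _ => ?_
          calc _ = Y0 i l * Y0 q r * ∑ p', ∑ r', (∑ p, E p q i * Y0 p p')
                * K p' r' * (∑ p, E p r l * Y0 p r') := by
                simp only [mul_sum (a := Y0 i l * Y0 q r)]
                exact sum_congr rfl fun _ _ => sum_congr rfl fun _ _ => by ring
            _ = Y0 i l * Y0 q r * ∑ p, ∑ p2, E p q i * E p2 r l * (Y0 * K * Y0) p p2 := by
                congr 1
                simp only [mul_apply, sum_mul, mul_sum]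
                rw [sum_four']
                exact sum_congr rfl fun p _ => sum_congr rfl fun p2 _ => sum_congr rfl fun r' _ =>
                  sum_congr rfl fun p' _ => by rw [hs' r' p2]; ring
            _ = _ := by
                simp only [mul_sum]
                exact sum_congr rfl fun _ _ => sum_congr rfl fun _ _ => by ring
      _ = pr E (tc (Y0 * K * Y0) Y0 Y0 E) := by
          simp only [pr, tc_apply, mul_sum]
          simp only [← Fintype.sum_prod_type']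
          refine Fintype.sum_equiv
            ⟨fun x => (x.2.2.2.2.2, x.2.2.2.1, x.2.1, x.2.2.2.2.1, x.2.2.1, x.1),
             fun x => (x.2.2.2.2.2, x.2.2.1, x.2.2.2.2.1, x.2.1, x.2.2.2.1, x.1),
             fun _ => rfl, fun _ => rfl⟩ _ _ fun x => ?_
          simp only [Equiv.coe_fn_mk]
          ring
  rw [hent]
  refine (pr_mono (M' := P.k • Y0 + (Km * P.k * P.Err y) • (1 : Matrix (Fin n) (Fin n) ℝ))
    (P.between_Y y) (P.between_Y y) (fun u => ?_) E).trans (le_of_eq ?_)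
  · have e1 : u ⬝ᵥ ((Y0 * mH (P.cx y) * Y0) *ᵥ u) = (Y0 *ᵥ u) ⬝ᵥ (mH (P.cx y) *ᵥ (Y0 *ᵥ u)) := by
      rw [← mulVec_mulVec, ← mulVec_mulVec, dotProduct_mulVec, ← mulVec_transpose, (P.between_Y y).symm]
    rw [e1, add_mulVec, smul_mulVec, smul_mulVec, one_mulVec, dotProduct_add, dotProduct_smul,
      dotProduct_smul, smul_eq_mul, smul_eq_mul]
    refine (hKm y u).trans (le_of_eq ?_)
    rw [show u ⬝ᵥ u = sumSq u from sum_congr rfl fun i _ => (sq (u i)).symm]
    ring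
  · rw [tc_add₁, pr_add_right, pr_tc_smul₁, pr_tc_smul₁]

end Setup

/-- The pointwise inequality. -/
theorem pointwise : Pointwise := by
  intro n a b M s hs0
  set α := 1 / (2 * b)
  set Kc := (n : ℝ) ^ 3 * ((n : ℝ) ^ 3 * M * (1 / a) / (2 * α ^ 2))
  obtain ⟨K0, hK0, hexp⟩ := Setup.exists_expand n a Kc Kc s hs0
  obtain ⟨Kx, hKx0, hx⟩ := Setup.exists_cross n a b
  obtain ⟨Km, hKm0, hm⟩ := Setup.exists_mH_cx_le n a b
  refine ⟨K0 * |1 + 4 * ((n : ℝ) + 2) * n * b ^ 2 + 2 * n * b|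
      + 2 * ((n : ℝ) ^ 4 * (|1 / a| * (|Kc| * Kx)))
      + Km * ((n : ℝ) ^ 3 * (|Kc| * ((n : ℝ) ^ 3 * (1 * |1 / a| * |1 / a| * |Kc|)))),
    by positivity, fun P hPa hPb hU W hW y => ?_⟩
  subst hPa hPb
  obtain ⟨C, hCsym, hC, hgC⟩ := exists_testC (P.between_Y y) hW
  obtain ⟨E, hE, hgE⟩ := exists_testD (P.between_Y y) hW
  have hB := P.bd_cx y
  have hG := hB.grow
  set Y0 := P.Y y
  set e := 1 / P.k with he
  have hk := P.k_pos
  have he0 : 0 < e := one_div_pos.2 hk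
  have h0 := P.bl_trace hCsym hC hs0 hU E y
  have mZ : ∀ i j, Poly fun x => (1 - (1 / P.k) • P.Sm E y x) i j := fun i j =>
    ((Poly.const ((1 : Matrix (Fin n) (Fin n) ℝ) i j)).sub ((P.poly_Sm E y i j).const_mul (1 / P.k))).congr
      fun x => by simp
  have mQ : Poly fun x => wsum Y0
      ((1 - (1 / P.k) • P.Sm E y x)ᵀ * P.Hm C Kc s x * (1 - (1 / P.k) • P.Sm E y x)) :=
    poly_wsum _ (poly_mat_mul (poly_mat_mul (A := fun x => (1 - (1 / P.k) • P.Sm E y x)ᵀ)
      (fun i j => mZ j i) (P.poly_Hm C Kc s)) mZ)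
  have mA : ∀ i j, Poly fun x => P.Yb x i j := P.poly_Yb
  have mB : ∀ i j, Poly fun x => (P.Yb x * diagonal s * P.Yb x) i j :=
    poly_mat_mul (poly_mat_mul (B := fun _ => diagonal s) mA fun _ _ => Poly.const _) mA
  have mX : ∀ i j, Poly fun x => (P.Yb x * P.Sm E y x) i j := poly_mat_mul mA (P.poly_Sm E y)
  have mS : ∀ i j, Poly fun x => ((P.Sm E y x)ᵀ * Y0 * P.Sm E y x) i j :=
    poly_mat_mul (poly_mat_mul (A := fun x => (P.Sm E y x)ᵀ) (B := fun _ => Y0)
      (fun i j => P.poly_Sm E y j i) fun _ _ => Poly.const _) (P.poly_Sm E y)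
  have mG : Poly fun x => pr C (tc 1 1 Y0 (P.G x)) :=
    Poly.sum _ fun p _ => Poly.sum _ fun q _ => Poly.sum _ fun r _ =>
      (poly_tc 1 1 Y0 P.poly_G p q r).const_mul _
  set R1 := fun x => (1 + e) * wsum Y0 (P.Yb x)
  set R2 := fun x => e * wsum Y0 (P.Yb x * diagonal s * P.Yb x)
  set R3 := fun x => e * (2 * pr C (tc 1 1 Y0 (P.G x)) - 2 * pr C (tc Y0 Y0 Y0 C))
  set R4 := fun x => 2 / P.k * wsum Y0 (P.Yb x * P.Sm E y x)
  set R5 := fun x => e ^ 2 * wsum Y0 ((P.Sm E y x)ᵀ * Y0 * P.Sm E y x)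
  have p1 : Poly R1 := (poly_wsum Y0 mA).const_mul _
  have p2 : Poly R2 := (poly_wsum Y0 mB).const_mul _
  have p3 : Poly R3 := ((mG.const_mul 2).sub (Poly.const _)).const_mul _
  have p4 : Poly R4 := (poly_wsum Y0 mX).const_mul _
  have p5 : Poly R5 := (poly_wsum Y0 mS).const_mul _
  have h1 := hG.ex_mono (f := fun x => wsum Y0
      ((1 - (1 / P.k) • P.Sm E y x)ᵀ * P.Hm C Kc s x * (1 - (1 / P.k) • P.Sm E y x))) mQ
    (((((p1.sub p2).sub p3).sub p4).add p5).add ((P.poly_er y).const_mul (K0 / P.k)))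
    fun x => hexp P rfl C E hC hE y x
  rw [hG.ex_add ((((p1.sub p2).sub p3).sub p4).add p5) ((P.poly_er y).const_mul (K0 / P.k)),
    hG.ex_add (((p1.sub p2).sub p3).sub p4) p5, hG.ex_sub ((p1.sub p2).sub p3) p4,
    hG.ex_sub (p1.sub p2) p3, hG.ex_sub p1 p2] at h1
  simp only [R1, R2, R3, R4, R5, ex_const_mul] at h1
  rw [hG.ex_sub (mG.const_mul 2) (Poly.const _), ex_const_mul, hG.ex_const,
    hG.ex_pr_tc C 1 1 Y0 P.poly_G] at h1
  have hcr := P.ex_cross_ge (hx P rfl rfl) E hE y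
  have hco := P.ex_cost_le (hm P rfl rfl) E y
  have hEr := P.ex_er_le y
  have gC := hgC (P.Gy y) (P.Gy_sym y)
  have gE := hgE (P.Gy y) (P.Gy_sym y)
  have hone := (abs_le.1 (abs_pr_le (fun p q r => (hE p q r).trans (le_abs_self Kc))
    (abs_tc_entry_le eb_one ((P.eb_Y y).mono (le_abs_self _)) ((P.eb_Y y).mono (le_abs_self _))
      (fun p q r => (hE p q r).trans (le_abs_self Kc))))).2
  have hErr : 0 ≤ P.Err y := by
    have := P.dy_nonneg y
    have := ex_nonneg (P.cx y) P.dx_nonneg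
    unfold Setup.Err; positivity
  have a1 := mul_le_mul_of_nonneg_left hcr (show 0 ≤ 2 * e by positivity)
  have a2 := mul_le_mul_of_nonneg_left hco (sq_nonneg e)
  have a3 := mul_le_mul_of_nonneg_left hEr (div_nonneg hK0 hk.le)
  have a4 := mul_le_mul_of_nonneg_left hone (show 0 ≤ e * Km * P.Err y by positivity)
  have a5 := mul_le_mul_of_nonneg_left (add_le_add gC gE) he0.le
  have a6 := mul_le_mul_of_nonneg_left (le_abs_self (1 + 4 * ((n : ℝ) + 2) * n * P.b ^ 2 + 2 * n * P.b))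
    (show 0 ≤ e * K0 * P.Err y by positivity)
  have ek : e ^ 2 * P.k = e := by rw [he]; field_simp
  have eA : wsum Y0 (fun i j => ex (P.cx y) fun x => P.Yb x i j)
      = ∑ i, ∑ l, Y0 i l * ex (P.cx y) (fun x => P.Yb x i l) := rfl
  have eB : wsum Y0 (fun i j => ex (P.cx y) fun x => (P.Yb x * diagonal s * P.Yb x) i j)
      = ∑ i, ∑ l, Y0 i l * ex (P.cx y) (fun x => ∑ j, s j * (P.Yb x i j * P.Yb x j l)) := by
    simp only [wsum, mul_apply (M := P.Yb _ * diagonal s), mul_diagonal]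
    exact sum_congr rfl fun i _ => sum_congr rfl fun l _ => by
      congr 2; funext x; exact sum_congr rfl fun j _ => by ring
  rw [hG.ex_wsum Y0 mA, hG.ex_wsum Y0 mB, eA, eB] at h1
  rw [show P.Gy y = fun p q r => ex (P.cx y) fun x => P.G x p q r from rfl] at *
  have ec : 2 / P.k = 2 * e := by rw [he]; ring
  rw [ec] at h1 ⊢
  have eK : ∀ K : ℝ, K / P.k * (Real.sqrt P.k * (ex (P.cx y) P.dx + P.dy y) + 1 / Real.sqrt P.k)
      = e * K * P.Err y := fun K => by rw [he, Setup.Err]; ring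
  rw [eK]
  have eK0 : ∀ z : ℝ, K0 / P.k * z = e * K0 * z := fun z => by rw [he]; ring
  simp only [eK0] at h1 a3
  have h00 : (∑ i, ∑ l, Y0 i l * Y0 i l) = wsum Y0 Y0 := rfl
  rw [h00]
  have e2k : e ^ 2 * (P.k * pr E (tc Y0 Y0 Y0 E)) = e * pr E (tc Y0 Y0 Y0 E) := by rw [← mul_assoc, ek]
  have e2k' : e ^ 2 * (Km * P.k * P.Err y * pr E (tc 1 Y0 Y0 E))
      = e * Km * P.Err y * pr E (tc 1 Y0 Y0 E) := by
    rw [show e ^ 2 * (Km * P.k * P.Err y * pr E (tc 1 Y0 Y0 E))
      = e ^ 2 * P.k * (Km * P.Err y * pr E (tc 1 Y0 Y0 E)) by ring, ek]; ring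
  linarith

end Vale.Agent.P254M
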