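import Vale.Agent.P254M.BL

/-!
Moments of the score `∇U` of a Gibbs law, up to the fluctuation of the Hessian.
-/

namespace Vale.Agent.P254M

open MeasureTheory Set Filter Topology Finset Matrix
open Vale.Agent.P245 hiding cv
open scoped ContDiff

variable {n : ℕ} {U : (Fin n → ℝ) → ℝ} {a b : ℝ}

lemma pd_proj (i j : Fin n) (x : Fin n → ℝ) :
    pd i (fun y : Fin n → ℝ => y j) x = if i = j then 1 else 0 := by
  simp [pd, fderiv_apply, Pi.single_apply, eq_comm]

lemma Grow.abs_ex_mul_le {f g : (Fin n → ℝ) → ℝ} (h : Grow U) (hf : Poly f) (hg : Poly g) :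
    |ex U fun x => f x * g x| ≤
      Real.sqrt (ex U fun x => f x ^ 2) * Real.sqrt (ex U fun x => g x ^ 2) := by
  rw [← Real.sqrt_sq_eq_abs, ← Real.sqrt_mul (h.ex_nonneg fun x => sq_nonneg _)]
  exact Real.sqrt_le_sqrt (h.ex_cs hf hg)

/-- The mean Hessian. -/
noncomputable def mH (U : (Fin n → ℝ) → ℝ) : Matrix (Fin n) (Fin n) ℝ :=
  fun i j => ex U fun x => hs U x i j

/-- The fluctuation of the Hessian. -/
noncomputable def dev (U : (Fin n → ℝ) → ℝ) : ℝ :=
  ∑ i, ∑ j, ex U fun x => (hs U x i j - mH U i j) ^ 2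

/-- A constant for the fourth moment of the score. -/
noncomputable def scoreK (n : ℕ) (b : ℝ) : ℝ := 5 * Real.sqrt ((n + 2) * n * b ^ 2) + 2 * n * b

/-- The third moments of the score, halved. -/
noncomputable def skew (U : (Fin n → ℝ) → ℝ) (i j l : Fin n) : ℝ :=
  (ex U fun x => gr U x i * gr U x j * gr U x l) / 2

/-- The quadratic test function attached to a symmetric matrix. -/
noncomputable def quadTest (U : (Fin n → ℝ) → ℝ) (C : Matrix (Fin n) (Fin n) ℝ) (x : Fin n → ℝ) : ℝ :=
  ∑ i, ∑ j, C i j * (gr U x i * gr U x j - hs U x i j)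

namespace Bd

variable (h : Bd U a b)
include h

lemma cd_gr (i : Fin n) : ContDiff ℝ 1 fun x => gr U x i :=
  (contDiff_pd h.smooth i).of_le (by simp)

lemma diff_gr' (i : Fin n) : Differentiable ℝ fun x => gr U x i := h.diff_gr i

omit h in
lemma pd_gr (i j : Fin n) (x : Fin n → ℝ) : pd i (fun y => gr U y j) x = hs U x i j := rfl

lemma poly_pd_gr (i j : Fin n) : Poly (pd i fun y => gr U y j) := h.poly_hs i j

lemma ex_gr (i : Fin n) : ex U (fun x => gr U x i) = 0 := by
  have e : pd i (fun _ : Fin n → ℝ => (1:ℝ)) = fun _ => (0:ℝ) := by funext x; simp [pd]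
  have := h.ibp (f := fun _ => (1:ℝ)) contDiff_const (Poly.const 1) i (e ▸ Poly.const 0)
  rw [e, h.grow.ex_const] at this
  simpa using this.symm

lemma ex_gr_mul_gr (i j : Fin n) : ex U (fun x => gr U x i * gr U x j) = mH U i j := by
  rw [mH, ← funext fun x => pd_gr i j x, h.ibp (h.cd_gr j) (h.poly_gr j) i (h.poly_pd_gr i j)]
  congr 1; funext x; ring

lemma mH_symm (i j : Fin n) : mH U i j = mH U j i := by
  simp only [mH, hs_symm h.smooth]

lemma abs_mH_le (i j : Fin n) : |mH U i j| ≤ b := by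
  refine (h.grow.abs_ex_le (h.poly_hs i j) (Poly.const b) (h.abs_hs_le i j)).trans (le_of_eq ?_)
  exact h.grow.ex_const b

lemma poly_dev (i j : Fin n) : Poly fun x => hs U x i j - mH U i j :=
  (h.poly_hs i j).sub_const _

lemma dev_nonneg : 0 ≤ dev U :=
  sum_nonneg fun _ _ => sum_nonneg fun _ _ => h.grow.ex_nonneg fun _ => sq_nonneg _

lemma ex_dev_sq_le (i j : Fin n) : ex U (fun x => (hs U x i j - mH U i j) ^ 2) ≤ dev U := by
  refine le_trans ?_ (single_le_sum (f := fun i => ∑ j, ex U fun x => (hs U x i j - mH U i j) ^ 2)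
    (fun _ _ => sum_nonneg fun _ _ => h.grow.ex_nonneg fun _ => sq_nonneg _) (mem_univ i))
  exact single_le_sum (f := fun j => ex U fun x => (hs U x i j - mH U i j) ^ 2)
    (fun _ _ => h.grow.ex_nonneg fun _ => sq_nonneg _) (mem_univ j)

lemma ex_hs_mul_hs_err (i j l m : Fin n) :
    |ex U (fun x => hs U x i j * hs U x l m) - mH U i j * mH U l m| ≤ 2 * b * Real.sqrt (dev U) := by
  have e : ex U (fun x => hs U x i j * hs U x l m) - mH U i j * mH U l m
      = ex U fun x => (hs U x i j - mH U i j) * hs U x l m := by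
    simp only [sub_mul]
    rw [h.grow.ex_sub ((h.poly_hs i j).mul (h.poly_hs l m)) ((h.poly_hs l m).const_mul _), ex_const_mul]
    rfl
  rw [e]
  refine (h.grow.abs_ex_mul_le (h.poly_dev i j) (h.poly_hs l m)).trans ?_
  rw [mul_comm (2 * b)]
  refine mul_le_mul (Real.sqrt_le_sqrt (h.ex_dev_sq_le i j)) ?_ (Real.sqrt_nonneg _) (Real.sqrt_nonneg _)
  have h1 : ex U (fun x => hs U x l m ^ 2) ≤ b ^ 2 :=
    (h.grow.ex_mono ((h.poly_hs l m).pow 2) (Poly.const (b ^ 2)) fun x => by
      rw [← sq_abs]; exact pow_le_pow_left₀ (abs_nonneg _) (h.abs_hs_le l m x) 2).trans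
      (le_of_eq (h.grow.ex_const _))
  calc Real.sqrt _ ≤ Real.sqrt (b ^ 2) := Real.sqrt_le_sqrt h1
    _ = b := Real.sqrt_sq h.b_pos.le
    _ ≤ 2 * b := by linarith [h.b_pos]

lemma poly_sumSq_gr : Poly fun x => sumSq (gr U x) := Poly.sum _ fun i _ => (h.poly_gr i).pow 2

lemma ex_sumSq_gr : ex U (fun x => sumSq (gr U x)) ≤ n * b := by
  simp only [sumSq]
  rw [h.grow.ex_sum _ fun i _ => (h.poly_gr i).pow 2]
  refine (sum_le_sum fun i _ => (?_ : _ ≤ b)).trans (le_of_eq (by simp))
  simp only [sq, h.ex_gr_mul_gr]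
  exact (le_abs_self _).trans (h.abs_mH_le i i)

lemma ex_sumSq_gr_sq : ex U (fun x => sumSq (gr U x) ^ 2) ≤ (n + 2) * n * b ^ 2 := by
  have hd : ∀ i, Differentiable ℝ fun x => gr U x i := h.diff_gr
  have md : ∀ i x, pd i (fun y => gr U y i * sumSq (gr U y)) x
      = hs U x i i * sumSq (gr U x) + 2 * gr U x i * ∑ j, gr U x j * hs U x i j := by
    intro i x
    have d2 : Differentiable ℝ fun y => sumSq (gr U y) := by
      simp only [sumSq]; exact Differentiable.fun_sum fun j _ => (hd j).pow 2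
    rw [pd_mul (hd i) d2, pd_gr]
    have : pd i (fun y => sumSq (gr U y)) x = 2 * ∑ j, gr U x j * hs U x i j := by
      simp only [sumSq]
      rw [pd_sum (F := fun j y => gr U y j ^ 2) _ (fun j => (hd j).pow 2), mul_sum]
      refine sum_congr rfl fun j _ => ?_
      simp only [sq]
      rw [pd_mul (hd j) (hd j), pd_gr]; ring
    rw [this]; ring
  have mm : ∀ i, Poly fun x => hs U x i i * sumSq (gr U x) + 2 * gr U x i * ∑ j, gr U x j * hs U x i j :=
    fun i => ((h.poly_hs i i).mul h.poly_sumSq_gr).add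
      (((h.poly_gr i).const_mul 2).mul (Poly.sum _ fun j _ => (h.poly_gr j).mul (h.poly_hs i j)))
  have e : ex U (fun x => sumSq (gr U x) ^ 2) = ex U fun x => ∑ i,
      (hs U x i i * sumSq (gr U x) + 2 * gr U x i * ∑ j, gr U x j * hs U x i j) := by
    have e0 : (fun x => sumSq (gr U x) ^ 2)
        = fun x => ∑ i, gr U x i * sumSq (gr U x) * gr U x i := by
      funext x; simp only [sumSq, sq, sum_mul]; exact sum_congr rfl fun i _ => by ring
    rw [e0, h.grow.ex_sum _ fun i _ => ((h.poly_gr i).mul h.poly_sumSq_gr).mul (h.poly_gr i),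
      h.grow.ex_sum _ fun i _ => mm i]
    refine sum_congr rfl fun i _ => ?_
    have hm : Poly (pd i fun y => gr U y i * sumSq (gr U y)) := by rw [funext (md i)]; exact mm i
    rw [← funext (md i), h.ibp ((h.cd_gr i).mul (by
      simp only [sumSq]; exact ContDiff.sum fun j _ => (h.cd_gr j).pow 2))
      ((h.poly_gr i).mul h.poly_sumSq_gr) i hm]
  rw [e]
  refine (h.grow.ex_mono (Poly.sum _ fun i _ => mm i) (h.poly_sumSq_gr.const_mul ((n + 2) * b))
    fun x => ?_).trans ?_
  · rw [sum_add_distrib, ← sum_mul]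
    have h1 : ∑ i, hs U x i i ≤ n * b :=
      (sum_le_sum fun i _ => (le_abs_self _).trans (h.abs_hs_le i i x)).trans (le_of_eq (by simp))
    have h2 := h.upper x (gr U x)
    have h3 : ∑ i, 2 * gr U x i * ∑ j, gr U x j * hs U x i j
        = 2 * (gr U x ⬝ᵥ (hs U x *ᵥ gr U x)) := by
      simp only [dotProduct, mulVec, mul_sum]
      exact sum_congr rfl fun i _ => sum_congr rfl fun j _ => by ring
    rw [h3]
    nlinarith [mul_le_mul_of_nonneg_right h1 (sumSq_nonneg (gr U x))]
  · rw [ex_const_mul]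
    have := mul_le_mul_of_nonneg_left h.ex_sumSq_gr (show (0:ℝ) ≤ (n + 2) * b by
      have := h.b_pos; positivity)
    linarith

lemma ex_gr2_sq_le (i j : Fin n) :
    ex U (fun x => (gr U x i * gr U x j) ^ 2) ≤ (n + 2) * n * b ^ 2 := by
  refine (h.grow.ex_mono (((h.poly_gr i).mul (h.poly_gr j)).pow 2) (h.poly_sumSq_gr.pow 2)
    fun x => ?_).trans h.ex_sumSq_gr_sq
  rw [mul_pow, sq (sumSq (gr U x))]
  exact mul_le_mul (sq_le_sumSq _ i) (sq_le_sumSq _ j) (sq_nonneg _) (sumSq_nonneg _)

lemma ex_hs_gr2_err (i j l m : Fin n) :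
    |ex U (fun x => hs U x i j * (gr U x l * gr U x m)) - mH U i j * mH U l m|
      ≤ Real.sqrt ((n + 2) * n * b ^ 2) * Real.sqrt (dev U) := by
  have e : ex U (fun x => hs U x i j * (gr U x l * gr U x m)) - mH U i j * mH U l m
      = ex U fun x => (hs U x i j - mH U i j) * (gr U x l * gr U x m) := by
    simp only [sub_mul]
    rw [h.grow.ex_sub ((h.poly_hs i j).mul ((h.poly_gr l).mul (h.poly_gr m)))
      (((h.poly_gr l).mul (h.poly_gr m)).const_mul _), ex_const_mul, h.ex_gr_mul_gr]
  rw [e, mul_comm (Real.sqrt _)]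
  exact (h.grow.abs_ex_mul_le (h.poly_dev i j) ((h.poly_gr l).mul (h.poly_gr m))).trans
    (mul_le_mul (Real.sqrt_le_sqrt (h.ex_dev_sq_le i j)) (Real.sqrt_le_sqrt (h.ex_gr2_sq_le l m))
      (Real.sqrt_nonneg _) (Real.sqrt_nonneg _))

lemma ex_gr4 (i j l m : Fin n) :
    |ex U (fun x => gr U x i * gr U x j * (gr U x l * gr U x m))
        - (mH U i j * mH U l m + mH U i l * mH U j m + mH U i m * mH U j l)|
      ≤ 3 * Real.sqrt ((n + 2) * n * b ^ 2) * Real.sqrt (dev U) := by
  have hd : ∀ i, Differentiable ℝ fun x => gr U x i := h.diff_gr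
  have md : ∀ x, pd i (fun y => gr U y j * (gr U y l * gr U y m)) x
      = hs U x i j * (gr U x l * gr U x m) + hs U x i l * (gr U x j * gr U x m)
        + hs U x i m * (gr U x j * gr U x l) := by
    intro x
    rw [pd_mul (hd j) ((hd l).fun_mul (hd m)), pd_mul (hd l) (hd m), pd_gr, pd_gr, pd_gr]; ring
  have m1 := (h.poly_hs i j).mul ((h.poly_gr l).mul (h.poly_gr m))
  have m2 := (h.poly_hs i l).mul ((h.poly_gr j).mul (h.poly_gr m))
  have m3 := (h.poly_hs i m).mul ((h.poly_gr j).mul (h.poly_gr l))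
  have e : ex U (fun x => gr U x i * gr U x j * (gr U x l * gr U x m))
      = ex U (fun x => hs U x i j * (gr U x l * gr U x m))
        + ex U (fun x => hs U x i l * (gr U x j * gr U x m))
        + ex U (fun x => hs U x i m * (gr U x j * gr U x l)) := by
    rw [← h.grow.ex_add m1 m2, ← h.grow.ex_add (m1.add m2) m3]
    have hm : Poly (pd i fun y => gr U y j * (gr U y l * gr U y m)) := by
      rw [funext md]; exact (m1.add m2).add m3
    rw [← funext md, h.ibp ((h.cd_gr j).mul ((h.cd_gr l).mul (h.cd_gr m)))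
      ((h.poly_gr j).mul ((h.poly_gr l).mul (h.poly_gr m))) i hm]
    congr 1; funext x; ring
  rw [e]
  have := abs_le.1 (h.ex_hs_gr2_err i j l m)
  have := abs_le.1 (h.ex_hs_gr2_err i l j m)
  have := abs_le.1 (h.ex_hs_gr2_err i m j l)
  exact abs_le.2 ⟨by linarith, by linarith⟩

lemma quartic (i j l m : Fin n) :
    |ex U (fun x => (gr U x i * gr U x j - hs U x i j) * (gr U x l * gr U x m - hs U x l m))
        - (mH U i l * mH U j m + mH U i m * mH U j l)|
      ≤ scoreK n b * Real.sqrt (dev U) := by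
  have e : ex U (fun x => (gr U x i * gr U x j - hs U x i j) * (gr U x l * gr U x m - hs U x l m))
      = ex U (fun x => gr U x i * gr U x j * (gr U x l * gr U x m))
        - ex U (fun x => hs U x i j * (gr U x l * gr U x m))
        - ex U (fun x => hs U x l m * (gr U x i * gr U x j))
        + ex U (fun x => hs U x i j * hs U x l m) := by
    have m0 := ((h.poly_gr i).mul (h.poly_gr j)).mul ((h.poly_gr l).mul (h.poly_gr m))
    have m1 := (h.poly_hs i j).mul ((h.poly_gr l).mul (h.poly_gr m))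
    have m2 := (h.poly_hs l m).mul ((h.poly_gr i).mul (h.poly_gr j))
    rw [← h.grow.ex_sub m0 m1, ← h.grow.ex_sub (m0.sub m1) m2,
      ← h.grow.ex_add ((m0.sub m1).sub m2) ((h.poly_hs i j).mul (h.poly_hs l m))]
    congr 1; funext x; ring
  rw [e, scoreK]
  have hn : (1:ℝ) ≤ n := by exact_mod_cast (Fin.pos i)
  have := abs_le.1 (h.ex_gr4 i j l m)
  have := abs_le.1 (h.ex_hs_gr2_err i j l m)
  have := abs_le.1 (h.ex_hs_gr2_err l m i j)
  have := abs_le.1 (h.ex_hs_mul_hs_err i j l m)
  have := mul_le_mul_of_nonneg_right (mul_le_mul_of_nonneg_right hn (by linarith [h.b_pos] : 0 ≤ 2 * b))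
    (Real.sqrt_nonneg (dev U))
  exact abs_le.2 ⟨by linarith, by linarith⟩

lemma ex_gr_mul_hs (i j l : Fin n) : ex U (fun x => gr U x i * hs U x j l) = skew U i j l := by
  have hd : ∀ i, Differentiable ℝ fun x => gr U x i := h.diff_gr
  have key : ∀ i j l : Fin n, ex U (fun x => gr U x i * hs U x j l)
      + ex U (fun x => gr U x l * hs U x i j) = ex U fun x => gr U x i * gr U x j * gr U x l := by
    intro i j l
    have md : ∀ x, pd j (fun y => gr U y i * gr U y l) x
        = gr U x i * hs U x j l + gr U x l * hs U x i j := by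
      intro x; rw [pd_mul (hd i) (hd l), pd_gr, pd_gr, hs_symm h.smooth x j i]; ring
    have m1 := (h.poly_gr i).mul (h.poly_hs j l)
    have m2 := (h.poly_gr l).mul (h.poly_hs i j)
    rw [← h.grow.ex_add m1 m2, ← funext md, h.ibp ((h.cd_gr i).mul (h.cd_gr l))
      ((h.poly_gr i).mul (h.poly_gr l)) j (by rw [funext md]; exact m1.add m2)]
    congr 1; funext x; ring
  have k1 := key i j l
  have k2 := key l i j
  have k3 := key j l i
  have s : ∀ p q : Fin n, (fun x => hs U x p q) = fun x => hs U x q p := fun p q => by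
    funext x; rw [hs_symm h.smooth]
  have t1 : ex U (fun x => gr U x j * hs U x l i) = ex U fun x => gr U x j * hs U x i l := by
    simp only [hs_symm h.smooth _ l i]
  have c1 : ex U (fun x => gr U x l * gr U x i * gr U x j)
      = ex U fun x => gr U x i * gr U x j * gr U x l := by congr 1; funext x; ring
  have c2 : ex U (fun x => gr U x j * gr U x l * gr U x i)
      = ex U fun x => gr U x i * gr U x j * gr U x l := by congr 1; funext x; ring
  rw [c1] at k2; rw [c2] at k3
  simp only [skew]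
  linarith

omit h in
lemma skew_sym : (∀ i j l, skew U i j l = skew U j i l) ∧ ∀ i j l, skew U i j l = skew U i l j := by
  constructor <;> intro i j l <;> simp only [skew] <;> congr 2 <;> funext x <;> ring

lemma ex_gr_mul_quad (C : Matrix (Fin n) (Fin n) ℝ) (l : Fin n) :
    ex U (fun x => gr U x l * quadTest U C x) = ∑ i, ∑ j, C i j * skew U i j l := by
  have mi : ∀ i j, Poly fun x => C i j * (gr U x l * (gr U x i * gr U x j - hs U x i j)) := fun i j =>
    ((h.poly_gr l).mul (((h.poly_gr i).mul (h.poly_gr j)).sub (h.poly_hs i j))).const_mul _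
  have e : (fun x => gr U x l * quadTest U C x)
      = fun x => ∑ i, ∑ j, C i j * (gr U x l * (gr U x i * gr U x j - hs U x i j)) := by
    funext x; simp only [quadTest, mul_sum]
    exact sum_congr rfl fun i _ => sum_congr rfl fun j _ => by ring
  rw [e, h.grow.ex_sum _ fun i _ => Poly.sum _ fun j _ => mi i j]
  refine sum_congr rfl fun i _ => ?_
  rw [h.grow.ex_sum _ fun j _ => mi i j]
  refine sum_congr rfl fun j _ => ?_
  rw [ex_const_mul]
  congr 1
  simp only [mul_sub]
  rw [h.grow.ex_sub ((h.poly_gr l).mul ((h.poly_gr i).mul (h.poly_gr j)))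
    ((h.poly_gr l).mul (h.poly_hs i j)), h.ex_gr_mul_hs, skew_sym.1 l i j, skew_sym.2 i l j]
  have : ex U (fun x => gr U x l * (gr U x i * gr U x j)) = 2 * skew U i j l := by
    rw [skew, mul_div_cancel₀ _ two_ne_zero]; congr 1; funext x; ring
  rw [this]; ring

lemma poly_quad (C : Matrix (Fin n) (Fin n) ℝ) : Poly (quadTest U C) :=
  Poly.sum _ fun i _ => Poly.sum _ fun j _ =>
    (((h.poly_gr i).mul (h.poly_gr j)).sub (h.poly_hs i j)).const_mul _

lemma ex_quad (C : Matrix (Fin n) (Fin n) ℝ) : ex U (quadTest U C) = 0 := by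
  have mi : ∀ i j, Poly fun x => C i j * (gr U x i * gr U x j - hs U x i j) := fun i j =>
    (((h.poly_gr i).mul (h.poly_gr j)).sub (h.poly_hs i j)).const_mul _
  unfold quadTest
  rw [h.grow.ex_sum _ fun i _ => Poly.sum _ fun j _ => mi i j]
  refine sum_eq_zero fun i _ => ?_
  rw [h.grow.ex_sum _ fun j _ => mi i j]
  refine sum_eq_zero fun j _ => ?_
  rw [ex_const_mul, h.grow.ex_sub ((h.poly_gr i).mul (h.poly_gr j)) (h.poly_hs i j), h.ex_gr_mul_gr]
  simp [mH]

lemma ex_coord_mul_gr (i j : Fin n) :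
    ex U (fun x => x i * gr U x j) = if j = i then 1 else 0 := by
  have e : ∀ x, pd j (fun y : Fin n → ℝ => y i) x = if j = i then 1 else 0 := pd_proj j i
  rw [← h.ibp (contDiff_apply ℝ ℝ i) (Poly.coord i) j (by rw [funext e]; exact Poly.const _),
    funext e, h.grow.ex_const]

lemma ex_coord_mul_quad (C : Matrix (Fin n) (Fin n) ℝ) (l : Fin n) :
    ex U (fun x => x l * quadTest U C x) = 0 := by
  have mi : ∀ i j, Poly fun x => C i j * (x l * (gr U x i * gr U x j - hs U x i j)) := fun i j =>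
    ((Poly.coord l).mul (((h.poly_gr i).mul (h.poly_gr j)).sub (h.poly_hs i j))).const_mul _
  have e : (fun x => x l * quadTest U C x)
      = fun x => ∑ i, ∑ j, C i j * (x l * (gr U x i * gr U x j - hs U x i j)) := by
    funext x; simp only [quadTest, mul_sum]
    exact sum_congr rfl fun i _ => sum_congr rfl fun j _ => by ring
  rw [e, h.grow.ex_sum _ fun i _ => Poly.sum _ fun j _ => mi i j]
  refine sum_eq_zero fun i _ => ?_
  rw [h.grow.ex_sum _ fun j _ => mi i j]
  refine sum_eq_zero fun j _ => ?_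
  have md : ∀ x, pd i (fun y => y l * gr U y j) x
      = (if i = l then 1 else 0) * gr U x j + x l * hs U x i j := by
    intro x; rw [pd_mul (differentiable_apply l) (h.diff_gr' j), pd_proj, pd_gr]
  have hm : Poly (pd i fun y => y l * gr U y j) := by
    rw [funext md]; exact ((h.poly_gr j).const_mul _).add ((Poly.coord l).mul (h.poly_hs i j))
  have k := h.ibp ((contDiff_apply ℝ ℝ l).mul (h.cd_gr j)) ((Poly.coord l).mul (h.poly_gr j)) i hm
  rw [funext md, h.grow.ex_add ((h.poly_gr j).const_mul _) ((Poly.coord l).mul (h.poly_hs i j)),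
    ex_const_mul, h.ex_gr, mul_zero, zero_add] at k
  have k2 : ex U (fun x => x l * (gr U x i * gr U x j)) = ex U fun x => x l * gr U x j * gr U x i := by
    congr 1; funext x; ring
  rw [ex_const_mul]
  simp only [mul_sub]
  rw [h.grow.ex_sub ((Poly.coord l).mul ((h.poly_gr i).mul (h.poly_gr j)))
    ((Poly.coord l).mul (h.poly_hs i j)), k2, k, sub_self, mul_zero]

/-- Cramér–Rao with a quadratic correction of the score. -/
theorem cr_quad (v u : Fin n → ℝ) (C : Matrix (Fin n) (Fin n) ℝ) :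
    2 * (u ⬝ᵥ v) - u ⬝ᵥ (covm U *ᵥ u)
      ≤ v ⬝ᵥ (mH U *ᵥ v) + 2 * (∑ l, v l * ∑ i, ∑ j, C i j * skew U i j l)
        + ex U fun x => quadTest U C x ^ 2 := by
  have h0 := h.grow.ex_nonneg (f := fun x =>
    ((u ⬝ᵥ x - u ⬝ᵥ mn U) - (v ⬝ᵥ gr U x + quadTest U C x)) ^ 2) fun x => sq_nonneg _
  set A := fun x : Fin n → ℝ => u ⬝ᵥ x - u ⬝ᵥ mn U with hA
  set g := fun x => v ⬝ᵥ gr U x + quadTest U C x with hg
  have mu : Poly fun x : Fin n → ℝ => u ⬝ᵥ x :=
    Poly.sum _ fun i _ => (Poly.coord i).const_mul (u i)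
  have mA : Poly A := mu.sub_const _
  have mv : Poly fun x => v ⬝ᵥ gr U x := Poly.sum _ fun i _ => (h.poly_gr i).const_mul (v i)
  have mg : Poly g := mv.add (h.poly_quad C)
  have e1 : ex U (fun x => (A x - g x) ^ 2)
      = ex U (fun x => A x ^ 2) - 2 * ex U (fun x => A x * g x) + ex U fun x => g x ^ 2 := by
    rw [← ex_const_mul, ← h.grow.ex_sub (mA.pow 2) ((mA.mul mg).const_mul 2),
      ← h.grow.ex_add ((mA.pow 2).sub ((mA.mul mg).const_mul 2)) (mg.pow 2)]
    congr 1; funext x; ring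
  have e2 : ex U (fun x => A x ^ 2) = u ⬝ᵥ (covm U *ᵥ u) := by
    have hu : ex U (fun x => u ⬝ᵥ x) = u ⬝ᵥ mn U := by
      simp only [dotProduct, mn]
      rw [h.grow.ex_sum _ fun i _ => (Poly.coord i).const_mul (u i)]
      simp only [ex_const_mul]
    have ec : (fun x => A x ^ 2)
        = fun x => ((u ⬝ᵥ x) * (u ⬝ᵥ x) - 2 * (u ⬝ᵥ mn U) * (u ⬝ᵥ x)) + (u ⬝ᵥ mn U) ^ 2 := by
      funext x; simp only [hA]; ring
    rw [ec, h.grow.ex_add ((mu.mul mu).sub (mu.const_mul _)) (Poly.const _),
      h.grow.ex_sub (mu.mul mu) (mu.const_mul _), ex_const_mul, h.grow.ex_const, hu]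
    have es : ex U (fun x => (u ⬝ᵥ x) * (u ⬝ᵥ x)) = ∑ i, ∑ j, u i * u j * ex U fun x => x i * x j := by
      have : (fun x : Fin n → ℝ => (u ⬝ᵥ x) * (u ⬝ᵥ x))
          = fun x => ∑ i, ∑ j, u i * u j * (x i * x j) := by
        funext x; simp only [dotProduct, sum_mul, mul_sum]
        exact sum_congr rfl fun i _ => sum_congr rfl fun j _ => by ring
      rw [this, h.grow.ex_sum _ fun i _ => Poly.sum _ fun j _ =>
        ((Poly.coord i).mul (Poly.coord j)).const_mul _]
      refine sum_congr rfl fun i _ => ?_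
      rw [h.grow.ex_sum _ fun j _ => ((Poly.coord i).mul (Poly.coord j)).const_mul _]
      simp only [ex_const_mul]
    rw [es, sq]
    simp only [dotProduct, mulVec, covm, cv2, mn, mul_sum, sum_mul, ← sum_sub_distrib, ← sum_add_distrib]
    exact sum_congr rfl fun i _ => sum_congr rfl fun j _ => by ring
  have e3 : ex U (fun x => A x * g x) = u ⬝ᵥ v := by
    have z1 : ex U g = 0 := by
      rw [hg, h.grow.ex_add mv (h.poly_quad C), h.ex_quad, add_zero]
      simp only [dotProduct]
      rw [h.grow.ex_sum _ fun i _ => (h.poly_gr i).const_mul (v i)]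
      simp [ex_const_mul, h.ex_gr]
    have mi : ∀ i, Poly fun x => u i * (x i * g x) := fun i =>
      ((Poly.coord i).mul mg).const_mul _
    have : (fun x => A x * g x) = fun x => (∑ i, u i * (x i * g x)) - (u ⬝ᵥ mn U) * g x := by
      funext x; simp only [hA, sub_mul, dotProduct, sum_mul]
      congr 1; exact sum_congr rfl fun i _ => by ring
    rw [this, h.grow.ex_sub (Poly.sum _ fun i _ => mi i) (mg.const_mul _), ex_const_mul, z1, mul_zero,
      sub_zero, h.grow.ex_sum _ fun i _ => mi i]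
    refine sum_congr rfl fun i _ => ?_
    rw [ex_const_mul]
    congr 1
    simp only [hg, mul_add]
    rw [h.grow.ex_add ((Poly.coord i).mul mv) ((Poly.coord i).mul (h.poly_quad C)),
      h.ex_coord_mul_quad C i, add_zero]
    have : (fun x => x i * (v ⬝ᵥ gr U x)) = fun x => ∑ j, v j * (x i * gr U x j) := by
      funext x; simp only [dotProduct, mul_sum]; exact sum_congr rfl fun j _ => by ring
    rw [this, h.grow.ex_sum _ fun j _ => ((Poly.coord i).mul (h.poly_gr j)).const_mul _]
    simp [ex_const_mul, h.ex_coord_mul_gr]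
  have e4 : ex U (fun x => g x ^ 2) = v ⬝ᵥ (mH U *ᵥ v)
      + 2 * (∑ l, v l * ∑ i, ∑ j, C i j * skew U i j l) + ex U fun x => quadTest U C x ^ 2 := by
    have mi : ∀ l, Poly fun x => v l * (gr U x l * quadTest U C x) := fun l =>
      ((h.poly_gr l).mul (h.poly_quad C)).const_mul _
    have mj : ∀ l m, Poly fun x => v l * v m * (gr U x l * gr U x m) := fun l m =>
      ((h.poly_gr l).mul (h.poly_gr m)).const_mul _
    have : (fun x => g x ^ 2) = fun x => (∑ l, ∑ m, v l * v m * (gr U x l * gr U x m))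
        + 2 * (∑ l, v l * (gr U x l * quadTest U C x)) + quadTest U C x ^ 2 := by
      funext x
      have h1 : ∑ l, ∑ m, v l * v m * (gr U x l * gr U x m) = (v ⬝ᵥ gr U x) ^ 2 := by
        simp only [sq, dotProduct, sum_mul, mul_sum]
        exact sum_congr rfl fun i _ => sum_congr rfl fun j _ => by ring
      have h2 : ∑ l, v l * (gr U x l * quadTest U C x) = (v ⬝ᵥ gr U x) * quadTest U C x := by
        simp only [dotProduct, sum_mul]; exact sum_congr rfl fun i _ => by ring
      rw [h1, h2]; simp only [hg]; ring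
    rw [this, h.grow.ex_add ((Poly.sum _ fun l _ => Poly.sum _ fun m _ => mj l m).add
      ((Poly.sum _ fun l _ => mi l).const_mul 2)) ((h.poly_quad C).pow 2),
      h.grow.ex_add (Poly.sum _ fun l _ => Poly.sum _ fun m _ => mj l m)
        ((Poly.sum _ fun l _ => mi l).const_mul 2), ex_const_mul,
      h.grow.ex_sum _ fun l _ => mi l, h.grow.ex_sum _ fun l _ => Poly.sum _ fun m _ => mj l m]
    simp only [ex_const_mul, h.ex_gr_mul_quad]
    congr 1; congr 1
    simp only [dotProduct, mulVec, mul_sum]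
    refine sum_congr rfl fun l _ => ?_
    rw [h.grow.ex_sum _ fun m _ => mj l m]
    simp only [ex_const_mul, h.ex_gr_mul_gr]
    exact sum_congr rfl fun m _ => by ring
  change 0 ≤ ex U (fun x => (A x - g x) ^ 2) at h0
  rw [e1, e2, e3, e4] at h0
  linarith

/-- The second moment of the quadratic correction. -/
theorem ex_quad_sq_le (C : Matrix (Fin n) (Fin n) ℝ) (hC : ∀ i j, C i j = C j i) :
    ex U (fun x => quadTest U C x ^ 2)
      ≤ 2 * (∑ i, ∑ j, ∑ l, ∑ m, C i j * C l m * (mH U i l * mH U j m))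
        + scoreK n b * Real.sqrt (dev U) * (∑ i, ∑ j, |C i j|) ^ 2 := by
  set q := fun i j x => gr U x i * gr U x j - hs U x i j
  have mq : ∀ i j, Poly (q i j) := fun i j => ((h.poly_gr i).mul (h.poly_gr j)).sub (h.poly_hs i j)
  have m4 : ∀ i j l m, Poly fun x => C i j * C l m * (q i j x * q l m x) := fun i j l m =>
    ((mq i j).mul (mq l m)).const_mul _
  have e : (fun x => quadTest U C x ^ 2)
      = fun x => ∑ i, ∑ j, ∑ l, ∑ m, C i j * C l m * (q i j x * q l m x) := by
    funext x; simp only [quadTest, sq, sum_mul]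
    refine sum_congr rfl fun i _ => sum_congr rfl fun j _ => ?_
    simp only [mul_sum]
    exact sum_congr rfl fun l _ => sum_congr rfl fun m _ => by simp only [q]; ring
  have e' : ex U (fun x => quadTest U C x ^ 2)
      = ∑ i, ∑ j, ∑ l, ∑ m, C i j * C l m * ex U (fun x => q i j x * q l m x) := by
    rw [e, h.grow.ex_sum _ fun i _ => Poly.sum _ fun j _ => Poly.sum _ fun l _ =>
      Poly.sum _ fun m _ => m4 i j l m]
    refine sum_congr rfl fun i _ => ?_
    rw [h.grow.ex_sum _ fun j _ => Poly.sum _ fun l _ => Poly.sum _ fun m _ => m4 i j l m]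
    refine sum_congr rfl fun j _ => ?_
    rw [h.grow.ex_sum _ fun l _ => Poly.sum _ fun m _ => m4 i j l m]
    refine sum_congr rfl fun l _ => ?_
    rw [h.grow.ex_sum _ fun m _ => m4 i j l m]
    simp only [ex_const_mul]
  set E := scoreK n b * Real.sqrt (dev U)
  have hb : ∀ i j l m, C i j * C l m * ex U (fun x => q i j x * q l m x)
      ≤ C i j * C l m * (mH U i l * mH U j m + mH U i m * mH U j l) + E * (|C i j| * |C l m|) := by
    intro i j l m
    have h1 := h.quartic i j l m
    have h2 : |C i j * C l m * (ex U (fun x => q i j x * q l m x)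
        - (mH U i l * mH U j m + mH U i m * mH U j l))| ≤ E * (|C i j| * |C l m|) := by
      rw [abs_mul, abs_mul, mul_comm E]
      exact mul_le_mul_of_nonneg_left h1 (by positivity)
    have := (abs_le.1 h2).2
    linarith
  rw [e']
  refine (sum_le_sum fun i _ => sum_le_sum fun j _ => sum_le_sum fun l _ => sum_le_sum fun m _ =>
    hb i j l m).trans (le_of_eq ?_)
  simp only [sum_add_distrib, mul_add]
  have hs2 : ∑ i, ∑ j, ∑ l, ∑ m, C i j * C l m * (mH U i m * mH U j l)
      = ∑ i, ∑ j, ∑ l, ∑ m, C i j * C l m * (mH U i l * mH U j m) := by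
    refine sum_congr rfl fun i _ => sum_congr rfl fun j _ => ?_
    rw [sum_comm]
    exact sum_congr rfl fun m _ => sum_congr rfl fun l _ => by rw [hC l m]
  rw [hs2]
  congr 1
  · ring
  · simp only [← mul_sum, sq, sum_mul]

/-- The linearised score deviates from the score by the fluctuation of the Hessian. -/
theorem var_residual_le (K : Fin n → ℝ) (i : Fin n) :
    cv2 U (fun x => K ⬝ᵥ x - gr U x i) (fun x => K ⬝ᵥ x - gr U x i)
      ≤ 1 / a * ex U fun x => ∑ j, (K j - hs U x j i) ^ 2 := by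
  have mK : Poly fun x : Fin n → ℝ => K ⬝ᵥ x := Poly.sum _ fun j _ => (Poly.coord j).const_mul (K j)
  have e : ∀ j x, pd j (fun y => K ⬝ᵥ y - gr U y i) x = K j - hs U x j i := by
    intro j x
    have d1 : ∀ l, Differentiable ℝ fun y : Fin n → ℝ => K l * y l :=
      fun l => (differentiable_apply l).const_mul _
    simp only [dotProduct]
    rw [pd_sub (Differentiable.fun_sum fun l _ => d1 l) (h.diff_gr' i), pd_gr, pd_sum _ d1]
    simp [pd_const_mul (differentiable_apply _), pd_proj]
  refine (h.poincare ((by simp only [dotProduct]; fun_prop : ContDiff ℝ 1 fun x : Fin n → ℝ =>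
    K ⬝ᵥ x).sub (h.cd_gr i)) (mK.sub (h.poly_gr i)) fun j => ?_).trans (le_of_eq ?_)
  · rw [funext (e j)]; exact (Poly.const _).sub (h.poly_hs j i)
  · congr 2; funext x; simp [sumSq, gr, ← e]

end Bd

end Vale.Agent.P254M
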