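import Vale.Agent.P254M.GibbsBd

/-!
The regularised moment-map coupling: basic objects.
-/

namespace Vale.Agent.P254M

open MeasureTheory Set Filter Topology Finset Matrix
open Vale.Agent.P245 hiding cv
open scoped ContDiff

/-- A potential, a parameter and its regularised moment map. -/
structure Setup (n : ℕ) where
  U : (Fin n → ℝ) → ℝ
  ψ : (Fin n → ℝ) → ℝ
  a : ℝ
  b : ℝ
  k : ℝ
  hU : Bd U a b
  k_one : 1 ≤ k
  hψ : Bd ψ (k / ((k + 1) * b)) (k / ((k + 1) * a))
  mass : Zp U = 1
  cent : mn U = 0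
  bal : Balanced k U ψ

namespace Setup

variable {n : ℕ} (P : Setup n)

/-- The law of `y` given `x`. -/
noncomputable def cy (x : Fin n → ℝ) : (Fin n → ℝ) → ℝ := condY P.k P.ψ x

/-- The law of `x` given `y`. -/
noncomputable def cx (y : Fin n → ℝ) : (Fin n → ℝ) → ℝ := condX P.k P.U P.ψ y

/-- The Hessian of the moment map potential. -/
noncomputable def Y (y : Fin n → ℝ) : Matrix (Fin n) (Fin n) ℝ := hs P.ψ y

/-- Its average given `x`. -/
noncomputable def Yb (x : Fin n → ℝ) : Matrix (Fin n) (Fin n) ℝ :=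
  fun i j => ex (P.cy x) fun y => P.Y y i j

/-- The averaged third derivative of the potential, given `x`. -/
noncomputable def G (x : Fin n → ℝ) (i j l : Fin n) : ℝ := skew (P.cy x) i j l / (P.k + 1)

/-- The fluctuation of `Y` given `x`. -/
noncomputable def dx (x : Fin n → ℝ) : ℝ :=
  ∑ i, ∑ j, ex (P.cy x) fun y => (P.Y y i j - P.Yb x i j) ^ 2

/-- The fluctuation of the averaged Hessian given `y`. -/
noncomputable def dy (y : Fin n → ℝ) : ℝ :=
  ∑ i, ∑ j, ex (P.cx y) fun x => (P.Y y i j - P.Yb x i j) ^ 2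

/-- The squared norm of `G`. -/
noncomputable def G2 (x : Fin n → ℝ) : ℝ := ∑ i, ∑ j, ∑ l, P.G x i j l ^ 2

/-- The total fluctuation. -/
noncomputable def D : ℝ := ex P.U P.dx

end Setup

end Vale.Agent.P254M
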