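import Vale.Agent.P254M.Fibre

/-!
The regularised coupling as a joint law: coercivity of its potential and Fubini.
-/

namespace Vale.Agent.P254M

open MeasureTheory Set Filter Topology Finset Matrix
open Vale.Agent.P245 (pd dot sumSq sumSq_nonneg sq_le_sumSq continuous_sumSq dot_le_sumSq)
open scoped ContDiff

variable {n : ℕ}

lemma sumSq_add_three (p q r : Fin n → ℝ) :
    sumSq (p + q + r) ≤ 3 * sumSq p + 3 * sumSq q + 3 * sumSq r := by
  simp only [sumSq, Finset.mul_sum, ← Finset.sum_add_distrib, Pi.add_apply]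
  exact Finset.sum_le_sum fun i _ => by
    nlinarith [sq_nonneg (p i - q i), sq_nonneg (p i - r i), sq_nonneg (q i - r i)]

lemma sumSq_smul_eq (r : ℝ) (p : Fin n → ℝ) : sumSq (r • p) = r ^ 2 * sumSq p := by
  simp [sumSq, Finset.mul_sum, mul_pow]

lemma grow_sumSq {c : ℝ} (hc : 0 < c) : Grow fun x : Fin n → ℝ => c * sumSq x :=
  ⟨continuous_sumSq.const_mul c, c, 0, hc, fun x => by linarith⟩

lemma Grow.const_mul {U : (Fin n → ℝ) → ℝ} (hU : Grow U) {r : ℝ} (hr : 0 < r) :
    Grow fun x => r * U x := by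
  obtain ⟨c, C, hc, h⟩ := hU.lower
  refine ⟨hU.cont.const_mul r, r * c, r * C, mul_pos hr hc, fun x => ?_⟩
  have := mul_le_mul_of_nonneg_left (h x) hr.le
  linarith

namespace Setup

variable (P : Setup n)

lemma grow_cy (x : Fin n → ℝ) : Grow (P.cy x) := by
  have h := (P.hψ.grow.const_mul (by linarith [P.k_pos] : 0 < P.k + 1)).sub_dot (P.k • x)
  have e : P.cy x = fun y => (P.k + 1) * P.ψ y - dot (P.k • x) y := by
    funext y
    simp [cy, condY, dot, Finset.mul_sum, mul_assoc]
  rw [e]; exact h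

lemma exp_Phi (x : Fin n → ℝ) : Real.exp (Phi P.k P.ψ x) = Zp (P.cy x) :=
  Real.exp_log (P.grow_cy x).Zp_pos

lemma continuous_Phi : Continuous (Phi P.k P.ψ) := by
  have h : Continuous fun θ : Fin n → ℝ =>
      Real.log (Zp fun y => (P.k + 1) * P.ψ y - dot θ y) :=
    (P.hψ.grow.const_mul (by linarith [P.k_pos] : 0 < P.k + 1)).contDiff_logZp.continuous
  have e : Phi P.k P.ψ
      = (fun θ : Fin n → ℝ => Real.log (Zp fun y => (P.k + 1) * P.ψ y - dot θ y)) ∘
          fun x => P.k • x := by
    funext x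
    simp only [Phi, Function.comp_apply]
    refine congrArg (fun W => Real.log (Zp W)) (funext fun y => ?_)
    simp [condY, dot, Finset.mul_sum, mul_assoc]
  rw [e]
  exact h.comp (by fun_prop)

/-- The potential of the joint law. -/
noncomputable def joint (x y : Fin n → ℝ) : ℝ := P.U x + Phi P.k P.ψ x + P.cy x y

lemma continuous_joint : Continuous (Function.uncurry P.joint) := by
  have h1 := P.continuous_Phi
  have h2 := P.hU.smooth.continuous
  have h3 := P.hψ.smooth.continuous
  unfold joint cy condY dot Function.uncurry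
  fun_prop

/-- The Gaussian lower bound for the normalisation of `y` given `x`. -/
lemma log_Zp_cy_ge (x y : Fin n → ℝ) :
    sumSq ((P.k + 1) • gr P.ψ y - P.k • x) / (2 * (P.k / P.a))
        + Real.log (Zp fun v : Fin n → ℝ => P.k / P.a / 2 * sumSq v)
      ≤ Phi P.k P.ψ x + P.cy x y := by
  have hk := P.k_pos
  have ha := P.hU.a_pos
  set B := P.k / P.a with hB
  have hB0 : 0 < B := div_pos hk ha
  have hG : Grow fun v : Fin n → ℝ => B / 2 * sumSq v := grow_sumSq (half_pos hB0)
  set g := (P.k + 1) • gr P.ψ y - P.k • x with hg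
  have hW : ∀ v, P.cy x (y + v) ≤ P.cy x y + dot v g + B / 2 * sumSq v := by
    intro v
    have h := mul_le_mul_of_nonneg_left (P.hψ.taylor y v).2 (by linarith : 0 ≤ P.k + 1)
    have e1 : dot x (y + v) = dot x y + dot x v := by
      simp [dot, mul_add, Finset.sum_add_distrib]
    have e2 : dot v g = (P.k + 1) * dot v (gr P.ψ y) - P.k * dot x v := by
      simp only [hg, dot, Finset.mul_sum, ← Finset.sum_sub_distrib, Pi.sub_apply, Pi.smul_apply,
        smul_eq_mul]
      exact Finset.sum_congr rfl fun i _ => by ring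
    have e3 : (P.k + 1) * (P.k / ((P.k + 1) * P.a) / 2 * sumSq v) = B / 2 * sumSq v := by
      rw [hB]; field_simp
    simp only [cy, condY, e1, e2]
    rw [mul_add, mul_add, e3] at h
    linarith
  have e : ∀ v, dot v g + B / 2 * sumSq v
      = B / 2 * sumSq (v + B⁻¹ • g) - sumSq g / (2 * B) := by
    intro v
    simp only [sumSq, dot, Finset.mul_sum, Finset.sum_div, ← Finset.sum_add_distrib,
      ← Finset.sum_sub_distrib, Pi.add_apply, Pi.smul_apply, smul_eq_mul]
    refine Finset.sum_congr rfl fun i _ => ?_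
    field_simp
    ring
  have hlow : Real.exp (sumSq g / (2 * B) - P.cy x y) * Zp (fun v : Fin n → ℝ => B / 2 * sumSq v)
      ≤ Zp (P.cy x) := by
    have hsh : Integrable fun v : Fin n → ℝ => Real.exp (-(B / 2 * sumSq (v + B⁻¹ • g))) :=
      hG.integrable_exp.comp_add_right (B⁻¹ • g)
    have h1 : Zp (P.cy x) = ∫ v, Real.exp (-P.cy x (y + v)) :=
      (integral_add_left_eq_self (fun u => Real.exp (-P.cy x u)) y).symm
    rw [h1, Zp, ← integral_add_right_eq_self
      (fun v : Fin n → ℝ => Real.exp (-(B / 2 * sumSq v))) (B⁻¹ • g), ← integral_const_mul]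
    refine integral_mono (hsh.const_mul _) ((P.grow_cy x).integrable_exp.comp_add_left y)
      fun v => ?_
    rw [← Real.exp_add]
    exact Real.exp_le_exp.2 (by linarith [hW v, e v])
  have h2 := Real.log_le_log (mul_pos (Real.exp_pos _) hG.Zp_pos) hlow
  rw [Real.log_mul (Real.exp_pos _).ne' hG.Zp_pos.ne', Real.log_exp] at h2
  show _ ≤ Real.log (Zp (P.cy x)) + _
  linarith

/-- The joint potential is coercive. -/
lemma joint_lower :
    ∃ c C : ℝ, 0 < c ∧ ∀ x y, c * sumSq x + c * sumSq y - C ≤ P.joint x y := by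
  obtain ⟨c₀, C₀, hc₀, hU⟩ := P.hU.grow.lower
  have hk := P.k_pos
  have ha := P.hU.a_pos
  set α := P.k / ((P.k + 1) * P.b) with hα
  have hα0 : 0 < α := P.hψ.a_pos
  set C₁ := Real.log (Zp fun v : Fin n → ℝ => P.k / P.a / 2 * sumSq v) with hC₁
  set t := min (1 / (2 * (P.k / P.a))) (c₀ / (2 * P.k ^ 2)) with ht
  have ht0 : 0 < t := lt_min (by positivity) (by positivity)
  set A := (P.k + 1) ^ 2 * α ^ 2 with hA
  set c := min (c₀ / 2) (t * A / 3) with hc
  refine ⟨c, C₀ - C₁ + t * ((P.k + 1) ^ 2 * sumSq (gr P.ψ 0)), lt_min (by positivity)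
    (by rw [hA]; positivity), fun x y => ?_⟩
  set d := gr P.ψ y - gr P.ψ 0 with hd
  have h1 : α ^ 2 * sumSq y ≤ sumSq d := by
    have h := (P.hψ.monotone_gr 0 y).1
    rw [zero_add] at h
    have e : dot y (gr P.ψ y) - dot y (gr P.ψ 0) = dot y d := by
      simp [hd, dot, mul_sub, Finset.sum_sub_distrib]
    rw [e] at h
    have h' : 2 * α * dot y d ≤ α ^ 2 * sumSq y + sumSq d := by
      simp only [sumSq, dot, Finset.mul_sum, ← Finset.sum_add_distrib]
      exact Finset.sum_le_sum fun i _ => by nlinarith [sq_nonneg (α * y i - d i)]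
    have := mul_le_mul_of_nonneg_left h (by linarith : 0 ≤ 2 * α)
    linarith
  set g := (P.k + 1) • gr P.ψ y - P.k • x with hg
  have h2 : A * sumSq y ≤ 3 * sumSq g + 3 * (P.k ^ 2 * sumSq x)
      + 3 * ((P.k + 1) ^ 2 * sumSq (gr P.ψ 0)) := by
    have e : (P.k + 1) • d = g + P.k • x + (-(P.k + 1)) • gr P.ψ 0 := by
      rw [hd, hg]; module
    have h := sumSq_add_three g (P.k • x) ((-(P.k + 1)) • gr P.ψ 0)
    rw [← e, sumSq_smul_eq, sumSq_smul_eq, sumSq_smul_eq, neg_sq] at h
    refine le_trans ?_ h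
    rw [hA, mul_assoc]
    exact mul_le_mul_of_nonneg_left h1 (sq_nonneg _)
  have h3 := P.log_Zp_cy_ge x y
  rw [← hg, ← hC₁] at h3
  have h4 : t * sumSq g ≤ sumSq g / (2 * (P.k / P.a)) := by
    rw [div_eq_mul_one_div, mul_comm t]
    exact mul_le_mul_of_nonneg_left (min_le_left _ _) (sumSq_nonneg g)
  have h5 : t * (P.k ^ 2 * sumSq x) ≤ c₀ / 2 * sumSq x := by
    rw [← mul_assoc]
    refine mul_le_mul_of_nonneg_right ?_ (sumSq_nonneg x)
    have := min_le_right (1 / (2 * (P.k / P.a))) (c₀ / (2 * P.k ^ 2))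
    rw [← ht, le_div_iff₀ (by positivity)] at this
    linarith
  have h6 : c * sumSq x ≤ c₀ / 2 * sumSq x :=
    mul_le_mul_of_nonneg_right (min_le_left _ _) (sumSq_nonneg x)
  have h7 : c * sumSq y ≤ t * A / 3 * sumSq y :=
    mul_le_mul_of_nonneg_right (min_le_right _ _) (sumSq_nonneg y)
  have h8 := mul_le_mul_of_nonneg_left h2 ht0.le
  have := hU x
  unfold joint
  linarith

lemma grow_cx (y : Fin n → ℝ) : Grow (P.cx y) := by
  obtain ⟨c, C, hc, h⟩ := P.joint_lower
  refine ⟨?_, c, C + (P.k + 1) * P.ψ y, hc, fun x => ?_⟩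
  · have h1 := P.continuous_Phi
    have h2 := P.hU.smooth.continuous
    unfold cx condX dot
    fun_prop
  · have := h x y
    have := mul_nonneg hc.le (sumSq_nonneg y)
    simp only [joint, cy, condY, cx, condX] at *
    linarith

lemma exp_psi (y : Fin n → ℝ) : Real.exp (P.k * P.ψ y) = Zp (P.cx y) := by
  rw [P.bal.eq y]
  exact Real.exp_log (P.grow_cx y).Zp_pos

lemma integrable_joint {f g : (Fin n → ℝ) → ℝ} (hf : Poly f) (hg : Poly g) :
    Integrable (Function.uncurry fun x y => f x * g y * Real.exp (-P.joint x y))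
      ((volume : Measure (Fin n → ℝ)).prod volume) := by
  obtain ⟨c, C, hc, h⟩ := P.joint_lower
  have hF := ((grow_sumSq (n := n) hc).integrable hf).norm
  have hG := ((grow_sumSq (n := n) hc).integrable hg).norm
  refine ((hF.mul_prod hG).const_mul (Real.exp C)).mono' ?_ (Eventually.of_forall fun z => ?_)
  · have h1 := hf.1
    have h2 := hg.1
    have h3 := P.continuous_joint
    exact (((h1.comp continuous_fst).mul (h2.comp continuous_snd)).mul
      (h3.neg.rexp)).aestronglyMeasurable
  · simp only [Function.uncurry, Real.norm_eq_abs, abs_mul, Real.abs_exp]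
    calc |f z.1| * |g z.2| * Real.exp (-P.joint z.1 z.2)
        ≤ |f z.1| * |g z.2| * (Real.exp C * (Real.exp (-(c * sumSq z.1))
            * Real.exp (-(c * sumSq z.2)))) := by
          rw [← Real.exp_add, ← Real.exp_add]
          gcongr
          linarith [h z.1 z.2]
      _ = _ := by ring

/-- Fubini for the coupling. -/
theorem swap {f g : (Fin n → ℝ) → ℝ} (hf : Poly f) (hg : Poly g) :
    ex P.U (fun x => f x * ex (P.cy x) g) = ex P.ψ (fun y => g y * ex (P.cx y) f) := by
  have hint := P.integrable_joint hf hg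
  have h1 : ex P.U (fun x => f x * ex (P.cy x) g)
      = ∫ x, ∫ y, f x * g y * Real.exp (-P.joint x y) := by
    simp only [ex, P.mass, div_one]
    congr 1; funext x
    rw [← P.exp_Phi x, ← integral_div, mul_comm (f x), mul_assoc, ← integral_mul_const]
    congr 1; funext y
    simp only [joint, neg_add, Real.exp_add, Real.exp_neg]
    ring
  have h2 : ex P.ψ (fun y => g y * ex (P.cx y) f)
      = ∫ y, ∫ x, f x * g y * Real.exp (-P.joint x y) := by
    simp only [ex, P.bal.mass, div_one]
    congr 1; funext y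
    rw [← P.exp_psi y, ← integral_div, mul_comm (g y), mul_assoc, ← integral_mul_const]
    congr 1; funext x
    have e : P.joint x y = P.cx y x + P.k * P.ψ y + P.ψ y := by
      simp only [joint, cy, condY, cx, condX]; ring
    simp only [e, neg_add, Real.exp_add, Real.exp_neg]
    ring
  rw [h1, h2, integral_integral_swap hint]

end Setup

end Vale.Agent.P254M
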