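import Vale.Agent.P254M.ZSide

/-!
The Brascamp–Lieb inequality given `y`, and its expansion in powers of `1/k`.
-/

namespace Vale.Agent.P254M

open MeasureTheory Set Filter Topology Finset Matrix
open Vale.Agent.P245 (sumSq sumSq_nonneg sq_le_sumSq pd)

variable {n : ℕ}

lemma poly_mat_mul {A B : (Fin n → ℝ) → Matrix (Fin n) (Fin n) ℝ}
    (hA : ∀ i j, Poly fun x => A x i j) (hB : ∀ i j, Poly fun x => B x i j) (i j : Fin n) :
    Poly fun x => (A x * B x) i j :=
  (Poly.sum (F := fun l x => A x i l * B x l j) _ fun l _ => (hA i l).mul (hB l j)).congr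
    fun _ => mul_apply

lemma Poly.sqrt {f : (Fin n → ℝ) → ℝ} (hf : Poly f) : Poly fun x => Real.sqrt (f x) :=
  (hf.abs.add (Poly.const 1)).of_le (Real.continuous_sqrt.comp hf.1) fun x => by
    rw [abs_of_nonneg (Real.sqrt_nonneg _)]
    refine le_trans ?_ (le_abs_self _)
    rw [Real.sqrt_le_left (by positivity)]
    nlinarith [le_abs_self (f x), abs_nonneg (f x)]

/-- The trace pairing with a nonnegative matrix. -/
noncomputable def wsum (Y A : Matrix (Fin n) (Fin n) ℝ) : ℝ := ∑ i, ∑ l, Y i l * A i l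

lemma wsum_add (Y A B : Matrix (Fin n) (Fin n) ℝ) : wsum Y (A + B) = wsum Y A + wsum Y B := by
  simp [wsum, mul_add, sum_add_distrib]

lemma wsum_sub (Y A B : Matrix (Fin n) (Fin n) ℝ) : wsum Y (A - B) = wsum Y A - wsum Y B := by
  simp [wsum, mul_sub, sum_sub_distrib]

lemma wsum_smul (Y A : Matrix (Fin n) (Fin n) ℝ) (r : ℝ) : wsum Y (r • A) = r * wsum Y A := by
  simp [wsum, mul_sum, mul_left_comm]

lemma abs_wsum_le {Y A : Matrix (Fin n) (Fin n) ℝ} {B D : ℝ} (hY : EB Y B) (hA : EB A D) :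
    |wsum Y A| ≤ (n : ℝ) ^ 2 * (B * D) := hY.abs_sum_mul_le hA

namespace Setup

variable (P : Setup n)

/-- The rescaled test field, as a matrix acting on directions. -/
noncomputable def Sm (E : Ten n) (y x : Fin n → ℝ) : Matrix (Fin n) (Fin n) ℝ :=
  fun q l => ∑ p', (∑ p, E p q l * P.Y y p p') * gr (P.cx y) x p'

lemma poly_Sm (E : Ten n) (y : Fin n → ℝ) (q l : Fin n) : Poly fun x => P.Sm E y x q l :=
  Poly.sum (F := fun p' x => (∑ p, E p q l * P.Y y p p') * gr (P.cx y) x p') _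
    fun p' _ => ((P.bd_cx y).poly_gr p').const_mul _

lemma poly_Wz (C : Ten n) (Kc : ℝ) (i j : Fin n) : Poly fun x => P.Wz C Kc x i j := by
  have h0 : Poly fun x => P.N0 C Kc x i j := by
    refine (((P.poly_Yb i j).add (?_ : Poly fun x => gam C (P.G x) (P.Yb x) i j)).add
      ((P.poly_dx.sqrt.const_mul (zK n P.a Kc)).mul
        (Poly.const ((1 : Matrix (Fin n) (Fin n) ℝ) i j)))).congr fun x => ?_
    · simp only [gam]
      exact (((Poly.sum _ fun p _ => Poly.sum _ fun q _ =>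
        ((P.poly_G p q j).const_mul (C p q i)).add ((P.poly_G p q i).const_mul (C p q j)))).neg).add
        ((Poly.sum _ fun p _ => Poly.sum _ fun q _ => Poly.sum _ fun r _ => Poly.sum _ fun u _ =>
          ((P.poly_Yb p r).mul (P.poly_Yb q u)).const_mul (C p q i * C r u j)).const_mul 2)
    · simp [N0]
  exact ((P.poly_Yb i j).add (h0.const_mul (1 / P.k))).congr fun x => by simp [Wz]

lemma poly_Hm (C : Ten n) (Kc : ℝ) (s : Fin n → ℝ) (i j : Fin n) :
    Poly fun x => P.Hm C Kc s x i j := by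
  have hT : ∀ i j, Poly fun x => (1 - P.Tm s x) i j := fun i j =>
    ((Poly.const ((1 : Matrix (Fin n) (Fin n) ℝ) i j)).sub
      ((poly_mat_mul (A := fun _ => diagonal s) (B := P.Yb) (fun _ _ => Poly.const _) P.poly_Yb i j).const_mul
        (1 / P.k))).congr fun x => by simp [Tm]
  have h1 := poly_mat_mul (A := fun x => (1 - P.Tm s x)ᵀ * P.Wz C Kc x)
    (poly_mat_mul (A := fun x => (1 - P.Tm s x)ᵀ) (fun i j => hT j i) (P.poly_Wz C Kc)) hT i j
  have h2 := poly_mat_mul (A := fun x => P.Yb x * diagonal s)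
    (poly_mat_mul (B := fun _ => diagonal s) P.poly_Yb fun _ _ => Poly.const _) P.poly_Yb i j
  exact (h1.add (h2.const_mul (1 / P.k))).congr fun x => by simp [Hm]

/-- The conditional covariance given `y`, bounded by Brascamp–Lieb with the test field. -/
theorem bl_trace {C : Ten n} {Kc : ℝ} (hsym : ∀ p q i, C p q i = C q p i)
    (hC : ∀ p q i, |C p q i| ≤ Kc) {s : Fin n → ℝ} (hs0 : ∀ i, 0 ≤ s i)
    (hU : ∀ x v, ∑ i, s i * v i ^ 2 ≤ v ⬝ᵥ (hs P.U x *ᵥ v)) (E : Ten n) (y : Fin n → ℝ) :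
    wsum (P.Y y) (P.Y y) ≤ ex (P.cx y) (fun x => wsum (P.Y y)
        ((1 - (1 / P.k) • P.Sm E y x)ᵀ * P.Hm C Kc s x * (1 - (1 / P.k) • P.Sm E y x)))
      + 1 / P.k * pr E (tc (P.Y y * P.Y y) 1 (P.Y y) E) := by
  have hk := P.k_pos
  have hB := P.bd_cx y
  have hG := hB.grow
  set Z := fun x => (1 : Matrix (Fin n) (Fin n) ℝ) - (1 / P.k) • P.Sm E y x with hZ
  set Q := fun x => (Z x)ᵀ * P.Hm C Kc s x * Z x with hQ
  have mZ : ∀ i j, Poly fun x => Z x i j := fun i j =>
    ((Poly.const ((1 : Matrix (Fin n) (Fin n) ℝ) i j)).sub ((P.poly_Sm E y i j).const_mul (1 / P.k))).congr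
      fun x => by simp [Z]
  have mQ : ∀ i j, Poly fun x => Q x i j :=
    poly_mat_mul (poly_mat_mul (A := fun x => (Z x)ᵀ) (fun i j => mZ j i) (P.poly_Hm C Kc s)) mZ
  set Dh := fun q p' l => ∑ p, E p q l * P.Y y p p' with hDh
  set R : Matrix (Fin n) (Fin n) ℝ :=
    fun i l => ex (P.cx y) (fun x => Q x i l) + 1 / P.k * ∑ q, ∑ p', Dh q p' i * Dh q p' l
  have form : ∀ v, v ⬝ᵥ (P.Y y *ᵥ v) ≤ v ⬝ᵥ (R *ᵥ v) := by
    intro v
    set D : Matrix (Fin n) (Fin n) ℝ := fun q p' => 1 / P.k * ∑ l, v l * Dh q p' l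
    have hf1 : ContDiff ℝ 1 fun x : Fin n → ℝ => v ⬝ᵥ x := by simp only [dotProduct]; fun_prop
    have mf : Poly fun x : Fin n → ℝ => v ⬝ᵥ x := Poly.sum _ fun i _ => (Poly.coord i).const_mul (v i)
    have egr : ∀ x i, pd i (fun x : Fin n → ℝ => v ⬝ᵥ x) x = v i := fun x i => pd_dot_left v i x
    have hbl := hB.bl hf1 mf (fun i => by rw [funext fun x => egr x i]; exact Poly.const _)
      (M := fun x => (1 / P.k) • P.Hm C Kc s x)
      (fun i j => ((P.poly_Hm C Kc s i j).const_mul (1 / P.k)).congr fun x => by simp)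
      (fun x w u => P.hM_bound hsym hC hs0 hU y x w u) D
    have eg : ∀ x, gr (fun x : Fin n → ℝ => v ⬝ᵥ x) x - D *ᵥ gr (P.cx y) x = Z x *ᵥ v := by
      intro x
      funext q
      simp only [Pi.sub_apply, gr, egr, Z, sub_mulVec, one_mulVec, smul_mulVec, Pi.smul_apply, smul_eq_mul]
      congr 1
      simp only [mulVec, dotProduct, D, Sm, Dh, mul_sum, sum_mul]
      rw [sum_comm]
      exact sum_congr rfl fun l _ => sum_congr rfl fun p' _ => sum_congr rfl fun p _ => by
        simp only [gr]; ring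
    have e1 : cv2 (P.cx y) (fun x => v ⬝ᵥ x) (fun x => v ⬝ᵥ x) = 1 / P.k * (v ⬝ᵥ (P.Y y *ᵥ v)) := by
      rw [show (fun x : Fin n → ℝ => v ⬝ᵥ x) = fun x => Vale.Agent.P245.dot v x from rfl, hB.cv2_dot v]
      simp only [dotProduct, mulVec, mul_sum]
      refine sum_congr rfl fun i _ => sum_congr rfl fun j _ => ?_
      rw [P.Y_eq]; field_simp
    have e2 : ex (P.cx y) (fun x => (gr (fun x : Fin n → ℝ => v ⬝ᵥ x) x - D *ᵥ gr (P.cx y) x) ⬝ᵥ
        (((1 / P.k) • P.Hm C Kc s x) *ᵥ (gr (fun x : Fin n → ℝ => v ⬝ᵥ x) x - D *ᵥ gr (P.cx y) x)))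
        = 1 / P.k * ∑ i, ∑ l, v i * v l * ex (P.cx y) (fun x => Q x i l) := by
      simp only [eg, smul_mulVec, dotProduct_smul, smul_eq_mul]
      rw [ex_const_mul]
      congr 1
      have ev : ∀ x, (Z x *ᵥ v) ⬝ᵥ (P.Hm C Kc s x *ᵥ (Z x *ᵥ v)) = ∑ i, ∑ l, v i * v l * Q x i l := by
        intro x
        have : (Z x *ᵥ v) ⬝ᵥ (P.Hm C Kc s x *ᵥ (Z x *ᵥ v)) = v ⬝ᵥ (Q x *ᵥ v) := by
          simp only [Q]
          rw [← mulVec_mulVec, ← mulVec_mulVec, dotProduct_mulVec v, vecMul_transpose]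
        rw [this]
        simp only [dotProduct, mulVec, mul_sum]
        exact sum_congr rfl fun i _ => sum_congr rfl fun l _ => by ring
      simp only [ev]
      rw [hG.ex_sum _ fun i _ => Poly.sum _ fun l _ => (mQ i l).const_mul _]
      refine sum_congr rfl fun i _ => ?_
      rw [hG.ex_sum _ fun l _ => (mQ i l).const_mul _]
      simp only [ex_const_mul]
    have e3 : ∑ q, ∑ p', D q p' ^ 2
        = 1 / P.k * ∑ i, ∑ l, v i * v l * (1 / P.k * ∑ q, ∑ p', Dh q p' i * Dh q p' l) := by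
      have : ∀ q p', D q p' ^ 2
          = ∑ i, ∑ l, 1 / P.k * (v i * v l * (1 / P.k * (Dh q p' i * Dh q p' l))) := fun q p' => by
        simp only [D, mul_sum, sq, sum_mul]
        exact sum_congr rfl fun i _ => sum_congr rfl fun l _ => by ring
      simp only [this, mul_sum]
      rw [sum_comm_cycle (s := (Finset.univ : Finset (Fin n)))]
      refine sum_congr rfl fun i _ => ?_
      rw [sum_comm_cycle (s := (Finset.univ : Finset (Fin n)))]
    rw [e1, e2, e3, ← mul_add] at hbl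
    refine (le_of_mul_le_mul_left hbl (by positivity)).trans (le_of_eq ?_)
    simp only [dotProduct, mulVec, R, mul_sum, ← sum_add_distrib]
    exact sum_congr rfl fun i _ => sum_congr rfl fun l _ => by
      simp only [← mul_sum]; ring
  refine ((P.between_Y y).sum_mono form).trans (le_of_eq ?_)
  have t1 : ∑ i, ∑ l, P.Y y i l * (1 / P.k * ∑ q, ∑ p', Dh q p' i * Dh q p' l)
      = 1 / P.k * pr E (tc (P.Y y * P.Y y) 1 (P.Y y) E) := by
    have eT : ∀ a b c, tc (P.Y y * P.Y y) 1 (P.Y y) E a b c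
        = ∑ p', P.Y y a p' * ∑ i, P.Y y i c * Dh b p' i := by
      intro a b c
      have hs' : ∀ p q, P.Y y p q = P.Y y q p := fun p q => hs_symm P.hψ.smooth y p q
      rw [tc_apply]
      calc ∑ p, (P.Y y * P.Y y) p a * ∑ q, (1 : Matrix (Fin n) (Fin n) ℝ) q b * ∑ r, P.Y y r c * E p q r
          = ∑ p, (∑ p', P.Y y p p' * P.Y y p' a) * ∑ r, P.Y y r c * E p b r := by
            simp [one_apply, mul_apply]
        _ = _ := by
            simp only [Dh, sum_mul, mul_sum]
            rw [sum_comm_cycle]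
            refine sum_congr rfl fun p' _ => ?_
            rw [sum_comm]
            exact sum_congr rfl fun i _ => sum_congr rfl fun p _ => by rw [hs' a p']; ring
    have : ∀ i l, P.Y y i l * (1 / P.k * ∑ q, ∑ p', Dh q p' i * Dh q p' l)
        = 1 / P.k * ∑ q, ∑ p', P.Y y i l * Dh q p' i * Dh q p' l := fun i l => by
      simp only [mul_sum]; exact sum_congr rfl fun q _ => sum_congr rfl fun p' _ => by ring
    simp only [this, ← mul_sum, pr, eT]
    congr 1
    calc ∑ i, ∑ l, ∑ q, ∑ p', P.Y y i l * Dh q p' i * Dh q p' l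
        = ∑ q, ∑ l, ∑ p', Dh q p' l * ∑ i, P.Y y i l * Dh q p' i := by
          rw [sum_comm_cycle]
          refine sum_congr rfl fun q _ => ?_
          rw [sum_comm]
          refine sum_congr rfl fun l _ => ?_
          rw [sum_comm]
          refine sum_congr rfl fun p' _ => ?_
          rw [mul_sum]
          exact sum_congr rfl fun i _ => by ring
      _ = ∑ q, ∑ l, ∑ a, E a q l * ∑ p', P.Y y a p' * ∑ i, P.Y y i l * Dh q p' i := by
          refine sum_congr rfl fun q _ => sum_congr rfl fun l _ => ?_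
          simp only [show ∀ p', Dh q p' l = ∑ a, E a q l * P.Y y a p' from fun p' => rfl, sum_mul]
          rw [sum_comm]
          refine sum_congr rfl fun a _ => ?_
          simp only [mul_sum]
          exact sum_congr rfl fun p' _ => sum_congr rfl fun i _ => by ring
      _ = _ := by
          symm
          rw [sum_comm]
          refine sum_congr rfl fun q _ => ?_
          rw [sum_comm]
  simp only [R, mul_add, sum_add_distrib, t1, wsum]
  congr 1
  symm
  calc ex (P.cx y) (fun x => ∑ i, ∑ l, P.Y y i l * Q x i l)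
      = ∑ i, ex (P.cx y) (fun x => ∑ l, P.Y y i l * Q x i l) :=
        hG.ex_sum (F := fun i x => ∑ l, P.Y y i l * Q x i l) _ fun i _ =>
          Poly.sum _ fun l _ => (mQ i l).const_mul _
    _ = _ := sum_congr rfl fun i _ => by
        rw [hG.ex_sum (F := fun l x => P.Y y i l * Q x i l) _ fun l _ => (mQ i l).const_mul _]
        simp only [ex_const_mul]

end Setup

end Vale.Agent.P254M
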