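import Vale.Agent.P254M.PointAux

/-!
The upper bound for the inverse Hessian of the potential given `y`, from the score given `x`.
-/

namespace Vale.Agent.P254M

open MeasureTheory Set Filter Topology Finset Matrix
open Vale.Agent.P245 (sumSq sumSq_nonneg sq_le_sumSq)

variable {n : ℕ}

/-- The quadratic correction produced by the test coefficients `C`. -/
noncomputable def gam (C G : Ten n) (Y : Matrix (Fin n) (Fin n) ℝ) : Matrix (Fin n) (Fin n) ℝ :=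
  fun i l => -(∑ p, ∑ q, (C p q i * G p q l + C p q l * G p q i))
    + 2 * ∑ p, ∑ q, ∑ r, ∑ u, C p q i * C r u l * (Y p r * Y q u)

/-- The constant of the score error. -/
noncomputable def zK (n : ℕ) (a Kc : ℝ) : ℝ := scoreK n 1 / a * (n * ((n : ℝ) ^ 2 * Kc) ^ 2)

namespace Setup

variable (P : Setup n)

/-- The first order correction. -/
noncomputable def N0 (C : Ten n) (Kc : ℝ) (x : Fin n → ℝ) : Matrix (Fin n) (Fin n) ℝ :=
  P.Yb x + gam C (P.G x) (P.Yb x)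
    + (zK n P.a Kc * Real.sqrt (P.dx x)) • (1 : Matrix (Fin n) (Fin n) ℝ)

/-- The bound for the rescaled inverse covariance. -/
noncomputable def Wz (C : Ten n) (Kc : ℝ) (x : Fin n → ℝ) : Matrix (Fin n) (Fin n) ℝ :=
  P.Yb x + (1 / P.k) • P.N0 C Kc x

/-- The curvature correction. -/
noncomputable def Tm (s : Fin n → ℝ) (x : Fin n → ℝ) : Matrix (Fin n) (Fin n) ℝ :=
  (1 / P.k) • (diagonal s * P.Yb x)

/-- The bound for the rescaled inverse Hessian of the potential given `y`. -/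
noncomputable def Hm (C : Ten n) (Kc : ℝ) (s : Fin n → ℝ) (x : Fin n → ℝ) :
    Matrix (Fin n) (Fin n) ℝ :=
  (1 - P.Tm s x)ᵀ * P.Wz C Kc x * (1 - P.Tm s x) + (1 / P.k) • (P.Yb x * diagonal s * P.Yb x)

lemma cr_bound {C : Ten n} {Kc : ℝ} (hsym : ∀ p q i, C p q i = C q p i)
    (hC : ∀ p q i, |C p q i| ≤ Kc) (x u v : Fin n → ℝ) :
    2 * (u ⬝ᵥ v) - u ⬝ᵥ (covm (P.cy x) *ᵥ u) ≤ P.k * (v ⬝ᵥ (P.Wz C Kc x *ᵥ v)) := by
  have hB := P.bd_cy x
  have hk := P.k_pos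
  have hk1 := P.k1_pos
  have ha := P.hU.a_pos
  set c := -(1 / (P.k + 1)) with hc
  set Cv : Matrix (Fin n) (Fin n) ℝ := fun p q => c * ∑ i, v i * C p q i with hCv
  have hCs : ∀ p q, Cv p q = Cv q p := fun p q => by simp only [Cv, hsym p q]
  have hmH : mH (P.cy x) = (P.k + 1) • P.Yb x := by
    ext i j; simp [P.Yb_eq, mul_div_cancel₀ _ hk1.ne']
  have hsk : ∀ i j l, skew (P.cy x) i j l = (P.k + 1) * P.G x i j l := fun i j l => by
    rw [G, mul_div_cancel₀ _ hk1.ne']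
  have hq := hB.ex_quad_sq_le Cv hCs
  refine (hB.cr_quad v u Cv).trans ((add_le_add le_rfl hq).trans ?_)
  have e1 : v ⬝ᵥ (mH (P.cy x) *ᵥ v) = (P.k + 1) * (v ⬝ᵥ (P.Yb x *ᵥ v)) := by
    rw [hmH, smul_mulVec, dotProduct_smul, smul_eq_mul]
  have e2 : v ⬝ᵥ (gam C (P.G x) (P.Yb x) *ᵥ v)
      = 2 * (∑ l, v l * ∑ i, ∑ j, Cv i j * skew (P.cy x) i j l)
        + 2 * ∑ i, ∑ j, ∑ l, ∑ m, Cv i j * Cv l m * (mH (P.cy x) i l * mH (P.cy x) j m) := by
    have q1 : ∑ i, ∑ l, v i * v l * (∑ p, ∑ q, C p q i * P.G x p q l)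
        = -∑ l, v l * ∑ p, ∑ q, Cv p q * skew (P.cy x) p q l := by
      rw [sum_comm, ← sum_neg_distrib]
      refine sum_congr rfl fun l _ => ?_
      simp only [Cv, hsk, mul_sum, sum_mul, ← sum_neg_distrib]
      rw [sum_comm]
      refine sum_congr rfl fun p _ => ?_
      rw [sum_comm]
      refine sum_congr rfl fun q _ => sum_congr rfl fun i _ => ?_
      rw [hc]; field_simp
    have q2 : ∑ i, ∑ l, v i * v l * (∑ p, ∑ q, C p q l * P.G x p q i)
        = ∑ i, ∑ l, v i * v l * (∑ p, ∑ q, C p q i * P.G x p q l) := by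
      rw [sum_comm]
      exact sum_congr rfl fun i _ => sum_congr rfl fun l _ => by ring
    have q3 : ∑ i, ∑ l, v i * v l * (∑ p, ∑ q, ∑ r, ∑ u, C p q i * C r u l * (P.Yb x p r * P.Yb x q u))
        = ∑ i, ∑ j, ∑ l, ∑ m, Cv i j * Cv l m * (mH (P.cy x) i l * mH (P.cy x) j m) := by
      simp only [hmH, Cv]
      calc ∑ i, ∑ l, v i * v l * (∑ p, ∑ q, ∑ r, ∑ u, C p q i * C r u l * (P.Yb x p r * P.Yb x q u))
          = ∑ p, ∑ q, ∑ r, ∑ u, (∑ i, ∑ l, v i * C p q i * (v l * C r u l)) * (P.Yb x p r * P.Yb x q u) := by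
            simp only [mul_sum, sum_mul]
            rw [sum_comm_cycle]
            refine sum_congr rfl fun p _ => ?_
            rw [sum_comm_cycle]
            refine sum_congr rfl fun q _ => ?_
            rw [sum_comm_cycle]
            refine sum_congr rfl fun r _ => ?_
            rw [sum_comm_cycle]
            exact sum_congr rfl fun u _ => sum_congr rfl fun i _ => sum_congr rfl fun l _ => by ring
        _ = _ := by
            refine sum_congr rfl fun p _ => sum_congr rfl fun q _ => sum_congr rfl fun r _ =>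
              sum_congr rfl fun u _ => ?_
            rw [← sum_mul_sum, hc, Matrix.smul_apply, Matrix.smul_apply, smul_eq_mul, smul_eq_mul]
            field_simp
    have e0 : v ⬝ᵥ (gam C (P.G x) (P.Yb x) *ᵥ v)
        = -(∑ i, ∑ l, v i * v l * (∑ p, ∑ q, C p q i * P.G x p q l))
          - (∑ i, ∑ l, v i * v l * (∑ p, ∑ q, C p q l * P.G x p q i))
          + 2 * ∑ i, ∑ l, v i * v l * (∑ p, ∑ q, ∑ r, ∑ u, C p q i * C r u l * (P.Yb x p r * P.Yb x q u)) := by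
      have : ∀ i l, v i * (gam C (P.G x) (P.Yb x) i l * v l)
          = -(v i * v l * ∑ p, ∑ q, C p q i * P.G x p q l) - v i * v l * (∑ p, ∑ q, C p q l * P.G x p q i)
            + 2 * (v i * v l * ∑ p, ∑ q, ∑ r, ∑ u, C p q i * C r u l * (P.Yb x p r * P.Yb x q u)) := by
        intro i l; simp only [gam, sum_add_distrib]; ring
      calc v ⬝ᵥ (gam C (P.G x) (P.Yb x) *ᵥ v) = ∑ i, ∑ l, v i * (gam C (P.G x) (P.Yb x) i l * v l) := by
            simp only [dotProduct, mulVec, mul_sum]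
        _ = _ := by
            rw [sum_congr rfl fun i _ => sum_congr rfl fun l _ => this i l]
            simp only [sum_add_distrib, sum_sub_distrib, sum_neg_distrib, ← mul_sum]
    rw [e0, q2, q1, q3]; ring
  have e3 : P.k * (v ⬝ᵥ (P.Wz C Kc x *ᵥ v)) = (P.k + 1) * (v ⬝ᵥ (P.Yb x *ᵥ v))
      + v ⬝ᵥ (gam C (P.G x) (P.Yb x) *ᵥ v) + zK n P.a Kc * Real.sqrt (P.dx x) * sumSq v := by
    simp only [Wz, N0, add_mulVec, smul_mulVec, one_mulVec, dotProduct_add, dotProduct_smul, smul_eq_mul]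
    rw [show v ⬝ᵥ v = sumSq v from sum_congr rfl fun i _ => (sq (v i)).symm]
    field_simp; ring
  have e4 : scoreK n (P.k / P.a) * Real.sqrt (dev (P.cy x)) * (∑ i, ∑ j, |Cv i j|) ^ 2
      ≤ zK n P.a Kc * Real.sqrt (P.dx x) * sumSq v := by
    have hsK : scoreK n (P.k / P.a) = P.k / P.a * scoreK n 1 := by
      simp only [scoreK, Real.sqrt_mul (show (0:ℝ) ≤ ((n:ℝ) + 2) * n by positivity),
        Real.sqrt_sq (show (0:ℝ) ≤ P.k / P.a by positivity)]
      simp; ring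
    have hdev : Real.sqrt (dev (P.cy x)) = (P.k + 1) * Real.sqrt (P.dx x) := by
      rw [P.dx_eq, Real.sqrt_div (hB.dev_nonneg), Real.sqrt_sq hk1.le, mul_div_cancel₀ _ hk1.ne']
    have hsum : (∑ p, ∑ q, |Cv p q|) ^ 2
        ≤ (1 / (P.k + 1)) ^ 2 * (((n : ℝ) ^ 2 * Kc) ^ 2 * (n * sumSq v)) := by
      have h1 : ∀ p q, |Cv p q| ≤ 1 / (P.k + 1) * (Kc * ∑ i, |v i|) := fun p q => by
        rw [show Cv p q = c * ∑ i, v i * C p q i from rfl, abs_mul, hc, abs_neg,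
          abs_of_pos (show (0:ℝ) < 1 / (P.k + 1) by positivity)]
        refine mul_le_mul_of_nonneg_left ((abs_sum_le_sum_abs _ _).trans ?_) (by positivity)
        rw [mul_sum]
        refine sum_le_sum fun i _ => ?_
        rw [abs_mul, mul_comm Kc]
        exact mul_le_mul_of_nonneg_left (hC p q i) (abs_nonneg _)
      have h2 : ∑ p, ∑ q, |Cv p q| ≤ 1 / (P.k + 1) * ((n : ℝ) ^ 2 * Kc * ∑ i, |v i|) := by
        refine (sum_le_sum fun p _ => sum_le_sum fun q _ => h1 p q).trans (le_of_eq ?_)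
        simp; ring
      have h3 : (∑ i, |v i|) ^ 2 ≤ n * sumSq v := by
        refine sq_sum_le_card_mul_sum_sq.trans (le_of_eq ?_)
        simp [sumSq]
      calc (∑ p, ∑ q, |Cv p q|) ^ 2 ≤ (1 / (P.k + 1) * ((n : ℝ) ^ 2 * Kc * ∑ i, |v i|)) ^ 2 :=
            pow_le_pow_left₀ (sum_nonneg fun _ _ => sum_nonneg fun _ _ => abs_nonneg _) h2 2
        _ = (1 / (P.k + 1)) ^ 2 * (((n : ℝ) ^ 2 * Kc) ^ 2 * (∑ i, |v i|) ^ 2) := by ring
        _ ≤ _ := by gcongr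
    rw [hsK, hdev]
    have hs1 : (0:ℝ) ≤ scoreK n 1 := by simp only [scoreK]; positivity
    refine (mul_le_mul_of_nonneg_left hsum (by positivity)).trans ?_
    calc P.k / P.a * scoreK n 1 * ((P.k + 1) * Real.sqrt (P.dx x))
          * ((1 / (P.k + 1)) ^ 2 * (((n : ℝ) ^ 2 * Kc) ^ 2 * (n * sumSq v)))
        = P.k / (P.k + 1) * (zK n P.a Kc * Real.sqrt (P.dx x) * sumSq v) := by
          rw [zK]; field_simp
      _ ≤ 1 * (zK n P.a Kc * Real.sqrt (P.dx x) * sumSq v) := by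
          have := sumSq_nonneg v
          refine mul_le_mul_of_nonneg_right ((div_le_one hk1).2 (by linarith)) ?_
          unfold zK; positivity
      _ = _ := one_mul _
  rw [e3, e1]
  linarith

/-- The bound for the inverse Hessian given `y`. -/
theorem hM_bound {C : Ten n} {Kc : ℝ} (hsym : ∀ p q i, C p q i = C q p i)
    (hC : ∀ p q i, |C p q i| ≤ Kc) {s : Fin n → ℝ} (hs0 : ∀ i, 0 ≤ s i)
    (hU : ∀ x v, ∑ i, s i * v i ^ 2 ≤ v ⬝ᵥ (hs P.U x *ᵥ v)) (y x w u : Fin n → ℝ) :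
    2 * (w ⬝ᵥ u) - u ⬝ᵥ (hs (P.cx y) x *ᵥ u) ≤ w ⬝ᵥ (((1 / P.k) • P.Hm C Kc s x) *ᵥ w) := by
  have hk := P.k_pos
  set p := (1 / P.k) • (P.Yb x *ᵥ w) with hp
  set v := w - diagonal s *ᵥ p with hv
  have h1 := P.cr_bound hsym hC x (P.k • u) ((1 / P.k) • v)
  simp only [dotProduct_smul, smul_dotProduct, mulVec_smul, smul_eq_mul] at h1
  have h2 : 2 * ((diagonal s *ᵥ p) ⬝ᵥ u) - u ⬝ᵥ (hs P.U x *ᵥ u) ≤ p ⬝ᵥ (diagonal s *ᵥ p) := by
    refine le_trans ?_ (show 2 * ((diagonal s *ᵥ p) ⬝ᵥ u) - ∑ i, s i * u i ^ 2 ≤ _ from ?_)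
    · linarith [hU x u]
    · simp only [dotProduct, mulVec_diagonal, mul_sum, ← sum_sub_distrib]
      exact sum_le_sum fun i _ => by nlinarith [mul_nonneg (hs0 i) (sq_nonneg (p i - u i))]
  have e1 : u ⬝ᵥ (hs (P.cx y) x *ᵥ u)
      = u ⬝ᵥ (hs P.U x *ᵥ u) + P.k * (P.k * (u ⬝ᵥ (covm (P.cy x) *ᵥ u))) := by
    simp only [dotProduct, mulVec, P.hs_cx, mul_sum, ← sum_add_distrib]
    exact sum_congr rfl fun i _ => sum_congr rfl fun j _ => by ring
  have e2 : w ⬝ᵥ u = v ⬝ᵥ u + (diagonal s *ᵥ p) ⬝ᵥ u := by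
    rw [← add_dotProduct, hv, sub_add_cancel]
  have e3 : w ⬝ᵥ (((1 / P.k) • P.Hm C Kc s x) *ᵥ w)
      = 1 / P.k * (v ⬝ᵥ (P.Wz C Kc x *ᵥ v)) + p ⬝ᵥ (diagonal s *ᵥ p) := by
    have hvT : (1 - P.Tm s x) *ᵥ w = v := by
      rw [sub_mulVec, one_mulVec, hv, hp, Tm, smul_mulVec, mulVec_smul, ← mulVec_mulVec]
    have hsymY : (P.Yb x)ᵀ = P.Yb x := by
      ext i j
      show P.Yb x j i = P.Yb x i j
      simp only [P.Yb_eq, (P.bd_cy x).mH_symm i j]
    rw [Hm, smul_mulVec, dotProduct_smul, smul_eq_mul, add_mulVec, dotProduct_add,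
      smul_mulVec, dotProduct_smul, smul_eq_mul]
    have a1 : w ⬝ᵥ (((1 - P.Tm s x)ᵀ * P.Wz C Kc x * (1 - P.Tm s x)) *ᵥ w)
        = v ⬝ᵥ (P.Wz C Kc x *ᵥ v) := by
      rw [← mulVec_mulVec, ← mulVec_mulVec, dotProduct_mulVec, vecMul_transpose, hvT]
    have a2 : w ⬝ᵥ ((P.Yb x * diagonal s * P.Yb x) *ᵥ w)
        = P.k * (P.k * (p ⬝ᵥ (diagonal s *ᵥ p))) := by
      have hp' : P.Yb x *ᵥ w = P.k • p := by
        rw [hp, smul_smul, mul_one_div_cancel hk.ne', one_smul]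
      rw [← mulVec_mulVec, ← mulVec_mulVec, dotProduct_mulVec, ← mulVec_transpose, hsymY, hp',
        mulVec_smul, smul_dotProduct, dotProduct_smul, smul_eq_mul, smul_eq_mul]
    rw [a1, a2]; field_simp
  rw [e1, e2, e3]
  have h3 : P.k * (u ⬝ᵥ (covm (P.cy x) *ᵥ u)) * P.k
      = P.k * (P.k * (u ⬝ᵥ (covm (P.cy x) *ᵥ u))) := by ring
  have e4 : 2 * (v ⬝ᵥ u) - P.k * (P.k * (u ⬝ᵥ (covm (P.cy x) *ᵥ u)))
      ≤ 1 / P.k * (v ⬝ᵥ (P.Wz C Kc x *ᵥ v)) := by
    refine le_trans (le_of_eq ?_) (h1.trans (le_of_eq ?_))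
    · rw [dotProduct_comm v u]; field_simp
    · field_simp
  linarith

end Setup

end Vale.Agent.P254M
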